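import Crest.Agent.R17.M2.Conv

/-! Row 17, block M2 (owner helper24): the Hecke identity for shifted sums of a convolution. -/

set_option autoImplicit false

namespace Crest.Agent.R17.M2

open scoped ComplexConjugate
open Complex

variable {f w b θ : O → ℂ} {α : ℝ} {R : O}

open Classical in
/-- `tsum_Pr_dvd` -/
theorem Tq_dvd (hθ : Mu α θ) {c : O} (hc : Prim c) (f : O → ℂ) (R : O) :
    ∑' m : Pr, (if c ∣ (m : O) then f (R * m) * θ m else 0) = θ c * Tq f (R * c) θ := by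
  rw [tsum_Pr_dvd hc (fun m => f (R * m) * θ m), Tq, ← tsum_mul_left]
  refine tsum_congr fun m => ?_
  rw [hθ.mul c m hc (Pr_prim m), mul_assoc R]
  ring

open Classical in
/-- `sum_mu_coprime`, `Summable.tsum_finsetSum`, `Tq_dvd` -/
theorem Tq_mask (hf : Dec f) (hθ : Mu α θ) (hR : Prim R) {E : O} (hE : Prim E) :
    ∑' m : Pr, (if IsCoprime E (m : O) then f (R * m) * θ m else 0) =
      ∑ δ ∈ pdiv E, mu δ * θ δ * Tq f (R * δ) θ := by
  have hs : Summable fun m : Pr => f (R * m) * θ m := (hf.summable_Tq hθ hR).of_norm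
  have h1 : ∀ m : Pr, (if IsCoprime E (m : O) then f (R * m) * θ m else 0) =
      ∑ δ ∈ pdiv E, mu δ * (if δ ∣ (m : O) then f (R * m) * θ m else 0) := by
    intro m
    have : (if IsCoprime E (m : O) then f (R * m) * θ m else 0) =
        (if IsCoprime E (m : O) then 1 else 0) * (f (R * m) * θ m) := by
      split_ifs <;> simp
    rw [this, ← sum_mu_coprime hE, Finset.sum_mul]
    refine Finset.sum_congr rfl fun δ _ => ?_
    split_ifs <;> simp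
  rw [tsum_congr h1, Summable.tsum_finsetSum]
  · refine Finset.sum_congr rfl fun δ hδ => ?_
    rw [tsum_mul_left, Tq_dvd hθ (pra_of_mem_pdiv hδ).1, mul_assoc]
  · intro δ _
    refine Summable.mul_left _ ?_
    refine Summable.of_norm_bounded hs.norm fun m => ?_
    split_ifs
    · exact le_rfl
    · rw [norm_zero]; exact norm_nonneg _

open Classical in
/-- the bijection: `n₁ n₂ = R m`, `d = gcd (n₁, R)`, `n₁ = d m₁`, `R = d E`, `(m₁, E) = 1`, so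
`n₂ = E m₂`, `m₁ m₂ = m` (`Prim.exists_gcd`, `gcd_unique`; `Finset.sum_bij'` or `sum_nbij` on a sigma
type, or expand `1 = ∑_{p ∈ anti R} [p.1 ∣ n₁ ∧ coprime (n₁ / p.1) p.2]`) -/
theorem cv_shift (w b : O → ℂ) (hR : Prim R) {m : O} (hm : Prim m) :
    cv w b (R * m) = ∑ p ∈ anti R, ∑ s ∈ anti m,
      (if IsCoprime p.2 s.1 then w (p.1 * s.1) else 0) * b (p.2 * s.2) := by
  have h1 : ∑ p ∈ anti R, ∑ s ∈ anti m,
      (if IsCoprime p.2 s.1 then w (p.1 * s.1) else 0) * b (p.2 * s.2) =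
      ∑ x ∈ (anti R ×ˢ anti m).filter (fun x => IsCoprime x.1.2 x.2.1),
        w (x.1.1 * x.2.1) * b (x.1.2 * x.2.2) := by
    rw [Finset.sum_filter, Finset.sum_product]
    refine Finset.sum_congr rfl fun p _ => Finset.sum_congr rfl fun s _ => ?_
    split_ifs <;> simp
  rw [h1, cv]
  symm
  refine Finset.sum_bij (fun x _ => (x.1.1 * x.2.1, x.1.2 * x.2.2)) ?_ ?_ ?_ fun _ _ => rfl
  · intro x hx
    simp only [Finset.mem_filter, Finset.mem_product, mem_anti] at hx ⊢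
    obtain ⟨⟨⟨a1, a2, a3⟩, b1, b2, b3⟩, -⟩ := hx
    refine ⟨a1.mul b1, a2.mul b2, ?_⟩
    rw [← a3, ← b3]; ring
  · intro x hx y hy hxy
    simp only [Finset.mem_filter, Finset.mem_product, mem_anti] at hx hy
    obtain ⟨⟨⟨a1, a2, a3⟩, -⟩, hc⟩ := hx
    obtain ⟨⟨⟨a1', -, a3'⟩, -⟩, hc'⟩ := hy
    obtain ⟨e1, e2⟩ := Prod.mk.inj hxy
    obtain ⟨g1, g2, g3⟩ := gcd_unique a1 a1' (a3.trans a3'.symm) e1 hc hc'
    rw [← g2] at e2
    have g4 := mul_left_cancel₀ a2.ne_zero e2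
    exact Prod.ext (Prod.ext g1 g2) (Prod.ext g3 g4)
  · intro n hn
    obtain ⟨n1, n2, n3⟩ := mem_anti.1 hn
    obtain ⟨g, E, m₁, hg, hE, eR, e1, hc⟩ := hR.exists_gcd n.1
    have hm₁ : Prim m₁ := hg.of_mul (e1 ▸ n1)
    have e3 : m₁ * n.2 = E * m := by
      refine mul_left_cancel₀ hg.ne_zero ?_
      rw [← mul_assoc, ← e1, n3, eR, mul_assoc]
    have hd : E ∣ n.2 := hc.dvd_of_dvd_mul_left ⟨m, e3⟩
    obtain ⟨m₂, hm₂, e2⟩ := hE.exists_mul n2 hd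
    have e4 : m₁ * m₂ = m := by
      refine mul_left_cancel₀ hE.ne_zero ?_
      rw [← e3, e2]; ring
    refine ⟨((g, E), (m₁, m₂)), ?_, Prod.ext e1.symm e2.symm⟩
    simp only [Finset.mem_filter, Finset.mem_product, mem_anti]
    exact ⟨⟨⟨hg, hE, eR.symm⟩, hm₁, hm₂, e4⟩, hc⟩

/-- `cv_shift`, `tsum_Pr_pairs` backwards, `Summable.tsum_mul_tsum`, `Tq_mask` -/
theorem hecke (hw : Dec w) (hb : Dec b) (hθ : Mu α θ) (hR : Prim R) :
    Tq (cv w b) R θ =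
      ∑ p ∈ anti R, ∑ δ ∈ pdiv p.2, mu δ * θ δ * Tq w (p.1 * δ) θ * Tq b p.2 θ := by
  classical
  have key : ∀ p ∈ anti R,
      (Summable fun m : Pr => ∑ s ∈ anti m,
        (if IsCoprime p.2 s.1 then w (p.1 * s.1) * θ s.1 else 0) * (b (p.2 * s.2) * θ s.2)) ∧
      ∑' m : Pr, ∑ s ∈ anti m,
        (if IsCoprime p.2 s.1 then w (p.1 * s.1) * θ s.1 else 0) * (b (p.2 * s.2) * θ s.2) =
        ∑ δ ∈ pdiv p.2, mu δ * θ δ * Tq w (p.1 * δ) θ * Tq b p.2 θ := by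
    intro p hp
    obtain ⟨h1, h2, -⟩ := mem_anti.1 hp
    have s1 : Summable fun a : Pr =>
        ‖(if IsCoprime p.2 (a : O) then w (p.1 * a) * θ a else 0)‖ := by
      refine Summable.of_nonneg_of_le (fun _ => norm_nonneg _) (fun a => ?_)
        (hw.summable_Tq hθ h1)
      split_ifs
      · exact le_rfl
      · rw [norm_zero]; exact norm_nonneg _
    have s2 : Summable fun c : Pr => ‖b (p.2 * c) * θ c‖ := hb.summable_Tq hθ h2
    have s3 := summable_mul_of_summable_norm s1 s2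
    have s4 := summable_Pr_anti (F := fun a c =>
      (if IsCoprime p.2 a then w (p.1 * a) * θ a else 0) * (b (p.2 * c) * θ c)) s3
    refine ⟨Summable.of_norm_bounded s4 fun m => norm_sum_le _ _, ?_⟩
    rw [← tsum_Pr_pairs (F := fun a c =>
      (if IsCoprime p.2 a then w (p.1 * a) * θ a else 0) * (b (p.2 * c) * θ c)) s3,
      ← tsum_mul_tsum_of_summable_norm s1 s2, Tq_mask hw hθ h1 h2, Finset.sum_mul]
    rfl
  rw [← Finset.sum_congr rfl fun p hp => (key p hp).2,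
    ← Summable.tsum_finsetSum fun p hp => (key p hp).1]
  unfold Tq
  refine tsum_congr fun m => ?_
  rw [cv_shift w b hR m.2, Finset.sum_mul]
  refine Finset.sum_congr rfl fun p _ => ?_
  rw [Finset.sum_mul]
  refine Finset.sum_congr rfl fun s hs => ?_
  obtain ⟨h1, h2, h3⟩ := mem_anti.1 hs
  rw [← h3, hθ.mul _ _ h1 h2]
  split_ifs <;> ring

theorem hkb_prim_one : Prim (1 : O) := Pr.one_mem

theorem hkb_anti_one : anti 1 = {((1 : O), (1 : O))} := by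
  ext p
  rw [mem_anti, Finset.mem_singleton]
  constructor
  · rintro ⟨h1, h2, h3⟩
    exact Prod.ext (h1.eq_one_of_isUnit (IsUnit.of_mul_eq_one _ h3))
      (h2.eq_one_of_isUnit (IsUnit.of_mul_eq_one_right _ h3))
  · rintro rfl
    exact ⟨hkb_prim_one, hkb_prim_one, mul_one _⟩

theorem hkb_pdiv_one : pdiv 1 = {(1 : O)} := by
  ext d
  rw [mem_pdiv one_ne_zero, Finset.mem_singleton]
  constructor
  · rintro ⟨h1, h2⟩
    exact h1.eq_one_of_isUnit (isUnit_of_dvd_one h2)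
  · rintro rfl
    exact ⟨hkb_prim_one, dvd_rfl⟩

theorem Tq_cv_one (hw : Dec w) (hb : Dec b) (hθ : Mu α θ) :
    Tq (cv w b) 1 θ = Tq w 1 θ * Tq b 1 θ := by
  rw [hecke hw hb hθ hkb_prim_one, hkb_anti_one, Finset.sum_singleton, hkb_pdiv_one,
    Finset.sum_singleton, mu_one, hθ.one]
  simp

open Classical in
theorem Tq_nil (hθ : Mu α θ) (hR : Prim R) : Tq (cvL []) R θ = if R = 1 then 1 else 0 := by
  unfold Tq
  rw [tsum_eq_single (1 : Pr)]
  · simp [cvL, hθ.one]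
  · intro m hm
    have : R * (m : O) ≠ 1 := fun h =>
      hm (Subtype.ext ((Pr_prim m).eq_one_of_isUnit (IsUnit.of_mul_eq_one_right _ h)))
    simp [cvL, this]

theorem hkb_wP (ψ : O → ℂ) (a N t : ℝ) (k : O) :
    Tq (wP ψ a N t) 1 (fun m => sx k m) = PS (rc ψ k) a N t := by
  unfold Tq PS wP rc
  refine tsum_congr fun m => ?_
  rw [one_mul]
  ring

theorem hkb_wQ (a : ℝ) (x : Slot) (k : O) :
    Tq (wQ a x) 1 (fun m => sx k m) = PP (rc x.ψ k) a x.P x.s := by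
  unfold Tq PP wQ rc
  refine tsum_congr fun m => ?_
  rw [one_mul]
  split_ifs <;> ring

theorem hkb_sl {a : ℝ} (ha : 0 < a) (k : O) (L : List Slot)
    (h : ∀ x ∈ L, (∀ n, ‖x.ψ n‖ ≤ 1) ∧ 0 < x.P) :
    Tq (sl a L) 1 (fun m => sx k m) = (L.map fun x => PP (rc x.ψ k) a x.P x.s).prod := by
  induction L with
  | nil =>
    have := Tq_nil (mu_sx k) hkb_prim_one
    simpa [sl] using this
  | cons x L ih =>
    have hx := h x List.mem_cons_self
    have hL : ∀ y ∈ L, (∀ n, ‖y.ψ n‖ ≤ 1) ∧ 0 < y.P := fun y hy => h y (List.mem_cons_of_mem _ hy)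
    have e : sl a (x :: L) = cv (wQ a x) (sl a L) := rfl
    rw [e, Tq_cv_one ((maj_wQ hx.1 a).dec ha hx.2 zero_le_one) (dec_sl ha hL) (mu_sx k), ih hL,
      hkb_wQ, List.map_cons, List.prod_cons]

/-- `Sp_eq_Tq`, `Tq_sub`, `Tq_cv_one`, induction on the list -/
theorem Sp_coef {q : O} {κ σ : ℝ} {j : ℕ} (hq : Lev q) {D : Dat} (hD : D.OK q κ σ j)
    {a₁ a₂ a₃ M₁ M₂ : ℝ} (h₁ : 0 < a₁) (h₂ : 0 < a₂) (h₃ : 0 < a₃) (hM₁ : 0 < M₁) (hM₂ : 0 < M₂)
    (c : ℂ) (k : O) :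
    Sp false (coef D a₁ a₂ a₃ M₁ M₂ c) k =
      (PS (rc D.ψ₁ k) a₁ D.N₁ D.t₁ * PS (rc D.ψ₂ k) a₂ D.N₂ D.t₂ -
        c * (PS (rc D.ψ₁ k) a₁ M₁ D.t₁ * PS (rc D.ψ₂ k) a₂ M₂ D.t₂)) *
        (D.L.map fun x => PP (rc x.ψ k) a₃ x.P x.s).prod := by
  have hθ := mu_sx k
  have n1 := hD.tw₁.norm_le hq.1
  have n2 := hD.tw₂.norm_le hq.1
  have hL : ∀ x ∈ D.L, (∀ n, ‖x.ψ n‖ ≤ 1) ∧ 0 < x.P := fun x hx =>
    ⟨(hD.slot x hx).tw.norm_le hq.1, (hD.slot x hx).pos⟩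
  have dL := dec_sl h₃ hL
  have d1 := (maj_wP n1 a₁ D.N₁ D.t₁).dec h₁ hD.pos₁ zero_le_one
  have d2 := (maj_wP n2 a₂ D.N₂ D.t₂).dec h₂ hD.pos₂ zero_le_one
  have d3 := (maj_wP n1 a₁ M₁ D.t₁).dec h₁ hM₁ zero_le_one
  have d4 := (maj_wP n2 a₂ M₂ D.t₂).dec h₂ hM₂ zero_le_one
  rw [Sp_eq_Tq]
  unfold coef
  rw [Tq_sub (d1.cv (d2.cv dL)) (d3.cv (d4.cv dL)) hθ hkb_prim_one,
    Tq_cv_one d1 (d2.cv dL) hθ, Tq_cv_one d3 (d4.cv dL) hθ, Tq_cv_one d2 dL hθ,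
    Tq_cv_one d4 dL hθ, hkb_wP, hkb_wP, hkb_wP, hkb_wP, hkb_sl h₃ k D.L hL]
  ring


end Crest.Agent.R17.M2
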