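import Crest.Agent.R17.M2.Basic
import Crest.Agent.R17.P.LemP

/-! Row 17, block M2 (owner helper24): Lemma P with sixth-power amplification of the dual rows. -/

set_option autoImplicit false

namespace Crest.Agent.R17.M2

open scoped ComplexConjugate
open Complex

/-- `exists_many_primes` at `P = Y / 2` (norm `> 4`, so odd), `log Y ≤ C Z^η` -/
theorem exists_amp {η : ℝ} (hη : 0 < η) : ∃ Y₀ C : ℝ, 0 < C ∧ ∀ Y Z : ℝ, Y₀ ≤ Y → Y ≤ Z →
    ∃ S : Finset O, (∀ p ∈ S, Prime p ∧ Prim p ∧ IsCoprime p 2 ∧ nm p ≤ Y) ∧ S.Nonempty ∧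
      Y ≤ C * Z ^ η * S.card := by
  obtain ⟨c, hc, P₀, h⟩ := exists_many_primes
  refine ⟨max (2 * P₀) 10, 2 / (c * η), by positivity, fun Y Z hY hZ => ?_⟩
  have h1 := (le_max_left _ _).trans hY
  have h2 := (le_max_right _ _).trans hY
  obtain ⟨S, hS, hc'⟩ := h (Y / 2) (by linarith)
  have hl : 0 < Real.log (Y / 2) := Real.log_pos (by linarith)
  refine ⟨S, fun p hp => ?_, Finset.card_pos.1 (Nat.cast_pos.1 (lt_of_lt_of_le
    (div_pos (mul_pos hc (by linarith)) hl) hc')), ?_⟩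
  · obtain ⟨a1, a2, a3, a4⟩ := hS p hp
    refine ⟨a1, a2, coprime_two_iff.2 fun hd => ?_, by linarith⟩
    have := nm_assoc (prime_two.associated_of_dvd a1 hd)
    rw [nm, nN_two, Nat.cast_ofNat] at this
    linarith
  · have h3 : Real.log (Y / 2) ≤ Z ^ η / η := (Real.log_le_rpow_div (by linarith) hη).trans
      (div_le_div_of_nonneg_right (Real.rpow_le_rpow (by linarith) (by linarith) hη.le) hη.le)
    have h4 := ((div_le_iff₀ hl).1 hc').trans (mul_le_mul_of_nonneg_left h3 (Nat.cast_nonneg _))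
    calc Y = 2 / c * (c * (Y / 2)) := by field_simp
      _ ≤ 2 / c * (S.card * (Z ^ η / η)) := mul_le_mul_of_nonneg_left h4 (by positivity)
      _ = _ := by field_simp

theorem ampa_inj {p : O} {Y H : ℝ} (hp : p ≠ 0) (hY : nm p ≤ Y) {G : O → ℝ} (hG : ∀ h, 0 ≤ G h) :
    ∑ h ∈ rows H, G (h * p ^ 6) ≤ ∑ h ∈ rows (Y ^ 6 * H), G h := by
  classical
  rw [← Finset.sum_image (g := (· * p ^ 6)) (mul_left_injective₀ (pow_ne_zero _ hp)).injOn]
  refine Finset.sum_le_sum_of_subset_of_nonneg (fun h hh => ?_) fun h _ _ => hG h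
  obtain ⟨k, hk, rfl⟩ := Finset.mem_image.1 hh
  obtain ⟨a, b⟩ := mem_rows.1 hk
  refine mem_rows.2 ⟨mul_ne_zero a (pow_ne_zero _ hp), ?_⟩
  rw [nm_mul, nm_pow, mul_comm]
  exact mul_le_mul (pow_le_pow_left₀ (nm_nonneg p) hY 6) b (nm_nonneg k) (pow_nonneg ((nm_nonneg p).trans hY) 6)

/-- `AdmP.amp`, `‖x + y‖² ≤ 2‖x‖² + 2‖y‖²`, sum over `p ∈ S`; `h ↦ h p⁶` is injective into
`rows (Y⁶ H)`; a row `h'` comes from at most `M` primes `p` -/
theorem amp_rows {b : O → ℂ} (hb : AdmP b) {S : Finset O} {Y H M : ℝ} (hY : 0 ≤ Y)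
    (hS : ∀ p ∈ S, Prime p ∧ Prim p ∧ nm p ≤ Y)
    (hM : ∀ h ∈ rows (Y ^ 6 * H), ((pdiv h).card : ℝ) ≤ M) :
    (S.card : ℝ) * ∑ h ∈ rows H, ‖Sp true b h‖ ^ 2 ≤
      2 * M * ∑ h ∈ rows (Y ^ 6 * H), ‖Sp true b h‖ ^ 2 +
      2 * ∑ p ∈ S, ∑ h ∈ rows (Y ^ 6 * H), ‖Sp true (fun m => b (p * m)) h‖ ^ 2 := by
  classical
  have h1 : ∀ p ∈ S, ∑ h ∈ rows H, ‖Sp true b h‖ ^ 2 ≤
      2 * ∑ h ∈ rows (Y ^ 6 * H), (if p ∣ h then ‖Sp true b h‖ ^ 2 else 0) +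
      2 * ∑ h ∈ rows (Y ^ 6 * H), ‖Sp true (fun m => b (p * m)) h‖ ^ 2 := fun p hp => by
    obtain ⟨a1, a2, a3⟩ := hS p hp
    refine le_trans ?_ (add_le_add (mul_le_mul_of_nonneg_left (ampa_inj a1.ne_zero a3 fun h => by
      positivity) zero_le_two) (mul_le_mul_of_nonneg_left (ampa_inj a1.ne_zero a3 fun h => by
      positivity) zero_le_two))
    rw [Finset.mul_sum, Finset.mul_sum, ← Finset.sum_add_distrib]
    refine Finset.sum_le_sum fun h _ => ?_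
    rw [if_pos ((dvd_pow_self p (by norm_num)).mul_left h)]
    have h2 := (hb.amp true a1 a2 h ▸ norm_add_le _ _).trans (add_le_add le_rfl ((norm_mul_le _ _).trans
      (mul_le_of_le_one_left (norm_nonneg _) ((norm_sj _ _).trans_le (norm_sx_le _ _)))))
    nlinarith [pow_le_pow_left₀ (norm_nonneg _) h2 2, sq_nonneg (‖Sp true b (h * p ^ 6)‖ -
      ‖Sp true (fun m => b (p * m)) (h * p ^ 6)‖)]
  rw [← nsmul_eq_mul, ← Finset.sum_const]
  refine (Finset.sum_le_sum h1).trans ?_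
  rw [Finset.sum_add_distrib, ← Finset.mul_sum, ← Finset.mul_sum, Finset.sum_comm, mul_assoc,
    Finset.mul_sum _ _ M]
  refine add_le_add (mul_le_mul_of_nonneg_left (Finset.sum_le_sum fun h hh => ?_) zero_le_two) le_rfl
  rw [← Finset.sum_filter, Finset.sum_const, nsmul_eq_mul]
  refine mul_le_mul_of_nonneg_right (le_trans (Nat.cast_le.2 (Finset.card_le_card fun p hp => ?_))
    (hM h hh)) (by positivity)
  exact (mem_pdiv (mem_rows.1 hh).1).2 ⟨(hS p (Finset.mem_filter.1 hp).1).2.1, (Finset.mem_filter.1 hp).2⟩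

/-- The prime acts like the label `j`.  `gt_mul` gives `ρ_p`; for primary `m`
`dual false f ρ z (e,g,j) (p m) = κ · dual false f (ρ ρ_p) z (e,g,j p) m` with
`κ = ρ p · gt p · sx (e j²) p · N(p)^(z-1/2)` (both sides vanish unless `f (e g j p m) ≠ 0`, and then
`AdmP.osq`); `pre η K (e,g,j) · N(p)^(2η-1) = pre η K (e,g,j p)`.  If `e g j p` is not squarefree, both
sides vanish. -/
theorem dual_prime {f ρ : O → ℂ} (hf : AdmP f) (hρ : IsTw 4 ρ) {p : O} (hp : Prime p) (hp' : Prim p)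
    (hp2 : IsCoprime p 2) : ∃ ρ' ∈ Tw 4, ∀ (η τ K : ℝ) (e g j h : O), 0 < K → Prim e → Prim g →
      Prim j →
      pre η K (e, g, j) *
          ‖Sp true (fun m => dual false f ρ (η + τ * I) (e, g, j) (p * m)) h‖ ^ 2 ≤
        pre η K (e, g, j * p) * ‖Sp true (dual false f ρ' (η + τ * I) (e, g, j * p)) h‖ ^ 2 ∧
      (¬ Squarefree (e * g * (j * p)) →
        Sp true (fun m => dual false f ρ (η + τ * I) (e, g, j) (p * m)) h = 0) := by
  obtain ⟨h1, ρ₁, h2, h3⟩ := gt_mul hp' hp.squarefree hp2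
  refine ⟨fun m => ρ m * ρ₁ m, (mem_Tw four_ne).2 (hρ.mul' h2), fun η τ K e g j h hK he hg hj => ?_⟩
  have hl := (he.mul hg).mul hj
  have e0 : ∀ m, e * g * (j * p) * m = e * g * j * (p * m) := fun m => by ring
  have hN := nm_prim_pos hp'
  constructor
  · have e1 : Sp true (fun m => dual false f ρ (η + τ * I) (e, g, j) (p * m)) h =
        ρ p * gt p * sx (e * j ^ 2) p * (nm p : ℂ) ^ (η + τ * I - 1 / 2) *
          Sp true (dual false f (fun m => ρ m * ρ₁ m) (η + τ * I) (e, g, j * p)) h := by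
      rw [Sp, Sp, ← tsum_mul_left]
      refine tsum_congr fun m => ?_
      simp only [dual, sj_false, e0]
      by_cases h0 : f (e * g * j * (p * m)) = 0
      · simp [h0]
      have h4 := (hf.osq (hl.mul (hp'.mul (Pr_prim m))) h0).right hl
      rw [h3 m (Pr_prim m) h4.2.1 (h4.right hp').2.2, hρ.mul, sx_mul_right, mul_pow, ← mul_assoc e,
        sx_mul_left (e * j ^ 2), nm_mul, ofReal_mul, mul_cpow_ofReal_nonneg hN.le (nm_nonneg _)]
      ring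
    have e2 : pre η K (e, g, j * p) = pre η K (e, g, j) * (nm p ^ (η - 1 / 2)) ^ 2 := by
      have := nm_prim_pos he
      have := nm_prim_pos hj
      rw [pre, pre, nm_mul, show nm e * (nm j * nm p) ^ 2 / K = nm e * nm j ^ 2 / K * nm p ^ 2 by ring,
        Real.mul_rpow (by positivity) (by positivity), ← Real.rpow_natCast (nm p), ← Real.rpow_natCast (_ ^ _),
        ← Real.rpow_mul hN.le, ← Real.rpow_mul hN.le,
        show (η - 1 / 2) * (2 : ℕ) = (2 : ℕ) * η - 1 by push_cast; ring, Real.rpow_sub_one hN.ne']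
      ring
    rw [e1, e2, norm_mul, mul_pow, mul_assoc (pre _ _ _)]
    refine mul_le_mul_of_nonneg_left (mul_le_mul_of_nonneg_right
      (pow_le_pow_left₀ (norm_nonneg _) ?_ 2) (by positivity)) (pre_nonneg _ hK _)
    rw [norm_mul, norm_cpow_eq_rpow_re_of_pos hN, norm_mul, norm_mul, h1, mul_one]
    exact (mul_le_of_le_one_left (by positivity) (mul_le_one₀ (hρ.norm_le four_ne p) (norm_nonneg _)
      (norm_sx_le _ _))).trans_eq (by simp)
  · intro hs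
    refine (tsum_congr fun m => ?_).trans tsum_zero
    have h0 : f (e * g * j * (p * m)) = 0 := by_contra fun h0 =>
      hs (e0 m ▸ (hf.supp _ (hl.mul (hp'.mul (Pr_prim m))) h0).1).of_mul_left
    simp [dual, h0]

theorem ampb_fib {α β : Type} [DecidableEq β] (A : Finset α) (B : Finset β) (φ : α → β) (V : β → ℝ)
    {M : ℝ} (hV : ∀ b ∈ B, 0 ≤ V b) (hm : ∀ a ∈ A, φ a ∈ B)
    (hc : ∀ b ∈ B, ((A.filter fun a => φ a = b).card : ℝ) ≤ M) :
    ∑ a ∈ A, V (φ a) ≤ M * ∑ b ∈ B, V b := by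
  rw [← Finset.sum_fiberwise_of_maps_to hm, Finset.mul_sum]
  refine Finset.sum_le_sum fun b hb => ?_
  rw [Finset.sum_congr rfl fun a ha => by rw [(Finset.mem_filter.1 ha).2], Finset.sum_const,
    nsmul_eq_mul]
  exact mul_le_mul_of_nonneg_right (hc b hb) (hV b hb)

theorem ampb_rows {H H' : ℝ} (h : H ≤ H') : rows H ⊆ rows H' := fun _ hx =>
  mem_rows.2 ⟨(mem_rows.1 hx).1, (mem_rows.1 hx).2.trans h⟩

theorem ampb_Lab {H H' : ℝ} (h : H ≤ H') : Lab H ⊆ Lab H' := fun _ hx => by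
  obtain ⟨h1, h2, h3, h4, h5, h6, h7⟩ := mem_Lab'.1 hx
  exact mem_Lab'.2 ⟨h1, h2, h3, h4, h5, h6, h7.trans h⟩

theorem ampb_len {K X T Z H : ℝ} (hK : 1 ≤ K) (hX : 0 < X) (hXZ : X ≤ Z) (hT : 1 ≤ T) (hTZ : T ≤ Z)
    {l : O × O × O} (hl : l ∈ Lab H) : 0 ≤ len K X T l ∧ len K X T l ≤ Z ^ 3 := by
  obtain ⟨h1, h2, -, -⟩ := mem_Lab'.1 hl
  have a1 := one_le_nm h1.ne_zero
  have a2 := one_le_nm h2.ne_zero
  have a3 : 1 ≤ K * nm l.1 * nm l.2.1 ^ 2 :=
    one_le_mul_of_one_le_of_one_le (one_le_mul_of_one_le_of_one_le hK a1) (one_le_pow₀ a2)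
  refine ⟨by unfold len; positivity, (div_le_self (by positivity) a3).trans ?_⟩
  calc T * X ^ 2 ≤ Z * Z ^ 2 := by gcongr; linarith
    _ = Z ^ 3 := by ring

/-- The amplified dual sum.  For `Y < Y₀` only enlarge rows and labels (`1 ≤ Y₀ Z^η / Y`).
Otherwise `exists_amp`, `amp_rows` for every label (`dual_false`, `AdmP.child`, `AdmP.gauss`),
`dual_prime`; bound the `ρ'`-term by the sum over all of `Tw 4`; `((e,g,j), p) ↦ (e,g,j p)` maps into
`Lab (X T Y)`, keeps `len`, and has multiplicity `≤ card (pdiv (j p))`; `Y⁶ len ≤ Z⁹`, `X T Y ≤ Z³`,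
`card_pdiv_le`.  Finally choose the largest term of the sum over `Tw 4` (`card_Tw_le`). -/
theorem amp_dual {η : ℝ} (hη : 0 < η) : ∃ C : ℝ, 0 < C ∧
    ∀ (f ρ : O → ℂ) (K X T Y Z τ : ℝ), AdmP f → IsTw 4 ρ → 1 ≤ K → 0 < X → X ≤ Z → 1 ≤ T → T ≤ Z →
      1 ≤ Y → Y ≤ Z → ∃ ρ' : O → ℂ, IsTw 4 ρ' ∧
      ∑ l ∈ Lab (X * T), pre η K l * ∑ h ∈ rows (len K X T l),
          ‖Sp true (dual false f ρ (η + τ * I) l) h‖ ^ 2 ≤
        C * (Z ^ η / Y) * ∑ l ∈ Lab (X * T * Y), pre η K l * ∑ h ∈ rows (Y ^ 6 * len K X T l),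
          ‖Sp true (dual false f ρ' (η + τ * I) l) h‖ ^ 2 := by
  classical
  obtain ⟨Y₀, C₁, hC₁, hS⟩ := exists_amp (η := η / 3) (by positivity)
  obtain ⟨C₂, hC₂, hd⟩ := card_pdiv_le (ε := η / 27) (by positivity)
  refine ⟨64 * C₁ * C₂ + |Y₀|, by positivity,
    fun f ρ K X T Y Z τ hf hρ hK hX hXZ hT hTZ hY hYZ => ?_⟩
  have hK0 : 0 < K := by linarith
  have hZ : 1 ≤ Z := hY.trans hYZ
  have hY0 : 0 < Y := by linarith
  set E : (O → ℂ) → O × O × O → ℝ := fun ρ l => pre η K l * ∑ h ∈ rows (Y ^ 6 * len K X T l),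
    ‖Sp true (dual false f ρ (η + τ * I) l) h‖ ^ 2 with hE
  have hE0 : ∀ ρ l, 0 ≤ E ρ l := fun ρ l =>
    mul_nonneg (pre_nonneg η hK0 l) (Finset.sum_nonneg fun _ _ => sq_nonneg _)
  have hL : Lab (X * T) ⊆ Lab (X * T * Y) := ampb_Lab (le_mul_of_one_le_right (by positivity) hY)
  have hW : ∑ l ∈ Lab (X * T), E ρ l ≤ ∑ l ∈ Lab (X * T * Y), E ρ l :=
    Finset.sum_le_sum_of_subset_of_nonneg hL fun l _ _ => hE0 ρ l
  have hZη : 1 ≤ Z ^ η := Real.one_le_rpow hZ hη.le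
  by_cases hY' : Y < Y₀
  · refine ⟨ρ, hρ, le_trans (le_trans (Finset.sum_le_sum fun l hl => ?_) hW) ?_⟩
    · refine mul_le_mul_of_nonneg_left (Finset.sum_le_sum_of_subset_of_nonneg (ampb_rows ?_)
        fun _ _ _ => sq_nonneg _) (pre_nonneg η hK0 l)
      exact le_mul_of_one_le_left (ampb_len hK hX hXZ hT hTZ hl).1 (one_le_pow₀ hY)
    · refine le_mul_of_one_le_left (Finset.sum_nonneg fun l _ => hE0 ρ l) ?_
      rw [← mul_div_assoc, le_div_iff₀ hY0]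
      have := le_abs_self Y₀
      have : 0 < 64 * C₁ * C₂ := by positivity
      nlinarith
  obtain ⟨S, hSp, hSn, hSc⟩ := hS Y Z (not_lt.1 hY') hYZ
  set M : ℝ := C₂ * Z ^ (η / 3) with hM
  have hM0 : 0 ≤ M := by positivity
  have hdM : ∀ n : O, n ≠ 0 → nm n ≤ Z ^ 9 → ((pdiv n).card : ℝ) ≤ M := fun n hn h9 => by
    refine (hd n hn).trans (mul_le_mul_of_nonneg_left ?_ hC₂.le)
    refine (Real.rpow_le_rpow (nm_nonneg n) h9 (by positivity)).trans (le_of_eq ?_)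
    rw [← Real.rpow_natCast, ← Real.rpow_mul (by linarith)]
    congr 1
    push_cast
    ring
  choose! r hr hr' using fun p (hp : p ∈ S) =>
    dual_prime hf hρ (hSp p hp).1 (hSp p hp).2.1 (hSp p hp).2.2.1
  obtain ⟨ρ', hρ', hmax⟩ := Finset.exists_max_image (Tw 4)
    (fun ρ => ∑ l ∈ Lab (X * T * Y), E ρ l) ⟨ρ, (mem_Tw four_ne_zero').2 hρ⟩
  set W : ℝ := ∑ l ∈ Lab (X * T * Y), E ρ' l with hWdef
  have hW0 : 0 ≤ W := Finset.sum_nonneg fun l _ => hE0 ρ' l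
  refine ⟨ρ', (mem_Tw four_ne_zero').1 hρ', ?_⟩
  -- one label
  have h1 : ∀ l ∈ Lab (X * T), (S.card : ℝ) * (pre η K l * ∑ h ∈ rows (len K X T l),
      ‖Sp true (dual false f ρ (η + τ * I) l) h‖ ^ 2) ≤ 2 * M * E ρ l +
      2 * ∑ p ∈ S, if Squarefree (l.1 * l.2.1 * (l.2.2 * p)) then
        ∑ ρ₁ ∈ Tw 4, E ρ₁ (l.1, l.2.1, l.2.2 * p) else 0 := by
    rintro ⟨e, g, j⟩ hl
    obtain ⟨he, hg, hj, -⟩ := mem_Lab.1 hl
    have hb : AdmP (dual false f ρ (η + τ * I) (e, g, j)) := by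
      rw [dual_false]
      exact (hf.child (hρ.norm_le four_ne_zero') _ he hg hj).gauss _
    have hlen := ampb_len hK hX hXZ hT hTZ hl
    have := amp_rows hb (H := len K X T (e, g, j)) (M := M) hY0.le
      (fun p hp => ⟨(hSp p hp).1, (hSp p hp).2.1, (hSp p hp).2.2.2⟩) (fun h hh => by
        refine hdM h (mem_rows.1 hh).1 ((mem_rows.1 hh).2.trans ?_)
        calc Y ^ 6 * len K X T (e, g, j) ≤ Z ^ 6 * Z ^ 3 := by gcongr; exact hlen.1; exact hlen.2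
          _ = Z ^ 9 := by ring)
    have hp0 := pre_nonneg η hK0 (e, g, j)
    have h2 : pre η K (e, g, j) * ∑ p ∈ S, ∑ h ∈ rows (Y ^ 6 * len K X T (e, g, j)),
        ‖Sp true (fun m => dual false f ρ (η + τ * I) (e, g, j) (p * m)) h‖ ^ 2 ≤
        ∑ p ∈ S, if Squarefree (e * g * (j * p)) then ∑ ρ₁ ∈ Tw 4, E ρ₁ (e, g, j * p) else 0 := by
      rw [Finset.mul_sum]
      refine Finset.sum_le_sum fun p hp => ?_
      split_ifs with hq
      · refine le_trans ?_ (Finset.single_le_sum (f := fun ρ₁ => E ρ₁ (e, g, j * p))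
          (fun ρ₁ _ => hE0 ρ₁ _) (hr p hp))
        simp only [hE, Finset.mul_sum]
        exact Finset.sum_le_sum fun h _ => (hr' p hp η τ K e g j h hK0 he hg hj).1
      · rw [Finset.sum_eq_zero fun h _ => by
          rw [(hr' p hp η τ K e g j h hK0 he hg hj).2 hq, norm_zero, zero_pow two_ne_zero], mul_zero]
    have h3 := mul_le_mul_of_nonneg_left this hp0
    simp only [hE] at h2 ⊢
    nlinarith
  -- the new labels
  have h2 : ∑ l ∈ Lab (X * T), ∑ p ∈ S, (if Squarefree (l.1 * l.2.1 * (l.2.2 * p)) then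
      ∑ ρ₁ ∈ Tw 4, E ρ₁ (l.1, l.2.1, l.2.2 * p) else 0) ≤
      M * ∑ l ∈ Lab (X * T * Y), ∑ ρ₁ ∈ Tw 4, E ρ₁ l := by
    rw [← Finset.sum_product', ← Finset.sum_filter]
    refine ampb_fib _ _ (fun x : (O × O × O) × O => (x.1.1, x.1.2.1, x.1.2.2 * x.2))
      (fun l => ∑ ρ₁ ∈ Tw 4, E ρ₁ l) (fun l _ => Finset.sum_nonneg fun ρ₁ _ => hE0 ρ₁ l) ?_ ?_
    · rintro ⟨⟨e, g, j⟩, p⟩ hx
      obtain ⟨hx, hq⟩ := Finset.mem_filter.1 hx
      obtain ⟨hl, hp⟩ := Finset.mem_product.1 hx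
      obtain ⟨he, hg, hj, -, -, h2, hn⟩ := mem_Lab.1 hl
      obtain ⟨-, hp', hp2, hpY⟩ := hSp p hp
      refine mem_Lab.2 ⟨he, hg, hj.mul hp', (he.mul hg).mul (hj.mul hp'), hq, ?_, ?_⟩
      · rw [← mul_assoc]
        exact h2.mul_left hp2
      · rw [← mul_assoc, nm_mul]
        exact mul_le_mul hn hpY (nm_nonneg _) (by positivity)
    · rintro ⟨e, g, j⟩ hl
      obtain ⟨he, hg, hj, h0, -, -, hn⟩ := mem_Lab.1 hl
      refine le_trans ?_ (hdM j hj.ne_zero ?_)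
      · refine Nat.cast_le.2 (Finset.card_le_card_of_injOn (fun x => x.2) (fun x hx => ?_) ?_)
        · obtain ⟨hx, hq⟩ := Finset.mem_filter.1 hx
          obtain ⟨-, hp⟩ := Finset.mem_product.1 (Finset.mem_filter.1 hx).1
          simp only [Prod.mk.injEq] at hq
          exact (mem_pdiv hj.ne_zero).2 ⟨(hSp _ hp).2.1, Dvd.intro_left _ hq.2.2⟩
        · rintro ⟨⟨e₁, g₁, j₁⟩, p₁⟩ hx ⟨⟨e₂, g₂, j₂⟩, p₂⟩ hy hxy
          obtain ⟨hx, hq⟩ := Finset.mem_filter.1 hx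
          obtain ⟨-, hq'⟩ := Finset.mem_filter.1 hy
          obtain ⟨-, hp⟩ := Finset.mem_product.1 (Finset.mem_filter.1 hx).1
          simp only [Prod.mk.injEq] at hq hq' hxy ⊢
          subst hxy
          exact ⟨⟨hq.1.trans hq'.1.symm, hq.2.1.trans hq'.2.1.symm,
            mul_right_cancel₀ (hSp _ hp).1.ne_zero (hq.2.2.trans hq'.2.2.symm)⟩, rfl⟩
      · refine ((nm_le_of_dvd (dvd_mul_left _ _) h0.ne_zero).trans hn).trans ?_
        calc X * T * Y ≤ Z * Z * Z := by gcongr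
          _ = Z ^ 3 := by ring
          _ ≤ Z ^ 9 := pow_le_pow_right₀ hZ (by norm_num)
  have h3 : ∑ l ∈ Lab (X * T * Y), ∑ ρ₁ ∈ Tw 4, E ρ₁ l ≤ 16 * W := by
    rw [Finset.sum_comm]
    refine (Finset.sum_le_card_nsmul _ _ _ hmax).trans ?_
    rw [nsmul_eq_mul]
    refine mul_le_mul_of_nonneg_right ((card_Tw_le four_ne_zero').trans (le_of_eq ?_)) hW0
    have := nm_natCast 4
    rw [Nat.cast_ofNat] at this
    rw [this]
    norm_num
  have h4 := Finset.sum_le_sum h1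
  rw [← Finset.mul_sum, Finset.sum_add_distrib, ← Finset.mul_sum, ← Finset.mul_sum] at h4
  have h5 := hW.trans (hmax ρ ((mem_Tw four_ne_zero').2 hρ))
  set L : ℝ := ∑ l ∈ Lab (X * T), pre η K l * ∑ h ∈ rows (len K X T l),
    ‖Sp true (dual false f ρ (η + τ * I) l) h‖ ^ 2 with hLdef
  have hL0 : 0 ≤ L := Finset.sum_nonneg fun l _ =>
    mul_nonneg (pre_nonneg η hK0 l) (Finset.sum_nonneg fun _ _ => sq_nonneg _)
  have h6 : (S.card : ℝ) * L ≤ 64 * M * W := by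
    have a1 := mul_le_mul_of_nonneg_left h5 hM0
    have a2 := mul_le_mul_of_nonneg_left h3 hM0
    have a3 := mul_nonneg hM0 hW0
    nlinarith
  have hz : 0 ≤ Z ^ (η / 3) := by positivity
  have h7 : Z ^ (η / 3) * Z ^ (η / 3) ≤ Z ^ η := by
    rw [← Real.rpow_add (by linarith)]
    exact Real.rpow_le_rpow_of_exponent_le hZ (by linarith)
  rw [← mul_div_assoc, div_mul_eq_mul_div, le_div_iff₀ hY0]
  calc L * Y ≤ L * (C₁ * Z ^ (η / 3) * S.card) := mul_le_mul_of_nonneg_left hSc hL0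
    _ = C₁ * Z ^ (η / 3) * (S.card * L) := by ring
    _ ≤ C₁ * Z ^ (η / 3) * (64 * M * W) := by gcongr
    _ = 64 * C₁ * C₂ * (Z ^ (η / 3) * Z ^ (η / 3)) * W := by rw [hM]; ring
    _ ≤ (64 * C₁ * C₂ + |Y₀|) * Z ^ η * W := by
      gcongr
      exact le_add_of_nonneg_right (abs_nonneg _)

/-- `lemmaP` for the one-element family, `amp_dual` -/
theorem ampP {η : ℝ} (hη : 0 < η) (A : ℕ) (hA : 2 ≤ A) : ∃ C : ℝ, 0 < C ∧
    ∀ (f : O → ℂ) (K X T Y Z : ℝ), AdmP f → 1 ≤ K → 0 < X → X ≤ Z → 1 ≤ T → T ≤ Z → 1 ≤ Y → Y ≤ Z →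
      ∃ (τ : ℝ) (ρ : O → ℂ), IsTw 4 ρ ∧ En false f K ≤ K * l2 f +
        C * Real.exp (-|τ| / 2) * (Z ^ η / Y) * ∑ l ∈ Lab (X * T * Y), pre η K l *
          ∑ h ∈ rows (Y ^ 6 * len K X T l), ‖Sp true (dual false f ρ (η + τ * I) l) h‖ ^ 2 +
        C * tail A f X T := by
  obtain ⟨C₁, hC₁, h₁⟩ := lemmaP η hη A hA
  obtain ⟨C₂, hC₂, h₂⟩ := amp_dual hη
  refine ⟨C₁ * C₂ + C₁, by positivity, fun f K X T Y Z hf hK hX hXZ hT hTZ hY hYZ => ?_⟩
  obtain ⟨τ, ρ, hρ, h⟩ := h₁ ({()} : Finset Unit) false (fun _ => f) (fun _ => 1) (fun _ => K)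
    (fun _ => X) T hT (fun _ _ => ⟨hf, zero_le_one, by linarith, hX⟩)
  obtain ⟨ρ', hρ', h'⟩ := h₂ f ρ K X T Y Z τ hf hρ hK hX hXZ hT hTZ hY hYZ
  refine ⟨τ, ρ', hρ', ?_⟩
  simp only [Finset.sum_singleton, one_mul, Bool.not_false] at h
  have ht : 0 ≤ tail A f X T := by
    unfold tail
    have : 0 < T := by linarith
    positivity
  have hW : 0 ≤ ∑ l ∈ Lab (X * T * Y), pre η K l * ∑ h ∈ rows (Y ^ 6 * len K X T l),
      ‖Sp true (dual false f ρ' (η + τ * I) l) h‖ ^ 2 := Finset.sum_nonneg fun l _ =>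
    mul_nonneg (pre_nonneg η (by linarith) l) (Finset.sum_nonneg fun _ _ => sq_nonneg _)
  have hx : 0 ≤ Z ^ η / Y := div_nonneg (Real.rpow_nonneg (by linarith) _) (by linarith)
  have he := (Real.exp_pos (-|τ| / 2)).le
  have a1 := mul_le_mul_of_nonneg_left h' (mul_nonneg hC₁.le he)
  have a2 := mul_nonneg (mul_nonneg (mul_nonneg hC₁.le he) hx) hW
  have a3 := mul_nonneg (mul_pos hC₁ hC₂).le ht
  nlinarith


end Crest.Agent.R17.M2
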