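import Crest.Agent.R17.M2.Defs

/-! Row 17, block M2 (owner helper24): elementary facts (majorants, decay, trivial bounds). -/

set_option autoImplicit false

namespace Crest.Agent.R17.M2

open scoped ComplexConjugate
open Complex

variable {f g θ ψ ρ : O → ℂ} {a b X B B' α κ Y S σ : ℝ} {R r q : O} {x : Slot} {L : List Slot}

theorem four_ne : (4 : O) ≠ 0 := by
  intro h
  have h2 : (2 : O) * 2 = 0 := by rw [← h]; norm_num
  rcases mul_eq_zero.1 h2 with h | h <;> exact prime_two.ne_zero h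

theorem nm_prim_pos {m : O} (hm : Prim m) : 0 < nm m := nm_pos hm.ne_zero

theorem one_le_nm_prim {m : O} (hm : Prim m) : 1 ≤ nm m := one_le_nm hm.ne_zero

/-- `IsTw.norm_le` (`4 ≠ 0`), `norm_sx_le`, `sx_mul_right`, `nm_mul`,
`Complex.norm_cpow_eq_rpow_re_of_pos`, `Complex.mul_cpow_ofReal_nonneg` -/
theorem mu_th (hρ : IsTw 4 ρ) (w : ℂ) (u : O) : Mu w.re (th ρ w u) := by
  refine ⟨by simp [th, hρ.one], fun a b _ _ => ?_, fun m hm => ?_⟩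
  · simp only [th, hρ.mul, nm_mul, sx_mul_right, ofReal_mul]
    rw [Complex.mul_cpow_ofReal_nonneg (nm_nonneg a) (nm_nonneg b)]
    ring
  · simp only [th, norm_mul]
    rw [Complex.norm_cpow_eq_rpow_re_of_pos (nm_prim_pos hm)]
    have h1 := hρ.norm_le four_ne m
    have h2 := norm_sx_le u m
    have h3 : 0 ≤ nm m ^ w.re := Real.rpow_nonneg (nm_nonneg _) _
    calc ‖ρ m‖ * nm m ^ w.re * ‖sx u m‖ ≤ 1 * nm m ^ w.re * 1 := by gcongr
      _ = _ := by ring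

theorem mu_sx (u : O) : Mu 0 fun m => sx u m := by
  refine ⟨by simp, fun a b _ _ => sx_mul_right u a b, fun m _ => ?_⟩
  rw [Real.rpow_zero]
  exact norm_sx_le u m

theorem Sp_eq_Tq (f : O → ℂ) (k : O) : Sp false f k = Tq f 1 fun m => sx k m := by
  simp [Sp, Tq, sj]

theorem b_LN_sum (ha : 0 < a) (σ : ℝ) : ∃ C : ℝ, 0 < C ∧ ∀ Y : ℝ, 0 < Y →
    Summable (fun m : Pr => ‖LN a Y 0 (nm m)‖ * nm m ^ σ) ∧
      ∑' m : Pr, ‖LN a Y 0 (nm m)‖ * nm m ^ σ ≤ C * Y ^ (σ + 1) := by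
  obtain ⟨C, hC, h⟩ := sum_LN_O ha σ
  refine ⟨C, hC, fun Y hY => ?_⟩
  have := h (fun m : Pr => (m : O)) (fun m => ((nm (m : O) ^ σ : ℝ) : ℂ)) 1 Y 0
    Subtype.val_injective (fun n hn => absurd hn (Pr_prim n).ne_zero)
    (fun n _ => by
      rw [Complex.norm_real, Real.norm_of_nonneg (Real.rpow_nonneg (nm_nonneg _) _), one_mul])
    zero_le_one hY
  have e : (fun n : Pr => ‖((nm (n : O) ^ σ : ℝ) : ℂ) * LN a Y 0 (nm (n : O))‖) =
      fun m : Pr => ‖LN a Y 0 (nm m)‖ * nm m ^ σ := by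
    funext n
    rw [norm_mul, Complex.norm_real, Real.norm_of_nonneg (Real.rpow_nonneg (nm_nonneg _) _), mul_comm]
  rw [e, mul_one] at this
  exact this

theorem Maj.shift (h : Maj a X B f) (hR : Prim R) {m : O} (hm : Prim m) :
    ‖f (R * m)‖ ≤ B * ‖LN a (X / nm R) 0 (nm m)‖ := by
  have := h _ (hR.mul hm)
  rwa [nm_mul, LN_mul_arg] at this

/-- `LN_mul_arg`, `sum_LN_O` with `c m = nm m ^ σ`, `φ = Subtype.val` -/
theorem maj_sum (ha : 0 < a) (σ : ℝ) : ∃ C : ℝ, 0 < C ∧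
    ∀ (f : O → ℂ) (X B : ℝ) (R : O), 0 < X → 0 ≤ B → Maj a X B f → Prim R →
      Summable (fun m : Pr => ‖f (R * m)‖ * nm m ^ σ) ∧
      ∑' m : Pr, ‖f (R * m)‖ * nm m ^ σ ≤ C * B * (X / nm R) ^ (σ + 1) := by
  obtain ⟨C, hC, h⟩ := b_LN_sum ha σ
  refine ⟨C, hC, fun f X B R hX hB hf hR => ?_⟩
  obtain ⟨h1, h2⟩ := h (X / nm R) (div_pos hX (nm_prim_pos hR))
  have hle : ∀ m : Pr, ‖f (R * m)‖ * nm m ^ σ ≤ B * (‖LN a (X / nm R) 0 (nm m)‖ * nm m ^ σ) := by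
    intro m
    rw [← mul_assoc]
    exact mul_le_mul_of_nonneg_right (hf.shift hR (Pr_prim m)) (Real.rpow_nonneg (nm_nonneg _) _)
  have hs : Summable fun m : Pr => ‖f (R * m)‖ * nm m ^ σ :=
    Summable.of_nonneg_of_le
      (fun m => mul_nonneg (norm_nonneg _) (Real.rpow_nonneg (nm_nonneg _) _)) hle (h1.mul_left B)
  refine ⟨hs, (hs.tsum_le_tsum hle (h1.mul_left B)).trans ?_⟩
  rw [tsum_mul_left]
  calc _ ≤ B * (C * (X / nm R) ^ (σ + 1)) := mul_le_mul_of_nonneg_left h2 hB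
    _ = _ := by ring

/-- `‖LN‖ ^ 2 ≤ ‖LN‖` -/
theorem maj_sum_sq (ha : 0 < a) (σ : ℝ) : ∃ C : ℝ, 0 < C ∧
    ∀ (f : O → ℂ) (X B : ℝ) (R : O), 0 < X → 0 ≤ B → Maj a X B f → Prim R →
      Summable (fun m : Pr => ‖f (R * m)‖ ^ 2 * nm m ^ σ) ∧
      ∑' m : Pr, ‖f (R * m)‖ ^ 2 * nm m ^ σ ≤ C * B ^ 2 * (X / nm R) ^ (σ + 1) := by
  obtain ⟨C, hC, h⟩ := b_LN_sum ha σ
  refine ⟨C, hC, fun f X B R hX hB hf hR => ?_⟩
  obtain ⟨h1, h2⟩ := h (X / nm R) (div_pos hX (nm_prim_pos hR))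
  have hle : ∀ m : Pr, ‖f (R * m)‖ ^ 2 * nm m ^ σ ≤
      B ^ 2 * (‖LN a (X / nm R) 0 (nm m)‖ * nm m ^ σ) := by
    intro m
    rw [← mul_assoc]
    refine mul_le_mul_of_nonneg_right ?_ (Real.rpow_nonneg (nm_nonneg _) _)
    have h3 := hf.shift hR (Pr_prim m)
    have h4 := norm_LN_le_one a (X / nm R) 0 (nm m)
    have h5 := norm_nonneg (LN a (X / nm R) 0 (nm m))
    calc ‖f (R * m)‖ ^ 2 ≤ (B * ‖LN a (X / nm R) 0 (nm m)‖) ^ 2 := by gcongr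
      _ = B ^ 2 * (‖LN a (X / nm R) 0 (nm m)‖ * ‖LN a (X / nm R) 0 (nm m)‖) := by ring
      _ ≤ B ^ 2 * (‖LN a (X / nm R) 0 (nm m)‖ * 1) := by gcongr
      _ = _ := by ring
  have hs : Summable fun m : Pr => ‖f (R * m)‖ ^ 2 * nm m ^ σ :=
    Summable.of_nonneg_of_le
      (fun m => mul_nonneg (sq_nonneg _) (Real.rpow_nonneg (nm_nonneg _) _)) hle
      (h1.mul_left (B ^ 2))
  refine ⟨hs, (hs.tsum_le_tsum hle (h1.mul_left (B ^ 2))).trans ?_⟩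
  rw [tsum_mul_left]
  calc _ ≤ B ^ 2 * (C * (X / nm R) ^ (σ + 1)) := mul_le_mul_of_nonneg_left h2 (sq_nonneg B)
    _ = _ := by ring

theorem Maj.dec (h : Maj a X B f) (ha : 0 < a) (hX : 0 < X) (hB : 0 ≤ B) : Dec f := by
  intro σ
  obtain ⟨C, _, h1⟩ := maj_sum ha σ
  simpa using (h1 f X B 1 hX hB h prim_one).1

/-- `nm m ^ σ = nm (R m) ^ σ * nm R ^ (-σ)`, `Summable.comp_injective` -/
theorem Dec.shift (hf : Dec f) (hR : Prim R) : Dec fun m => f (R * m) := by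
  intro σ
  have hi : Function.Injective fun m : Pr => (⟨R * m, hR.mul (Pr_prim m)⟩ : Pr) := by
    intro m m' h
    exact Subtype.ext (mul_left_cancel₀ hR.ne_zero (congrArg Subtype.val h))
  have h1 := ((hf σ).comp_injective hi).mul_left (nm R ^ (-σ))
  refine h1.congr fun m => ?_
  simp only [Function.comp, nm_mul]
  rw [Real.mul_rpow (nm_nonneg _) (nm_nonneg _), Real.rpow_neg (nm_nonneg _)]
  have : nm R ^ σ ≠ 0 := (Real.rpow_pos_of_pos (nm_prim_pos hR) σ).ne'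
  field_simp

theorem Dec.summable_Tq (hf : Dec f) (hθ : Mu α θ) (hR : Prim R) :
    Summable fun m : Pr => ‖f (R * m) * θ m‖ := by
  refine Summable.of_nonneg_of_le (fun m => norm_nonneg _) (fun m => ?_) (hf.shift hR α)
  rw [norm_mul]
  exact mul_le_mul_of_nonneg_left (hθ.le _ (Pr_prim m)) (norm_nonneg _)

theorem Dec.sub (hf : Dec f) (hg : Dec g) (c : ℂ) : Dec fun n => f n - c * g n := by
  intro σ
  refine Summable.of_nonneg_of_le
    (fun m => mul_nonneg (norm_nonneg _) (Real.rpow_nonneg (nm_nonneg _) _)) (fun m => ?_)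
    ((hf σ).add ((hg σ).mul_left ‖c‖))
  rw [← mul_assoc, ← add_mul, ← norm_mul]
  exact mul_le_mul_of_nonneg_right (norm_sub_le _ _) (Real.rpow_nonneg (nm_nonneg _) _)

theorem Tq_sub (hf : Dec f) (hg : Dec g) (hθ : Mu α θ) (hR : Prim R) (c : ℂ) :
    Tq (fun n => f n - c * g n) R θ = Tq f R θ - c * Tq g R θ := by
  unfold Tq
  rw [← tsum_mul_left, ← ((hf.summable_Tq hθ hR).of_norm).tsum_sub
    (((hg.summable_Tq hθ hR).of_norm).mul_left c)]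
  congr 1
  funext m
  ring

theorem norm_Tq_le (ha : 0 < a) (α : ℝ) : ∃ C : ℝ, 0 < C ∧
    ∀ (f θ : O → ℂ) (X B : ℝ) (R : O), 0 < X → 0 ≤ B → Maj a X B f → Mu α θ → Prim R →
      ‖Tq f R θ‖ ≤ C * B * (X / nm R) ^ (α + 1) := by
  obtain ⟨C, hC, h⟩ := maj_sum ha α
  refine ⟨C, hC, fun f θ X B R hX hB hf hθ hR => ?_⟩
  obtain ⟨h1, h2⟩ := h f X B R hX hB hf hR
  refine le_trans (tsum_of_norm_bounded h1.hasSum fun m => ?_) h2
  rw [norm_mul]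
  exact mul_le_mul_of_nonneg_left (hθ.le _ (Pr_prim m)) (norm_nonneg _)

/-- the trivial bound at the exponent of the children: `(X / N R) ^ (2η) ≤ Z ^ (2η)` -/
theorem norm_Tq_triv (ha : 0 < a) {η : ℝ} (hη : 0 < η) : ∃ C : ℝ, 0 < C ∧
    ∀ (f θ : O → ℂ) (X Z : ℝ) (R : O), 0 < X → X ≤ Z → Maj a X 1 f → Mu (2 * η - 1) θ → Prim R →
      ‖Tq f R θ‖ ^ 2 ≤ C * Z ^ (4 * η) := by
  obtain ⟨C, hC, h⟩ := norm_Tq_le ha (2 * η - 1)
  refine ⟨C ^ 2, by positivity, fun f θ X Z R hX hZ hf hθ hR => ?_⟩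
  have h1 := h f θ X 1 R hX zero_le_one hf hθ hR
  have hR1 := one_le_nm_prim hR
  have h2 : X / nm R ≤ Z := (div_le_self hX.le hR1).trans hZ
  have h3 : (X / nm R) ^ (2 * η - 1 + 1) ≤ Z ^ (2 * η) := by
    rw [sub_add_cancel]
    exact Real.rpow_le_rpow (by positivity) h2 (by positivity)
  have hZ0 : 0 < Z := hX.trans_le hZ
  calc ‖Tq f R θ‖ ^ 2 ≤ (C * Z ^ (2 * η)) ^ 2 := by
        refine pow_le_pow_left₀ (norm_nonneg _) (h1.trans ?_) 2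
        rw [mul_one]
        gcongr
    _ = C ^ 2 * Z ^ (4 * η) := by
        rw [mul_pow, ← Real.rpow_natCast (Z ^ (2 * η)), ← Real.rpow_mul hZ0.le]
        congr 2
        push_cast
        ring

theorem Maj.widen (h : Maj a X B f) (ha : 0 < a) (hab : a ≤ b) (hB : 0 ≤ B) : Maj b X B f := by
  intro n hn
  refine (h n hn).trans (mul_le_mul_of_nonneg_left ?_ hB)
  rw [norm_LN, norm_LN]
  refine Real.exp_le_exp.2 (neg_le_neg ?_)
  have hb : 0 < b := ha.trans_le hab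
  gcongr

theorem Maj.mono (h : Maj a X B f) (hB : B ≤ B') : Maj a X B' f := by
  exact fun n hn => (h n hn).trans (mul_le_mul_of_nonneg_right hB (norm_nonneg _))

theorem Maj.sub (hf : Maj a X B f) (hg : Maj a X B g) {c : ℂ} (hc : ‖c‖ ≤ 1) :
    Maj a X (2 * B) fun n => f n - c * g n := by
  intro n hn
  have h1 := hf n hn
  have h2 := hg n hn
  have h3 : ‖c * g n‖ ≤ ‖g n‖ := by
    rw [norm_mul]
    exact mul_le_of_le_one_left (norm_nonneg _) hc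
  have h4 := norm_sub_le (f n) (c * g n)
  show ‖f n - c * g n‖ ≤ _
  linarith

theorem maj_wP (hψ : ∀ n, ‖ψ n‖ ≤ 1) (a N t : ℝ) : Maj a N 1 (wP ψ a N t) := by
  intro n _
  rw [wP, norm_mul, norm_LN_twist a N t 0]
  exact mul_le_mul_of_nonneg_right (hψ n) (norm_nonneg _)

theorem maj_wQ (hψ : ∀ n, ‖x.ψ n‖ ≤ 1) (a : ℝ) : Maj a x.P 1 (wQ a x) := by
  intro n _
  rw [wQ]
  split_ifs
  · rw [norm_mul, norm_LN_twist a x.P x.s 0]
    exact mul_le_mul_of_nonneg_right (hψ n) (norm_nonneg _)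
  · simp

theorem od_wP (hq : Lev q) (hψ : IsTw q ψ) (a N t : ℝ) : Od (wP ψ a N t) := by
  intro n _ h
  exact hq.coprime_two (hψ.ne_zero.1 (left_ne_zero_of_mul h))

theorem od_wQ (hq : Lev q) (hψ : IsTw q x.ψ) (a : ℝ) : Od (wQ a x) := by
  intro n _ h
  rw [wQ] at h
  split_ifs at h
  · exact hq.coprime_two (hψ.ne_zero.1 (left_ne_zero_of_mul h))
  · exact absurd rfl h

theorem Maj.sq (h : Maj a X B f) (hB : 0 ≤ B) (hr : Prim r) : Maj a (X / nm r ^ 2) B (sq r f) := by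
  intro n hn
  rw [M2.sq]
  split_ifs
  · have := h.shift (hr.pow 2) hn
    rwa [mul_comm (r ^ 2), nm_pow] at this
  · rw [norm_zero]
    exact mul_nonneg hB (norm_nonneg _)

theorem admP_sq (hf : Dec f) (ho : Od f) (hr : Prim r) : AdmP (sq r f) := by
  refine ⟨fun n hn h => ?_, fun σ => ?_⟩
  · rw [sq] at h
    split_ifs at h with hs
    · exact ⟨hs, (ho _ (hn.mul (hr.pow 2)) h).of_mul_left_left⟩
    · exact absurd rfl h
  · refine Summable.of_nonneg_of_le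
      (fun m => mul_nonneg (norm_nonneg _) (Real.rpow_nonneg (nm_nonneg _) _)) (fun m => ?_)
      (hf.shift (hr.pow 2) σ)
    refine mul_le_mul_of_nonneg_right ?_ (Real.rpow_nonneg (nm_nonneg _) _)
    rw [sq]
    split_ifs
    · rw [mul_comm]
    · simp

theorem nS_nonneg (ψ : O → ℂ) (a t : ℝ) (u : O) {N : ℝ} (hN : 0 < N) : 0 ≤ nS ψ a N t u := by
  exact div_nonneg (sq_nonneg _) hN.le

theorem nP_nonneg (a : ℝ) (u : O) (hx : 0 < x.P) : 0 ≤ nP a u x := by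
  exact div_nonneg (sq_nonneg _) hx.le

theorem norm_rc_le' (hψ : ∀ n, ‖ψ n‖ ≤ 1) (u n : O) : ‖rc ψ u n‖ ≤ 1 := by
  rw [rc, norm_mul]
  exact mul_le_one₀ (hψ n) (norm_nonneg _) (norm_sx_le u n)

/-- `PS_eq_SS`, `norm_SS_Pr_le` -/
theorem nS_le (ha : 0 < a) : ∃ C : ℝ, 0 < C ∧ ∀ (ψ : O → ℂ) (N t : ℝ) (u : O),
    (∀ n, ‖ψ n‖ ≤ 1) → 0 < N → nS ψ a N t u ≤ C * N := by
  obtain ⟨C, hC, h⟩ := norm_SS_Pr_le ha
  refine ⟨C ^ 2, by positivity, fun ψ N t u hψ hN => ?_⟩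
  have h1 := h (fun n : Pr => rc ψ u n) 1 N t (fun n => norm_rc_le' hψ u n) hN
  rw [← PS_eq_SS] at h1
  have h2 : ‖PS (rc ψ u) a N t‖ ≤ C * N :=
    h1.trans (by rw [mul_one]; exact mul_le_mul_of_nonneg_left (min_le_left _ _) hC.le)
  rw [nS, div_le_iff₀ hN]
  calc _ ≤ (C * N) ^ 2 := pow_le_pow_left₀ (norm_nonneg _) h2 2
    _ = _ := by ring

theorem nP_le (ha : 0 < a) : ∃ C : ℝ, 0 < C ∧ ∀ (x : Slot) (u : O),
    (∀ n, ‖x.ψ n‖ ≤ 1) → 0 < x.P → nP a u x ≤ C * x.P := by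
  classical
  obtain ⟨C, hC, h⟩ := norm_SS_Pr_le ha
  refine ⟨C ^ 2, by positivity, fun x u hψ hN => ?_⟩
  have h1 := h (fun n : Pr => if Prime (n : O) then rc x.ψ u n else 0) 1 x.P x.s (fun n => by
    split_ifs
    · exact norm_rc_le' hψ u n
    · simp) hN
  have h2 : ‖PP (rc x.ψ u) a x.P x.s‖ ≤ C * x.P := by
    rw [PP_eq_SS]
    refine le_trans (le_of_eq ?_) (h1.trans ?_)
    · congr!
    · rw [mul_one]; exact mul_le_mul_of_nonneg_left (min_le_left _ _) hC.le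
  rw [nP, div_le_iff₀ hN]
  calc _ ≤ (C * x.P) ^ 2 := pow_le_pow_left₀ (norm_nonneg _) h2 2
    _ = _ := by ring

/-- if `P ≥ 1` then `P ^ (1/2) ≤ P ^ κ ≤ Y` -/
theorem Slot.OK.le_sq (h : x.OK q κ Y S) (hκ : 3 / 4 ≤ κ) (hY : 1 ≤ Y) : x.P ≤ Y ^ 2 := by
  rcases le_total x.P 1 with h1 | h1
  · exact h1.trans (one_le_pow₀ hY)
  · have h2 : x.P ^ (1 / 2 : ℝ) ≤ Y :=
      (Real.rpow_le_rpow_of_exponent_le h1 (by linarith)).trans h.le
    have h3 : (x.P ^ (1 / 2 : ℝ)) ^ 2 = x.P := by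
      rw [← Real.rpow_natCast, ← Real.rpow_mul h.pos.le]
      norm_num
    rw [← h3]
    exact pow_le_pow_left₀ (Real.rpow_nonneg h.pos.le _) h2 2

theorem Slot.OK.mono (h : x.OK q κ Y S) {S' : ℝ} (hS : S ≤ S') : x.OK q κ Y S' := by
  exact ⟨h.tw, h.pos, h.le, h.tws.trans hS⟩

/-- `IsTw.mul_dvd`, `Lev.four_dvd` -/
theorem Slot.OK.sh (h : x.OK q κ Y S) (hq : Lev q) (hκ : 0 ≤ κ) (hρ : IsTw 4 ρ) (a : ℝ) {w : ℂ}
    (hw : w.re ≤ 0) : (x.sh a ρ w).OK q κ Y (S + |w.im|) := by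
  have hp := h.pos
  refine ⟨h.tw.mul_dvd hρ hq.four_dvd, mul_pos hp (Real.exp_pos _), le_trans ?_ h.le,
    (abs_add_le _ _).trans (by gcongr; exact h.tws)⟩
  refine Real.rpow_le_rpow (mul_pos hp (Real.exp_pos _)).le ?_ hκ
  refine mul_le_of_le_one_right hp.le (Real.exp_le_one_iff.2 ?_)
  exact mul_nonpos_of_nonneg_of_nonpos (sq_nonneg a) hw

theorem QL_pos (h : ∀ x ∈ L, 0 < x.P) : 0 < QL L := by
  refine List.prod_pos fun y hy => ?_
  obtain ⟨x, hx, rfl⟩ := List.mem_map.1 hy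
  exact h x hx

theorem QL_le (h : ∀ x ∈ L, x.OK q κ Y S) (hκ : 3 / 4 ≤ κ) (hY : 1 ≤ Y) :
    QL L ≤ Y ^ (2 * L.length) := by
  induction L with
  | nil => simp [QL]
  | cons y L ih =>
    have h1 := ih fun x hx => h x (List.mem_cons_of_mem _ hx)
    have h2 := (h y List.mem_cons_self).le_sq hκ hY
    have h3 : 0 < QL L := QL_pos fun x hx => (h x (List.mem_cons_of_mem _ hx)).pos
    have h4 : QL (y :: L) = y.P * QL L := by simp [QL]
    rw [h4, List.length_cons, mul_add, pow_add, mul_comm (Y ^ _)]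
    exact mul_le_mul h2 h1 h3.le (by positivity)

variable {j : ℕ} {D : Dat}

theorem Dat.OK.S_nonneg (h : D.OK q κ σ j) : 0 ≤ D.S := (abs_nonneg _).trans h.ht₁

theorem Dat.OK.X_pos (h : D.OK q κ σ j) : 0 < D.X := by
  exact mul_pos (mul_pos h.pos₁ h.pos₂) (QL_pos fun x hx => (h.slot x hx).pos)

theorem Dat.OK.X_le_W (h : D.OK q κ σ j) (hκ : 3 / 4 ≤ κ) : D.X ≤ D.W := by
  have h1 := (QL_le h.slot hκ h.hY).trans
    (pow_le_pow_right₀ h.hY (by omega : 2 * D.L.length ≤ 6 * D.L.length))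
  have h2 := QL_pos fun x hx => (h.slot x hx).pos
  have h3 := h.pos₂
  unfold Dat.X Dat.W
  gcongr <;> exact le_max_left _ _

theorem Dat.OK.one_le_W (h : D.OK q κ σ j) : 1 ≤ D.W := by
  exact one_le_mul_of_one_le_of_one_le
    (one_le_mul_of_one_le_of_one_le (le_max_right _ _) (le_max_right _ _)) (one_le_pow₀ h.hY)

theorem Dat.OK.N₁_le_W (h : D.OK q κ σ j) : D.N₁ ≤ D.W := by
  unfold Dat.W
  rw [mul_assoc]
  refine (le_max_left _ 1).trans (le_mul_of_one_le_right (by positivity) ?_)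
  exact one_le_mul_of_one_le_of_one_le (le_max_right _ _) (one_le_pow₀ h.hY)

theorem Dat.OK.N₂_le_W (h : D.OK q κ σ j) : D.N₂ ≤ D.W := by
  unfold Dat.W
  rw [mul_comm (max D.N₁ 1), mul_assoc]
  refine (le_max_left _ 1).trans (le_mul_of_one_le_right (by positivity) ?_)
  exact one_le_mul_of_one_le_of_one_le (le_max_right _ _) (one_le_pow₀ h.hY)

theorem Dat.OK.P_le_W (h : D.OK q κ σ j) (hκ : 3 / 4 ≤ κ) (hx : x ∈ D.L) : x.P ≤ D.W := by
  have h1 := (h.slot x hx).le_sq hκ h.hY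
  have h2 := List.length_pos_of_mem hx
  have h3 := h.hY
  refine h1.trans ((pow_le_pow_right₀ h.hY (by omega : 2 ≤ 6 * D.L.length)).trans ?_)
  exact le_mul_of_one_le_left (by positivity)
    (one_le_mul_of_one_le_of_one_le (le_max_right _ _) (le_max_right _ _))

theorem Cen.norm_le {M₁ M₂ Λ : ℝ} {c : ℂ} (h : Cen D M₁ M₂ Λ c) : ‖c‖ ≤ 1 := by
  rcases h.alt with ⟨rfl, _⟩ | ⟨rfl, _⟩ <;> simp

/-- the comparison data -/
theorem Cen.ok {M₁ M₂ Λ : ℝ} {c : ℂ} (h : Cen D M₁ M₂ Λ c) (hD : D.OK q κ σ j) :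
    ({ D with N₁ := M₁, N₂ := M₂ } : Dat).OK q κ σ j ∧
      ({ D with N₁ := M₁, N₂ := M₂ } : Dat).W ≤ D.U ∧
      ({ D with N₁ := M₁, N₂ := M₂ } : Dat).X = D.X := by
  refine ⟨⟨hD.tw₁, hD.tw₂, hD.hZ, hD.hY, hD.hZY, hD.hU, hD.hUZ, h.pos₁, h.pos₂, hD.ht₁, hD.ht₂,
    hD.len, hD.slot⟩, h.wid, ?_⟩
  show M₁ * M₂ * QL D.L = D.N₁ * D.N₂ * QL D.L
  rw [h.prod]


end Crest.Agent.R17.M2
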