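import Crest.Agent.R17.M2.Single
import Crest.Agent.R17.C.Smooth

/-! Row 17, block M2 (owner helper24): cancellation of the main terms on exceptional rows. -/

set_option autoImplicit false

namespace Crest.Agent.R17.M2

open scoped ComplexConjugate
open Complex

variable {q : O} {κ σ : ℝ}

/-- From `C.PS_exc` with `r = (if Princ .. then Lx .. 1 else 0) * LNt a (1 + I t)`:
`min 1 y ≤ √y`; the bound for `r` by taking `y = 1` and the trivial bound (`C.norm_sum_le`). -/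
theorem exc_main (hq : Lev q) {a ε : ℝ} (ha : 0 < a) (hε : 0 < ε) : ∃ C : ℝ, 0 < C ∧
    ∀ (ψ : O → ℂ) (u : O) (t Z : ℝ), IsTw q ψ → u ≠ 0 → Exc q u → nm u ≤ Z → ∃ r : ℂ,
      ‖r‖ ≤ C * Z ^ ε * (1 + |t|) ^ C ∧ ∀ y : ℝ, 0 < y →
        ‖PS (rc ψ u) a y t‖ ≤ C * y ∧
        ‖PS (rc ψ u) a y t - r * y‖ ≤ C * Z ^ ε * (1 + |t|) ^ C * √y := by
  classical
  obtain ⟨C₁, hC₁, h₁⟩ := C.PS_exc q a ε hq ha hε
  obtain ⟨C₂, hC₂, h₂⟩ := C.norm_sum_le a 1 ha le_rfl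
  refine ⟨C₁ + C₂, by positivity, fun ψ u t Z hψ hu he hZ => ?_⟩
  have hu1 := one_le_nm hu
  have ht : 1 ≤ 1 + |t| := le_add_of_nonneg_right (abs_nonneg t)
  have a1 : 1 ≤ Z ^ ε := Real.one_le_rpow (hu1.trans hZ) hε.le
  have a2 : 1 ≤ (1 + |t|) ^ (C₁ + C₂) := Real.one_le_rpow ht (by positivity)
  have b1 : ∀ y : ℝ, 0 < y → ‖PS (rc ψ u) a y t‖ ≤ C₂ * y := fun y hy => by
    simpa only [Real.rpow_one] using h₂ _ y t (fun n => C.norm_rc_le hq hψ hu n) hy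
  set r : ℂ := (if Princ (rc ψ u) then Lx (rc ψ u) 1 else 0) * LNt a (1 + I * t) with hr
  have b2 : ∀ y : ℝ, 0 < y → ‖PS (rc ψ u) a y t - r * y‖ ≤
      C₁ * Z ^ ε * (1 + |t|) ^ (C₁ + C₂) * √y := fun y hy => by
    rw [hr, mul_right_comm]
    refine (h₁ ψ u hψ hu he y t hy).trans ?_
    have : min 1 y ≤ √y := Real.le_sqrt_of_sq_le (by
      rw [pow_two]
      exact (mul_le_of_le_one_left (le_min zero_le_one hy.le) (min_le_left _ _)).trans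
        (min_le_right _ _))
    have := le_min zero_le_one hy.le
    gcongr
    linarith
  refine ⟨r, ?_, fun y hy => ⟨(b1 y hy).trans (by gcongr; linarith),
    (b2 y hy).trans (by gcongr; linarith)⟩⟩
  have b3 := b1 1 one_pos
  have b4 := b2 1 one_pos
  rw [Real.sqrt_one, ofReal_one, mul_one, mul_one] at b4
  have b5 := norm_sub_le (PS (rc ψ u) a 1 t) (PS (rc ψ u) a 1 t - r)
  rw [sub_sub_cancel] at b5
  have b6 : C₂ * 1 * 1 ≤ C₂ * Z ^ ε * (1 + |t|) ^ (C₁ + C₂) := by gcongr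
  linarith

/-- pure algebra: if `‖S₁‖ ≤ E y₁`, `‖r₂‖ ≤ E`, `‖S_i - r_i y_i‖ ≤ E √y_i`, `y_i ≥ λ`, then
`‖S₁ S₂ - r₁ r₂ y₁ y₂‖ ≤ 2 E² y₁ y₂ / √λ` -/
theorem prod_main {S₁ S₂ r₁ r₂ : ℂ} {E y₁ y₂ l : ℝ} (hE : 0 ≤ E) (hl : 0 < l) (h₁ : l ≤ y₁)
    (h₂ : l ≤ y₂) (hS : ‖S₁‖ ≤ E * y₁) (hr : ‖r₂‖ ≤ E) (e₁ : ‖S₁ - r₁ * y₁‖ ≤ E * √y₁)
    (e₂ : ‖S₂ - r₂ * y₂‖ ≤ E * √y₂) :
    ‖S₁ * S₂ - r₁ * r₂ * ((y₁ * y₂ : ℝ) : ℂ)‖ ≤ 2 * E ^ 2 * (y₁ * y₂) / √l := by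
  have hs : 0 < √l := Real.sqrt_pos.2 hl
  have key : ∀ y, l ≤ y → √y ≤ y / √l := fun y hy => by
    rw [le_div_iff₀ hs]
    exact (mul_le_mul_of_nonneg_left (Real.sqrt_le_sqrt hy) (Real.sqrt_nonneg _)).trans_eq
      (Real.mul_self_sqrt (by linarith))
  have k1 := key y₁ h₁
  have k2 := key y₂ h₂
  have p1 : 0 ≤ y₁ := by linarith
  have p2 : 0 ≤ y₂ := by linarith
  have e : S₁ * S₂ - r₁ * r₂ * ((y₁ * y₂ : ℝ) : ℂ) =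
      S₁ * (S₂ - r₂ * y₂) + (S₁ - r₁ * y₁) * r₂ * y₂ := by push_cast; ring
  rw [e]
  refine (norm_add_le _ _).trans ?_
  rw [norm_mul, norm_mul, norm_mul, norm_real, Real.norm_of_nonneg p2]
  calc _ ≤ E * y₁ * (E * (y₂ / √l)) + E * (y₁ / √l) * E * y₂ := by
        gcongr
        · exact e₂.trans (by gcongr)
        · exact e₁.trans (by gcongr)
    _ = _ := by ring

/-- `c = 0`: `norm_Tq_triv` twice (`N_i ≤ W ≤ Z`).  `c = 1`: `Tq_wP` four times; the prefactors agree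
because `(N₁/D₁)^w (N₂/D₂)^w = (N₁N₂/(D₁D₂))^w` (`Complex.mul_cpow_ofReal_nonneg`) and
`M₁M₂ = N₁N₂`; `exc_main` with `ε = η`, `prod_main` for both pairs with
`l = Λ e^(-a₁²-a₂²) / (N D₁ N D₂)`; finally `(N₁N₂/(D₁D₂))^(2α+2) ≤ Z^(4η)`, `α = 2η - 1`. -/
theorem del_exc (hq : Lev q) (j : ℕ) {a₁ a₂ η : ℝ} (h₁ : 0 < a₁) (h₂ : 0 < a₂) (hη : 0 < η)
    (hη' : η ≤ 1 / 100) : ∃ C : ℝ, 0 < C ∧
    ∀ (D : Dat) (M₁ M₂ Λ : ℝ) (c : ℂ) (ρ : O → ℂ) (τ : ℝ) (u D₁ D₂ : O), D.OK q κ σ j →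
      D.W ≤ D.U → Cen D M₁ M₂ Λ c → IsTw 4 ρ → u ≠ 0 → Exc q u → nm u ≤ D.Z → Prim D₁ → Prim D₂ →
      ‖Del (wP D.ψ₁ a₁ D.N₁ D.t₁) (wP D.ψ₂ a₂ D.N₂ D.t₂) (wP D.ψ₁ a₁ M₁ D.t₁) (wP D.ψ₂ a₂ M₂ D.t₂)
          c (th ρ (wt η τ) u) D₁ D₂‖ ^ 2 ≤
        C * D.Z ^ (8 * η) * (1 + D.S + |τ|) ^ C / Λ * (nm D₁ * nm D₂) := by
  obtain ⟨A₁, hA₁, HA₁⟩ := norm_Tq_triv h₁ hη
  obtain ⟨A₂, hA₂, HA₂⟩ := norm_Tq_triv h₂ hη
  obtain ⟨C₁, hC₁, HC₁⟩ := exc_main hq h₁ hη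
  obtain ⟨C₂, hC₂, HC₂⟩ := exc_main hq h₂ hη
  set B : ℝ := Real.exp (a₁ ^ 2 + a₂ ^ 2) with hB
  have hB0 : 0 < B := Real.exp_pos _
  refine ⟨A₁ * A₂ + 16 * B ^ 2 * (C₁ + C₂) ^ 4 + 4 * (C₁ + C₂), by positivity, ?_⟩
  intro D M₁ M₂ Λ c ρ τ u D₁ D₂ hD hW hc hρ hu hex huZ hD₁ hD₂
  set C : ℝ := A₁ * A₂ + 16 * B ^ 2 * (C₁ + C₂) ^ 4 + 4 * (C₁ + C₂) with hC
  set T : ℝ := 1 + D.S + |τ| with hT
  have hS0 := hD.S_nonneg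
  have hT1 : 1 ≤ T := by have := abs_nonneg τ; linarith
  have hZ1 := hD.hZ
  have hZ0 : 0 < D.Z := by linarith
  have n1 := one_le_nm hD₁.ne_zero
  have n2 := one_le_nm hD₂.ne_zero
  have hWZ : D.W ≤ D.Z := hW.trans hD.hUZ
  have hθ : Mu (2 * η - 1) (th ρ (wt η τ) u) := by simpa using mu_th hρ (wt η τ) u
  have b1 := hD.tw₁.norm_le hq.1
  have b2 := hD.tw₂.norm_le hq.1
  have hZ8 : D.Z ^ (8 * η) = D.Z ^ (4 * η) * D.Z ^ (4 * η) := by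
    rw [← Real.rpow_add hZ0]; congr 1; ring
  have hZ4 : 0 < D.Z ^ (4 * η) := Real.rpow_pos_of_pos hZ0 _
  have hCpos : 0 < C := by positivity
  rcases hc.alt with ⟨rfl, rfl⟩ | ⟨rfl, l1, l2, l3, l4⟩
  · have e1 := HA₁ _ _ _ _ D₁ hD.pos₁ (hD.N₁_le_W.trans hWZ) (maj_wP b1 a₁ D.N₁ D.t₁) hθ hD₁
    have e2 := HA₂ _ _ _ _ D₂ hD.pos₂ (hD.N₂_le_W.trans hWZ) (maj_wP b2 a₂ D.N₂ D.t₂) hθ hD₂
    have hTC : 1 ≤ T ^ C := Real.one_le_rpow hT1 hCpos.le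
    have hAC : A₁ * A₂ ≤ C := by
      have : 0 ≤ 16 * B ^ 2 * (C₁ + C₂) ^ 4 + 4 * (C₁ + C₂) := by positivity
      linarith
    have hn : 1 ≤ nm D₁ * nm D₂ := one_le_mul_of_one_le_of_one_le n1 n2
    unfold Del
    rw [zero_mul, sub_zero, norm_mul, mul_pow, div_one, hZ8]
    calc _ ≤ A₁ * D.Z ^ (4 * η) * (A₂ * D.Z ^ (4 * η)) :=
          mul_le_mul e1 e2 (by positivity) (by positivity)
      _ = A₁ * A₂ * (D.Z ^ (4 * η) * D.Z ^ (4 * η)) * 1 * 1 := by ring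
      _ ≤ _ := by gcongr
  · have hΛ := hc.posΛ
    have hM₁ := hc.pos₁
    have hM₂ := hc.pos₂
    have hN₁ := hD.pos₁
    have hN₂ := hD.pos₂
    obtain ⟨r₁, -, Hr₁⟩ := HC₁ _ u (D.t₁ + τ) D.Z (hD.tw₁.mul_dvd hρ hq.four_dvd) hu hex huZ
    obtain ⟨r₂, hr₂, Hr₂⟩ := HC₂ _ u (D.t₂ + τ) D.Z (hD.tw₂.mul_dvd hρ hq.four_dvd) hu hex huZ
    set E : ℝ := (C₁ + C₂) * D.Z ^ η * T ^ (C₁ + C₂) with hE
    have hZη : 1 ≤ D.Z ^ η := Real.one_le_rpow hZ1 hη.le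
    have hTC : 1 ≤ T ^ (C₁ + C₂) := Real.one_le_rpow hT1 (by positivity)
    have hE0 : 0 ≤ E := by positivity
    have hEt : ∀ C' t : ℝ, 0 < C' → C' ≤ C₁ + C₂ → |t| ≤ D.S →
        C' * D.Z ^ η * (1 + |t + τ|) ^ C' ≤ E := by
      intro C' t h0 hle ht
      have h3 : 1 + |t + τ| ≤ T := by have := abs_add_le t τ; linarith
      have h4 : (1 + |t + τ|) ^ C' ≤ T ^ (C₁ + C₂) :=
        (Real.rpow_le_rpow (by positivity) h3 h0.le).trans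
          (Real.rpow_le_rpow_of_exponent_le hT1 hle)
      rw [hE]
      gcongr
    have hE1 := hEt C₁ D.t₁ hC₁ (by linarith) hD.ht₁
    have hE2 := hEt C₂ D.t₂ hC₂ (by linarith) hD.ht₂
    have hE3 : C₁ ≤ E := by
      calc C₁ = C₁ * 1 * 1 := by ring
        _ ≤ _ := by rw [hE]; gcongr; linarith
    set e₁ : ℝ := Real.exp (a₁ ^ 2 * (2 * η - 1)) with he₁
    set e₂ : ℝ := Real.exp (a₂ ^ 2 * (2 * η - 1)) with he₂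
    have hα : 2 * η - 1 ≤ 0 := by linarith
    have p1 : 0 < e₁ := Real.exp_pos _
    have p2 : 0 < e₂ := Real.exp_pos _
    have u1 : e₁ ≤ 1 := Real.exp_le_one_iff.2 (mul_nonpos_of_nonneg_of_nonpos (sq_nonneg _) hα)
    have u2 : e₂ ≤ 1 := Real.exp_le_one_iff.2 (mul_nonpos_of_nonneg_of_nonpos (sq_nonneg _) hα)
    have w1 : B⁻¹ ≤ e₁ := by
      rw [hB, ← Real.exp_neg, he₁, Real.exp_le_exp]
      nlinarith [sq_nonneg a₁, sq_nonneg a₂]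
    have w2 : B⁻¹ ≤ e₂ := by
      rw [hB, ← Real.exp_neg, he₂, Real.exp_le_exp]
      nlinarith [sq_nonneg a₁, sq_nonneg a₂]
    set l : ℝ := Λ / (nm D₁ * nm D₂) * B⁻¹ with hl
    have hl0 : 0 < l := by positivity
    have hl1 : ∀ x : ℝ, Λ ≤ x → l ≤ x / nm D₁ * e₁ := fun x hx => by
      have : nm D₁ ≤ nm D₁ * nm D₂ := le_mul_of_one_le_right (by linarith) n2
      have hx0 : 0 ≤ x := by linarith
      rw [hl]; gcongr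
    have hl2 : ∀ x : ℝ, Λ ≤ x → l ≤ x / nm D₂ * e₂ := fun x hx => by
      have : nm D₂ ≤ nm D₁ * nm D₂ := le_mul_of_one_le_left (by linarith) n1
      have hx0 : 0 ≤ x := by linarith
      rw [hl]; gcongr
    set G : ℝ := D.N₁ * D.N₂ / (nm D₁ * nm D₂) with hG
    have hG0 : 0 < G := by positivity
    have hGZ : G ≤ D.Z := by
      have h5 : D.N₁ * D.N₂ ≤ D.W := by
        have h6 : 1 ≤ D.Y ^ (6 * D.L.length) := one_le_pow₀ hD.hY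
        calc D.N₁ * D.N₂ = D.N₁ * D.N₂ * 1 := (mul_one _).symm
          _ ≤ _ := by
            unfold Dat.W
            gcongr
            · exact le_max_left _ _
            · exact le_max_left _ _
      exact (div_le_self (by positivity) (one_le_mul_of_one_le_of_one_le n1 n2)).trans
        (h5.trans hWZ)
    have key : ∀ x₁ x₂ : ℝ, Λ ≤ x₁ → Λ ≤ x₂ → x₁ * x₂ = D.N₁ * D.N₂ →
        ((x₁ / nm D₁ : ℝ) : ℂ) ^ wt η τ * ((x₂ / nm D₂ : ℝ) : ℂ) ^ wt η τ = (G : ℂ) ^ wt η τ ∧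
        ‖PS (rc (fun n => D.ψ₁ n * ρ n) u) a₁ (x₁ / nm D₁ * e₁) (D.t₁ + τ) *
          PS (rc (fun n => D.ψ₂ n * ρ n) u) a₂ (x₂ / nm D₂ * e₂) (D.t₂ + τ) -
          r₁ * r₂ * ((G * (e₁ * e₂) : ℝ) : ℂ)‖ ≤ 2 * E ^ 2 * G / √l := by
      intro x₁ x₂ k1 k2 k3
      have x1 : 0 < x₁ := by linarith
      have x2 : 0 < x₂ := by linarith
      have k4 : x₁ / nm D₁ * (x₂ / nm D₂) = G := by rw [hG, ← k3]; field_simp
      constructor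
      · rw [← Complex.mul_cpow_ofReal_nonneg (by positivity) (by positivity), ← k4, ofReal_mul]
      · have y1 : 0 < x₁ / nm D₁ * e₁ := by positivity
        have y2 : 0 < x₂ / nm D₂ * e₂ := by positivity
        have k5 : x₁ / nm D₁ * e₁ * (x₂ / nm D₂ * e₂) = G * (e₁ * e₂) := by rw [← k4]; ring
        have := prod_main (r₁ := r₁) hE0 hl0 (hl1 x₁ k1) (hl2 x₂ k2)
          ((Hr₁ _ y1).1.trans (mul_le_mul_of_nonneg_right hE3 y1.le)) (hr₂.trans hE2)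
          ((Hr₁ _ y1).2.trans (mul_le_mul_of_nonneg_right hE1 (Real.sqrt_nonneg _)))
          ((Hr₂ _ y2).2.trans (mul_le_mul_of_nonneg_right hE2 (Real.sqrt_nonneg _)))
        rw [k5] at this
        refine this.trans ?_
        have k6 : G * (e₁ * e₂) ≤ G :=
          mul_le_of_le_one_right hG0.le (mul_le_one₀ u1 p2.le u2)
        gcongr
    obtain ⟨g1, g2⟩ := key D.N₁ D.N₂ l1 l2 rfl
    obtain ⟨g3, g4⟩ := key M₁ M₂ l3 l4 hc.prod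
    unfold Del
    rw [Tq_wP hD.tw₁ h₁ hN₁ hD₁, Tq_wP hD.tw₂ h₂ hN₂ hD₂, Tq_wP hD.tw₁ h₁ hM₁ hD₁,
      Tq_wP hD.tw₂ h₂ hM₂ hD₂, wt_re, wt_im, ← he₁, ← he₂]
    generalize PS _ a₁ (D.N₁ / nm D₁ * e₁) _ = S₁ at g2 ⊢
    generalize PS _ a₂ (D.N₂ / nm D₂ * e₂) _ = S₂ at g2 ⊢
    generalize PS _ a₁ (M₁ / nm D₁ * e₁) _ = S₃ at g4 ⊢
    generalize PS _ a₂ (M₂ / nm D₂ * e₂) _ = S₄ at g4 ⊢
    have hk : ‖kp a₁ D.t₁ (wt η τ)‖ ^ 2 * ‖kp a₂ D.t₂ (wt η τ)‖ ^ 2 ≤ B := by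
      rw [norm_kp, norm_kp, wt_re, ← Real.exp_nat_mul, ← Real.exp_nat_mul, ← Real.exp_add, hB,
        Real.exp_le_exp]
      have h7 : (2 * η - 1) ^ 2 ≤ 1 := by nlinarith
      have h8 := mul_le_mul_of_nonneg_left h7 (sq_nonneg a₁)
      have h9 := mul_le_mul_of_nonneg_left h7 (sq_nonneg a₂)
      push_cast
      linarith
    have hd : ‖S₁ * S₂ - S₃ * S₄‖ ≤ 4 * E ^ 2 * G / √l := by
      have h7 := norm_sub_le (S₁ * S₂ - r₁ * r₂ * ((G * (e₁ * e₂) : ℝ) : ℂ))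
        (S₃ * S₄ - r₁ * r₂ * ((G * (e₁ * e₂) : ℝ) : ℂ))
      rw [sub_sub_sub_cancel_right] at h7
      calc _ ≤ _ := h7
        _ ≤ 2 * E ^ 2 * G / √l + 2 * E ^ 2 * G / √l := add_le_add g2 g4
        _ = _ := by ring
    have hd2 : ‖S₁ * S₂ - S₃ * S₄‖ ^ 2 ≤ 16 * E ^ 4 * G ^ 2 / l := by
      calc _ ≤ (4 * E ^ 2 * G / √l) ^ 2 := by gcongr
        _ = _ := by rw [div_pow, Real.sq_sqrt hl0.le]; ring
    have hGw : ‖(G : ℂ) ^ wt η τ‖ ^ 2 * G ^ 2 ≤ D.Z ^ (4 * η) := by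
      rw [Complex.norm_cpow_eq_rpow_re_of_pos hG0, wt_re, ← mul_pow, ← Real.rpow_add_one hG0.ne',
        ← Real.rpow_natCast, ← Real.rpow_mul hG0.le]
      have : (2 * η - 1 + 1) * ((2 : ℕ) : ℝ) = 4 * η := by push_cast; ring
      rw [this]
      exact Real.rpow_le_rpow hG0.le hGZ (by positivity)
    have hE4 : E ^ 4 ≤ (C₁ + C₂) ^ 4 * D.Z ^ (4 * η) * T ^ C := by
      have h7 : (D.Z ^ η) ^ 4 = D.Z ^ (4 * η) := by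
        rw [← Real.rpow_natCast, ← Real.rpow_mul hZ0.le]; congr 1; push_cast; ring
      have h8 : (T ^ (C₁ + C₂)) ^ 4 ≤ T ^ C := by
        rw [← Real.rpow_natCast, ← Real.rpow_mul (by linarith)]
        refine Real.rpow_le_rpow_of_exponent_le hT1 ?_
        have : 0 ≤ A₁ * A₂ + 16 * B ^ 2 * (C₁ + C₂) ^ 4 := by positivity
        push_cast
        linarith
      rw [hE, mul_pow, mul_pow, h7]
      gcongr
    have hCC : 16 * B ^ 2 * (C₁ + C₂) ^ 4 ≤ C := by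
      have : 0 ≤ A₁ * A₂ + 4 * (C₁ + C₂) := by positivity
      linarith
    have eq : D.ψ₁ D₁ * (((D.N₁ / nm D₁ : ℝ) : ℂ) ^ wt η τ * kp a₁ D.t₁ (wt η τ)) * S₁ *
          (D.ψ₂ D₂ * (((D.N₂ / nm D₂ : ℝ) : ℂ) ^ wt η τ * kp a₂ D.t₂ (wt η τ)) * S₂) -
        1 * (D.ψ₁ D₁ * (((M₁ / nm D₁ : ℝ) : ℂ) ^ wt η τ * kp a₁ D.t₁ (wt η τ)) * S₃ *
          (D.ψ₂ D₂ * (((M₂ / nm D₂ : ℝ) : ℂ) ^ wt η τ * kp a₂ D.t₂ (wt η τ)) * S₄)) =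
        D.ψ₁ D₁ * D.ψ₂ D₂ * (kp a₁ D.t₁ (wt η τ) * kp a₂ D.t₂ (wt η τ)) *
          ((G : ℂ) ^ wt η τ * (S₁ * S₂ - S₃ * S₄)) := by
      linear_combination (D.ψ₁ D₁ * D.ψ₂ D₂ * (kp a₁ D.t₁ (wt η τ) * kp a₂ D.t₂ (wt η τ))) *
        (S₁ * S₂ * g1 - S₃ * S₄ * g3)
    rw [eq, hZ8]
    simp only [norm_mul, mul_pow]
    have q1 : ‖D.ψ₁ D₁‖ ^ 2 ≤ 1 := pow_le_one₀ (norm_nonneg _) (b1 _)
    have q2 : ‖D.ψ₂ D₂‖ ^ 2 ≤ 1 := pow_le_one₀ (norm_nonneg _) (b2 _)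
    have hT0 : 0 < T ^ C := Real.rpow_pos_of_pos (by linarith) _
    calc _ ≤ 1 * 1 * B * (‖(G : ℂ) ^ wt η τ‖ ^ 2 * (16 * E ^ 4 * G ^ 2 / l)) := by gcongr
      _ = 16 * B ^ 2 * E ^ 4 * (‖(G : ℂ) ^ wt η τ‖ ^ 2 * G ^ 2) / Λ * (nm D₁ * nm D₂) := by
          rw [hl]; field_simp
      _ ≤ 16 * B ^ 2 * ((C₁ + C₂) ^ 4 * D.Z ^ (4 * η) * T ^ C) * D.Z ^ (4 * η) / Λ *
            (nm D₁ * nm D₂) := by gcongr
      _ = 16 * B ^ 2 * (C₁ + C₂) ^ 4 * (D.Z ^ (4 * η) * D.Z ^ (4 * η)) * T ^ C / Λ *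
            (nm D₁ * nm D₂) := by ring
      _ ≤ _ := by gcongr


end Crest.Agent.R17.M2
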