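import Crest.Agent.R17.M2.Basic

/-! Row 17, block M2 (owner helper24): trivial bounds and formal properties of `MomOn`. -/

set_option autoImplicit false

namespace Crest.Agent.R17.M2

open scoped ComplexConjugate
open Complex

variable {q : O} {κ σ : ℝ} {j k : ℕ} {H H' : Dat → Prop}

theorem Dat.OK.swap {D : Dat} (h : D.OK q κ σ j) : D.swap.OK q κ σ j := by
  exact ⟨h.tw₂, h.tw₁, h.hZ, h.hY, h.hZY, h.hU, h.hUZ, h.pos₂, h.pos₁, h.ht₂, h.ht₁, h.len, h.slot⟩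

theorem swap_W (D : Dat) : D.swap.W = D.W := by
  show max D.N₂ 1 * max D.N₁ 1 * _ = max D.N₁ 1 * max D.N₂ 1 * _
  rw [mul_comm (max D.N₂ 1)]
  rfl

theorem swap_X (D : Dat) : D.swap.X = D.X := by
  show D.N₂ * D.N₁ * _ = D.N₁ * D.N₂ * _
  rw [mul_comm D.N₂]
  rfl

theorem swap_mom (D : Dat) (a₁ a₂ a₃ : ℝ) (A : Finset O) :
    D.swap.mom a₂ a₁ a₃ A = D.mom a₁ a₂ a₃ A := by
  refine Finset.sum_congr rfl fun u _ => ?_
  show nS D.ψ₂ a₂ D.N₂ D.t₂ u * nS D.ψ₁ a₁ D.N₁ D.t₁ u * _ = _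
  rw [mul_comm (nS D.ψ₂ a₂ D.N₂ D.t₂ u)]
  rfl

theorem prod_nP_nonneg (a : ℝ) (u : O) {L : List Slot} (h : ∀ x ∈ L, 0 < x.P) :
    0 ≤ (L.map (nP a u)).prod := by
  refine List.prod_nonneg fun y hy => ?_
  obtain ⟨x, hx, rfl⟩ := List.mem_map.1 hy
  exact nP_nonneg a u (h x hx)

theorem trv_prod_le {ι : Type*} (f : ι → ℝ) {B : ℝ} (L : List ι)
    (h : ∀ x ∈ L, 0 ≤ f x ∧ f x ≤ B) : (L.map f).prod ≤ B ^ L.length := by
  induction L with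
  | nil => simp
  | cons x L ih =>
    have hx := h x List.mem_cons_self
    have h' : ∀ y ∈ L, 0 ≤ f y ∧ f y ≤ B := fun y hy => h y (List.mem_cons_of_mem _ hy)
    rw [List.map_cons, List.prod_cons, List.length_cons, pow_succ']
    refine mul_le_mul hx.2 (ih h') (List.prod_nonneg fun y hy => ?_) (hx.1.trans hx.2)
    obtain ⟨z, hz, rfl⟩ := List.mem_map.1 hy
    exact (h' z hz).1

/-- `nS_le`, `nP_le`, `Slot.OK.le_sq`; constant `C₁ (max C₃ 1)^j` -/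
theorem rest_triv (hq : Lev q) (hκ : 3 / 4 ≤ κ) (j : ℕ) {a₁ a₃ : ℝ} (h₁ : 0 < a₁) (h₃ : 0 < a₃) :
    ∃ C : ℝ, 0 < C ∧ ∀ (D : Dat) (u : O), D.OK q κ σ j →
      nS D.ψ₁ a₁ D.N₁ D.t₁ u * (D.L.map (nP a₃ u)).prod ≤
        C * (max D.N₁ 1 * D.Y ^ (6 * D.L.length)) := by
  obtain ⟨C₁, hC₁, k₁⟩ := nS_le h₁
  obtain ⟨C₃, hC₃, k₃⟩ := nP_le h₃
  have hm : 1 ≤ max C₃ 1 := le_max_right _ _
  refine ⟨C₁ * max C₃ 1 ^ j, by positivity, fun D u hD => ?_⟩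
  have hY := hD.hY
  have e1 := k₁ D.ψ₁ D.N₁ D.t₁ u (hD.tw₁.norm_le hq.1) hD.pos₁
  have e2 : (D.L.map (nP a₃ u)).prod ≤ (max C₃ 1 * D.Y ^ 6) ^ D.L.length := by
    refine trv_prod_le _ _ fun x hx => ⟨nP_nonneg _ _ (hD.slot x hx).pos, ?_⟩
    refine (k₃ x u ((hD.slot x hx).tw.norm_le hq.1) (hD.slot x hx).pos).trans ?_
    refine mul_le_mul (le_max_left _ _) (((hD.slot x hx).le_sq hκ hY).trans ?_)
      (hD.slot x hx).pos.le (by positivity)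
    exact pow_le_pow_right₀ hY (by norm_num)
  rw [mul_pow, ← pow_mul] at e2
  have e3 : max C₃ 1 ^ D.L.length ≤ max C₃ 1 ^ j := pow_le_pow_right₀ hm hD.len
  have e4 := prod_nP_nonneg a₃ u fun x hx => (hD.slot x hx).pos
  have e5 := hD.pos₁
  calc _ ≤ (C₁ * D.N₁) * (max C₃ 1 ^ D.L.length * D.Y ^ (6 * D.L.length)) := by gcongr
    _ ≤ (C₁ * max D.N₁ 1) * (max C₃ 1 ^ j * D.Y ^ (6 * D.L.length)) := by
      gcongr; exact le_max_left _ _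
    _ = _ := by ring

/-- `rest_triv`, `nS_le`, `card_le_of_nm_le` -/
theorem mom_triv (hq : Lev q) (hκ : 3 / 4 ≤ κ) (j : ℕ) {a₁ a₂ a₃ : ℝ} (h₁ : 0 < a₁) (h₂ : 0 < a₂)
    (h₃ : 0 < a₃) : ∃ C : ℝ, 0 < C ∧ ∀ (D : Dat) (A : Finset O), D.OK q κ σ j → Rw q D.U A →
      D.mom a₁ a₂ a₃ A ≤ C * D.W * D.U := by
  obtain ⟨C₁, hC₁, k₁⟩ := rest_triv (σ := σ) hq hκ j h₁ h₃
  obtain ⟨C₂, hC₂, k₂⟩ := nS_le h₂
  refine ⟨11 * (C₁ * C₂), by positivity, fun D A hD hA => ?_⟩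
  have hY := hD.hY
  have hc := card_le_of_nm_le (by linarith [hD.hU]) fun u hu => ⟨(hA u hu).1, (hA u hu).2.2⟩
  have hW : 0 ≤ C₁ * C₂ * D.W := by have := hD.one_le_W; positivity
  have h1 : D.mom a₁ a₂ a₃ A ≤ A.card • (C₁ * C₂ * D.W) := by
    refine Finset.sum_le_card_nsmul _ _ _ fun u _ => ?_
    have e1 := k₁ D u hD
    have e2 := (k₂ D.ψ₂ D.N₂ D.t₂ u (hD.tw₂.norm_le hq.1) hD.pos₂).trans
      (mul_le_mul_of_nonneg_left (le_max_left D.N₂ 1) hC₂.le)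
    have e3 := nS_nonneg D.ψ₂ a₂ D.t₂ u hD.pos₂
    calc _ = (nS D.ψ₁ a₁ D.N₁ D.t₁ u * (D.L.map (nP a₃ u)).prod) * nS D.ψ₂ a₂ D.N₂ D.t₂ u := by ring
      _ ≤ (C₁ * (max D.N₁ 1 * D.Y ^ (6 * D.L.length))) * (C₂ * max D.N₂ 1) := by gcongr
      _ = _ := by rw [Dat.W]; ring
  rw [nsmul_eq_mul] at h1
  calc _ ≤ _ := h1
    _ ≤ 11 * D.U * (C₁ * C₂ * D.W) := by gcongr
    _ = _ := by ring

theorem MomOn.mono (h : MomOn q κ σ j k H) (hH : ∀ D, D.OK q κ σ j → H' D → H D) :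
    MomOn q κ σ j k H' := by
  intro a₁ a₂ a₃ ε h₁ h₂ h₃ hε
  obtain ⟨C, hC, k⟩ := h a₁ a₂ a₃ ε h₁ h₂ h₃ hε
  exact ⟨C, hC, fun D A hD hH' hA => k D A hD (hH D hD hH') hA⟩

theorem MomOn.pow (h : MomOn q κ σ j k H) {k' : ℕ} (hk : k ≤ k') : MomOn q κ σ j k' H := by
  intro a₁ a₂ a₃ ε h₁ h₂ h₃ hε
  obtain ⟨C, hC, e⟩ := h a₁ a₂ a₃ ε h₁ h₂ h₃ hε
  refine ⟨C, hC, fun D A hD hH hA => (e D A hD hH hA).trans ?_⟩
  have := hD.hZ
  have := hD.hU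
  have := hD.S_nonneg
  have := pow_le_pow_right₀ hD.hY hk
  gcongr

/-- the right side is monotone in `C` (`S ≥ 0`) -/
theorem bound_mono {D : Dat} (h : D.OK q κ σ j) {C C' : ℝ} (hC : 0 ≤ C) (hC' : C ≤ C') (ε : ℝ)
    (k : ℕ) : C * D.Z ^ ε * D.Y ^ k * (1 + D.S) ^ C * D.U ≤
      C' * D.Z ^ ε * D.Y ^ k * (1 + D.S) ^ C' * D.U := by
  have := h.hZ
  have := h.hU
  have := h.hY
  have := h.S_nonneg
  have := hC.trans hC'
  gcongr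
  linarith

theorem MomOn.or (h : MomOn q κ σ j k H) (h' : MomOn q κ σ j k H') :
    MomOn q κ σ j k fun D => H D ∨ H' D := by
  intro a₁ a₂ a₃ ε h₁ h₂ h₃ hε
  obtain ⟨C, hC, e⟩ := h a₁ a₂ a₃ ε h₁ h₂ h₃ hε
  obtain ⟨C', hC', e'⟩ := h' a₁ a₂ a₃ ε h₁ h₂ h₃ hε
  refine ⟨C + C', by positivity, fun D A hD hH hA => ?_⟩
  rcases hH with hH | hH
  · exact (e D A hD hH hA).trans (bound_mono hD hC.le (by linarith) ε k)
  · exact (e' D A hD hH hA).trans (bound_mono hD hC'.le (by linarith) ε k)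

theorem MomOn.swap (h : MomOn q κ σ j k H) : MomOn q κ σ j k fun D => H D.swap := by
  intro a₁ a₂ a₃ ε h₁ h₂ h₃ hε
  obtain ⟨C, hC, e⟩ := h a₂ a₁ a₃ ε h₂ h₁ h₃ hε
  refine ⟨C, hC, fun D A hD hH hA => ?_⟩
  rw [← swap_mom]
  exact e D.swap A hD.swap hH hA

theorem momOn_base (hq : Lev q) (hκ : 3 / 4 ≤ κ) :
    MomOn q κ σ j 12 fun D => D.U ≤ D.Y ^ 12 ∧ D.W ≤ D.U := by
  intro a₁ a₂ a₃ ε h₁ h₂ h₃ hε
  obtain ⟨C, hC, e⟩ := mom_triv (σ := σ) hq hκ j h₁ h₂ h₃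
  refine ⟨C, hC, fun D A hD hH hA => (e D A hD hA).trans ?_⟩
  have k1 : 1 ≤ D.Z ^ ε := Real.one_le_rpow hD.hZ hε.le
  have k2 : 1 ≤ (1 + D.S) ^ C := Real.one_le_rpow (by linarith [hD.S_nonneg]) hC.le
  have k3 := hD.hU
  have k4 := hD.one_le_W
  have k5 := hH.2.trans hH.1
  calc C * D.W * D.U = C * 1 * D.W * 1 * D.U := by ring
    _ ≤ _ := by gcongr

/-- induction on `L`, generalising `g` -/
theorem sum_one_add_le {ι : Type} (A : Finset O) (π : O → ι → ℝ) (E : ℝ) (L : List ι) (g : O → ℝ)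
    (h : ∀ L' : List ι, L'.Sublist L → ∑ u ∈ A, g u * (L'.map (π u)).prod ≤ E) :
    ∑ u ∈ A, g u * (L.map fun x => 1 + π u x).prod ≤ 2 ^ L.length * E := by
  induction L generalizing g with
  | nil => simpa using h [] List.Sublist.slnil
  | cons x L ih =>
    have h1 := ih g fun L' hL' => h L' (hL'.cons x)
    have h2 := ih (fun u => g u * π u x) fun L' hL' => by
      simpa only [List.map_cons, List.prod_cons, mul_assoc] using h (x :: L') (hL'.cons_cons x)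
    simp only [List.map_cons, List.prod_cons, List.length_cons, pow_succ]
    calc _ = ∑ u ∈ A, g u * (L.map fun x => 1 + π u x).prod +
          ∑ u ∈ A, g u * π u x * (L.map fun x => 1 + π u x).prod := by
          rw [← Finset.sum_add_distrib]
          exact Finset.sum_congr rfl fun u _ => by ring
      _ ≤ _ := by linarith


end Crest.Agent.R17.M2
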