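import Crest.Agent.R17.M2.HeckeB
import Crest.Agent.R17.M2.Exc
import Crest.Agent.R17.M2.Triv

/-! Row 17, block M2 (owner helper24): the children of the concrete coefficients. -/

set_option autoImplicit false

namespace Crest.Agent.R17.M2

open scoped ComplexConjugate
open Complex

variable {q : O} {κ σ : ℝ} {d : ℕ}

theorem ch_card (j : ℕ) {η : ℝ} (hη : 0 < η) : ∃ C : ℝ, 0 < C ∧ ∀ (Z : ℝ) (R : O) (n : ℕ), 1 ≤ Z →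
    Prim R → nm R ≤ Z ^ 8 → n ≤ j →
    ((pdiv R).card : ℝ) ^ 8 * ((pdiv R).card : ℝ) ^ (4 * n) ≤ C * Z ^ (2 * η) := by
  have hj : (0 : ℝ) < 8 + 4 * j := by positivity
  obtain ⟨C, hC, h⟩ := card_pdiv_le (ε := η / (4 * (8 + 4 * j))) (by positivity)
  refine ⟨C ^ (8 + 4 * j), by positivity, fun Z R n hZ hR hRZ hn => ?_⟩
  have h1 : (1 : ℝ) ≤ (pdiv R).card := by exact_mod_cast one_le_card_pdiv hR.ne_zero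
  have hZ0 : 0 < Z := by linarith
  have h2 : ((pdiv R).card : ℝ) ≤ C * Z ^ (2 * η / (8 + 4 * j)) := by
    refine (h R hR.ne_zero).trans (mul_le_mul_of_nonneg_left ?_ hC.le)
    refine (Real.rpow_le_rpow (nm_nonneg _) hRZ (by positivity)).trans (le_of_eq ?_)
    rw [← Real.rpow_natCast, ← Real.rpow_mul hZ0.le]
    congr 1
    push_cast
    field_simp
    ring
  rw [← pow_add]
  calc ((pdiv R).card : ℝ) ^ (8 + 4 * n) ≤ ((pdiv R).card : ℝ) ^ (8 + 4 * j) :=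
        pow_le_pow_right₀ h1 (by omega)
    _ ≤ (C * Z ^ (2 * η / (8 + 4 * j))) ^ (8 + 4 * j) := by gcongr
    _ = C ^ (8 + 4 * j) * Z ^ (2 * η) := by
        rw [mul_pow, ← Real.rpow_natCast (Z ^ _), ← Real.rpow_mul hZ0.le]
        congr 2
        push_cast
        field_simp

theorem ch_pow {C Z η : ℝ} (hC : 0 < C) (hZ : 1 ≤ Z) (hη : 0 < η) {n j : ℕ} (hn : n ≤ j) :
    (C * Z ^ (4 * η)) ^ n ≤ max C 1 ^ j * Z ^ (4 * j * η) := by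
  have hZ0 : 0 < Z := by linarith
  have h1 : 1 ≤ Z ^ (4 * η) := Real.one_le_rpow hZ (by positivity)
  calc (C * Z ^ (4 * η)) ^ n ≤ (max C 1 * Z ^ (4 * η)) ^ n := by
        gcongr
        exact le_max_left _ _
    _ ≤ (max C 1 * Z ^ (4 * η)) ^ j :=
        pow_le_pow_right₀ (one_le_mul_of_one_le_of_one_le (le_max_right _ _) h1) hn
    _ = _ := by
        rw [mul_pow, ← Real.rpow_natCast (Z ^ _), ← Real.rpow_mul hZ0.le]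
        congr 2
        ring

theorem ch_prod (A : ℝ) (π : Slot → ℝ) (L : List Slot) :
    (L.map fun x => A * π x / x.P).prod = A ^ L.length * (L.map π).prod / QL L := by
  induction L with
  | nil => simp [QL]
  | cons y L ih =>
    have h4 : QL (y :: L) = y.P * QL L := by simp [QL]
    simp only [List.map_cons, List.prod_cons, List.length_cons, ih, h4, pow_succ]
    rw [div_mul_div_comm]
    congr 1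
    ring

theorem ch_dec {j : ℕ} (hq : Lev q) {D : Dat} (hD : D.OK q κ σ j) {a₁ a₂ a₃ : ℝ} (h₁ : 0 < a₁)
    (h₂ : 0 < a₂) (h₃ : 0 < a₃) :
    Dec (wP D.ψ₁ a₁ D.N₁ D.t₁) ∧ Dec (wP D.ψ₂ a₂ D.N₂ D.t₂) ∧ Dec (sl a₃ D.L) :=
  ⟨(maj_wP (hD.tw₁.norm_le hq.1) _ _ _).dec h₁ hD.pos₁ zero_le_one,
    (maj_wP (hD.tw₂.norm_le hq.1) _ _ _).dec h₂ hD.pos₂ zero_le_one,
    dec_sl h₃ fun x hx => ⟨(hD.slot x hx).tw.norm_le hq.1, (hD.slot x hx).pos⟩⟩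

/-- the common first step -/
theorem ch_hecke {j : ℕ} (hq : Lev q) {D : Dat} (hD : D.OK q κ σ j) {a₁ a₂ a₃ M₁ M₂ Λ η : ℝ} {c : ℂ}
    (h₁ : 0 < a₁) (h₂ : 0 < a₂) (h₃ : 0 < a₃) (hη' : η ≤ 1 / 100) (hc : Cen D M₁ M₂ Λ c)
    {θ : O → ℂ} (hθ : Mu (2 * η - 1) θ) {R : O} (hR : Prim R) {M : ℝ} (hM : 0 ≤ M) (m : Slot → ℝ)
    (h1 : ∀ D₁ D₂, Prim D₁ → Prim D₂ → D₁ ∣ R → D₂ ∣ R →
      ‖Del (wP D.ψ₁ a₁ D.N₁ D.t₁) (wP D.ψ₂ a₂ D.N₂ D.t₂) (wP D.ψ₁ a₁ M₁ D.t₁) (wP D.ψ₂ a₂ M₂ D.t₂)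
        c θ D₁ D₂‖ ^ 2 ≤ M * (nm D₁ * nm D₂))
    (h2 : ∀ x ∈ D.L, 0 ≤ m x ∧ ∀ E, Prim E → ‖Tq (wQ a₃ x) E θ‖ ^ 2 ≤ m x * nm E) :
    ‖Tq (coef D a₁ a₂ a₃ M₁ M₂ c) R θ‖ ^ 2 ≤
      ((pdiv R).card : ℝ) ^ 8 * ((pdiv R).card : ℝ) ^ (4 * D.L.length) *
        (M * (D.L.map m).prod) * nm R := by
  obtain ⟨d1, d2, d3⟩ := ch_dec hq hD h₁ h₂ h₃
  obtain ⟨e1, e2, -⟩ := ch_dec hq (hc.ok hD).1 h₁ h₂ h₃
  have hα : 2 * η - 1 ≤ -1 / 2 := by linarith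
  have hL := heckeL_le D.L (wQ a₃) m hθ hα hR fun x hx =>
    ⟨(maj_wQ ((hD.slot x hx).tw.norm_le hq.1) a₃).dec h₃ (hD.slot x hx).pos zero_le_one,
      (h2 x hx).1, fun E hE _ => (h2 x hx).2 E hE⟩
  have hm : 0 ≤ (D.L.map m).prod := List.prod_nonneg fun y hy => by
    obtain ⟨x, hx, rfl⟩ := List.mem_map.1 hy
    exact (h2 x hx).1
  have h := hecke2_le d1 d2 e1 e2 d3 hθ hα hR c hM
    (M' := ((pdiv R).card : ℝ) ^ (4 * D.L.length) * (D.L.map m).prod) (by positivity) h1 hL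
  have e : Tq (coef D a₁ a₂ a₃ M₁ M₂ c) R θ =
      Tq (cv (wP D.ψ₁ a₁ D.N₁ D.t₁) (cv (wP D.ψ₂ a₂ D.N₂ D.t₂) (sl a₃ D.L))) R θ -
        c * Tq (cv (wP D.ψ₁ a₁ M₁ D.t₁) (cv (wP D.ψ₂ a₂ M₂ D.t₂) (sl a₃ D.L))) R θ :=
    Tq_sub (d1.cv (d2.cv d3)) (e1.cv (e2.cv d3)) hθ hR c
  rw [e]
  refine h.trans (le_of_eq ?_)
  ring

theorem ch_del {w₁ w₂ v₁ v₂ θ : O → ℂ} {c : ℂ} (hc : ‖c‖ ≤ 1) (D₁ D₂ : O) :
    ‖Del w₁ w₂ v₁ v₂ c θ D₁ D₂‖ ^ 2 ≤ 2 * (‖Tq w₁ D₁ θ‖ ^ 2 * ‖Tq w₂ D₂ θ‖ ^ 2) +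
      2 * (‖Tq v₁ D₁ θ‖ ^ 2 * ‖Tq v₂ D₂ θ‖ ^ 2) := by
  have h1 : ‖Del w₁ w₂ v₁ v₂ c θ D₁ D₂‖ ≤
      ‖Tq w₁ D₁ θ‖ * ‖Tq w₂ D₂ θ‖ + ‖Tq v₁ D₁ θ‖ * ‖Tq v₂ D₂ θ‖ := by
    refine (norm_sub_le _ _).trans ?_
    rw [norm_mul, norm_mul, norm_mul]
    exact add_le_add le_rfl (mul_le_of_le_one_left (by positivity) hc)
  have h2 := pow_le_pow_left₀ (norm_nonneg _) h1 2
  nlinarith [sq_nonneg (‖Tq w₁ D₁ θ‖ * ‖Tq w₂ D₂ θ‖ - ‖Tq v₁ D₁ θ‖ * ‖Tq v₂ D₂ θ‖)]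

/-- Valid on every row.  Let `(D₁, D₂)` maximise `‖Del‖² / (N D₁ N D₂)` over primary pairs of norm
`≤ Z^8` (`Finset.exists_max_image`).  `Tq_sub`, `hecke2_le` with `M` = this maximum,
`M'` from `heckeL_le` + `norm_Tq_wQ_le` (product `= (C Z^(4η))^len ∏(1 + nP) / QL`),
`‖Del‖² ≤ 2‖·‖² + 2‖·‖²` and `norm_Tq_wP_le` four times, `card_pdiv_le` with `ε = η / (4 (8 + 4j))`. -/
theorem coef_all (hq : Lev q) (hκ : 3 / 4 ≤ κ) (j : ℕ) {a₁ a₂ a₃ η : ℝ} (h₁ : 0 < a₁) (h₂ : 0 < a₂)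
    (h₃ : 0 < a₃) (hη : 0 < η) (hη' : η ≤ 1 / 100) : ∃ C : ℝ, 0 < C ∧
    ∀ (D : Dat) (M₁ M₂ Λ : ℝ) (c : ℂ) (ρ : O → ℂ) (τ : ℝ) (u : O), D.OK q κ σ j → D.W ≤ D.U →
      Cen D M₁ M₂ Λ c → IsTw 4 ρ → ∃ D₁ D₂ : O, Prim D₁ ∧ Prim D₂ ∧ nm D₁ ≤ D.Z ^ 8 ∧
      nm D₂ ≤ D.Z ^ 8 ∧ ∀ R : O, Prim R → nm R ≤ D.Z ^ 8 →
        ‖Tq (coef D a₁ a₂ a₃ M₁ M₂ c) R (th ρ (wt η τ) u)‖ ^ 2 ≤
          C * D.Z ^ ((4 * j + 10) * η) / D.X *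
            (nS (fun n => D.ψ₁ n * ρ n) a₁ (D.N₁ * Real.exp (a₁ ^ 2 * (2 * η - 1)) / nm D₁) (D.t₁ + τ) u *
              nS (fun n => D.ψ₂ n * ρ n) a₂ (D.N₂ * Real.exp (a₂ ^ 2 * (2 * η - 1)) / nm D₂) (D.t₂ + τ) u +
            nS (fun n => D.ψ₁ n * ρ n) a₁ (M₁ * Real.exp (a₁ ^ 2 * (2 * η - 1)) / nm D₁) (D.t₁ + τ) u *
              nS (fun n => D.ψ₂ n * ρ n) a₂ (M₂ * Real.exp (a₂ ^ 2 * (2 * η - 1)) / nm D₂) (D.t₂ + τ) u) *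
            ((D.L.map (Slot.sh a₃ ρ (wt η τ))).map fun x => 1 + nP a₃ u x).prod * nm R := by
  classical
  obtain ⟨C₁, hC₁, b₁⟩ := norm_Tq_wP_le h₁ hη
  obtain ⟨C₂, hC₂, b₂⟩ := norm_Tq_wP_le h₂ hη
  obtain ⟨C₃, hC₃, b₃⟩ := norm_Tq_wQ_le h₃ hη
  obtain ⟨C₄, hC₄, b₄⟩ := ch_card j hη
  refine ⟨C₄ * (2 * C₁ * C₂) * max C₃ 1 ^ j, by positivity,
    fun D M₁ M₂ Λ c ρ τ u hD hW hc hρ => ?_⟩
  have hZ := hD.hZ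
  have hZ0 : 0 < D.Z := by linarith
  have hθ : Mu (2 * η - 1) (th ρ (wt η τ) u) := by simpa using mu_th hρ (wt η τ) u
  set θ := th ρ (wt η τ) u with hθd
  set Δ := Del (wP D.ψ₁ a₁ D.N₁ D.t₁) (wP D.ψ₂ a₂ D.N₂ D.t₂) (wP D.ψ₁ a₁ M₁ D.t₁)
    (wP D.ψ₂ a₂ M₂ D.t₂) c θ with hΔ
  let S : Finset O := (ball (D.Z ^ 8)).filter Prim
  have hS : ∀ x, x ∈ S ↔ nm x ≤ D.Z ^ 8 ∧ Prim x := fun x => by simp [S]
  obtain ⟨p, hp, hmax⟩ := Finset.exists_max_image (S ×ˢ S)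
    (fun p => ‖Δ p.1 p.2‖ ^ 2 / (nm p.1 * nm p.2))
    ⟨(1, 1), by simp [hS, prim_one, one_le_pow₀ hZ]⟩
  obtain ⟨hp1, hp2⟩ := Finset.mem_product.1 hp
  obtain ⟨n1, p1⟩ := (hS _).1 hp1
  obtain ⟨n2, p2⟩ := (hS _).1 hp2
  refine ⟨p.1, p.2, p1, p2, n1, n2, fun R hR hRZ => ?_⟩
  have q1 := nm_prim_pos p1
  have q2 := nm_prim_pos p2
  have hWZ : D.W ≤ D.Z := hW.trans hD.hUZ
  obtain ⟨hD', hW', -⟩ := hc.ok hD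
  have key := ch_hecke hq hD h₁ h₂ h₃ hη' hc hθ hR
    (M := ‖Δ p.1 p.2‖ ^ 2 / (nm p.1 * nm p.2)) (by positivity)
    (fun x => C₃ * D.Z ^ (4 * η) * (1 + nP a₃ u (x.sh a₃ ρ (wt η τ))) / x.P)
    (fun D₁ D₂ h1 h2 d1 d2 => by
      have := hmax (D₁, D₂) (Finset.mem_product.2
        ⟨(hS _).2 ⟨(nm_le_of_dvd d1 hR.ne_zero).trans hRZ, h1⟩,
          (hS _).2 ⟨(nm_le_of_dvd d2 hR.ne_zero).trans hRZ, h2⟩⟩)
      exact (div_le_iff₀ (mul_pos (nm_prim_pos h1) (nm_prim_pos h2))).1 this)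
    (fun x hx => by
      have hx0 := (hD.slot x hx).pos
      have hn : 0 ≤ nP a₃ u (x.sh a₃ ρ (wt η τ)) :=
        nP_nonneg _ _ (mul_pos hx0 (Real.exp_pos _))
      exact ⟨by positivity, fun E hE => b₃ x ρ τ D.Z E u ((hD.slot x hx).tw.norm_le hq.1) hρ hx0
        ((hD.P_le_W hκ hx).trans hWZ) hZ hE⟩)
  refine key.trans (mul_le_mul_of_nonneg_right ?_ (nm_nonneg _))
  rw [ch_prod, List.map_map]
  have hπ : 0 ≤ (D.L.map fun x => 1 + nP a₃ u (x.sh a₃ ρ (wt η τ))).prod :=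
    List.prod_nonneg fun y hy => by
      obtain ⟨x, hx, rfl⟩ := List.mem_map.1 hy
      have hn : 0 ≤ nP a₃ u (x.sh a₃ ρ (wt η τ)) :=
        nP_nonneg _ _ (mul_pos (hD.slot x hx).pos (Real.exp_pos _))
      positivity
  have e0 : (D.L.map ((fun x => 1 + nP a₃ u x) ∘ Slot.sh a₃ ρ (wt η τ))).prod =
      (D.L.map fun x => 1 + nP a₃ u (x.sh a₃ ρ (wt η τ))).prod := rfl
  rw [e0]
  set π := (D.L.map fun x => 1 + nP a₃ u (x.sh a₃ ρ (wt η τ))).prod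
  have t1 := b₁ q D.ψ₁ ρ D.N₁ D.t₁ τ D.Z p.1 u hq.1 hD.tw₁ hD.pos₁ (hD.N₁_le_W.trans hWZ) p1
  have t2 := b₂ q D.ψ₂ ρ D.N₂ D.t₂ τ D.Z p.2 u hq.1 hD.tw₂ hD.pos₂ (hD.N₂_le_W.trans hWZ) p2
  have t3 := b₁ q D.ψ₁ ρ M₁ D.t₁ τ D.Z p.1 u hq.1 hD.tw₁ hc.pos₁
    (hD'.N₁_le_W.trans (hW'.trans hD.hUZ)) p1
  have t4 := b₂ q D.ψ₂ ρ M₂ D.t₂ τ D.Z p.2 u hq.1 hD.tw₂ hc.pos₂
    (hD'.N₂_le_W.trans (hW'.trans hD.hUZ)) p2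
  have hN₁ := hD.pos₁
  have hN₂ := hD.pos₂
  have hM₁ := hc.pos₁
  have hM₂ := hc.pos₂
  have s1 := nS_nonneg (fun n => D.ψ₁ n * ρ n) a₁ (D.t₁ + τ) u
    (N := D.N₁ * Real.exp (a₁ ^ 2 * (2 * η - 1)) / nm p.1) (by positivity)
  have s2 := nS_nonneg (fun n => D.ψ₂ n * ρ n) a₂ (D.t₂ + τ) u
    (N := D.N₂ * Real.exp (a₂ ^ 2 * (2 * η - 1)) / nm p.2) (by positivity)
  have s3 := nS_nonneg (fun n => D.ψ₁ n * ρ n) a₁ (D.t₁ + τ) u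
    (N := M₁ * Real.exp (a₁ ^ 2 * (2 * η - 1)) / nm p.1) (by positivity)
  have s4 := nS_nonneg (fun n => D.ψ₂ n * ρ n) a₂ (D.t₂ + τ) u
    (N := M₂ * Real.exp (a₂ ^ 2 * (2 * η - 1)) / nm p.2) (by positivity)
  set x1 := nS (fun n => D.ψ₁ n * ρ n) a₁ (D.N₁ * Real.exp (a₁ ^ 2 * (2 * η - 1)) / nm p.1)
    (D.t₁ + τ) u
  set x2 := nS (fun n => D.ψ₂ n * ρ n) a₂ (D.N₂ * Real.exp (a₂ ^ 2 * (2 * η - 1)) / nm p.2)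
    (D.t₂ + τ) u
  set x3 := nS (fun n => D.ψ₁ n * ρ n) a₁ (M₁ * Real.exp (a₁ ^ 2 * (2 * η - 1)) / nm p.1)
    (D.t₁ + τ) u
  set x4 := nS (fun n => D.ψ₂ n * ρ n) a₂ (M₂ * Real.exp (a₂ ^ 2 * (2 * η - 1)) / nm p.2)
    (D.t₂ + τ) u
  have hT : 0 < D.Z ^ (4 * η) := by positivity
  have hΔle : ‖Δ p.1 p.2‖ ^ 2 / (nm p.1 * nm p.2) ≤
      2 * C₁ * C₂ * (D.Z ^ (4 * η) * D.Z ^ (4 * η)) / (D.N₁ * D.N₂) * (x1 * x2 + x3 * x4) := by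
    rw [div_le_iff₀ (mul_pos q1 q2)]
    refine (ch_del hc.norm_le p.1 p.2).trans ?_
    calc _ ≤ 2 * ((C₁ * D.Z ^ (4 * η) * (nm p.1 / D.N₁) * x1) *
            (C₂ * D.Z ^ (4 * η) * (nm p.2 / D.N₂) * x2)) +
          2 * ((C₁ * D.Z ^ (4 * η) * (nm p.1 / M₁) * x3) *
            (C₂ * D.Z ^ (4 * η) * (nm p.2 / M₂) * x4)) := by gcongr
      _ = 2 * C₁ * C₂ * (D.Z ^ (4 * η) * D.Z ^ (4 * η)) *
            (x1 * x2 / (D.N₁ * D.N₂) + x3 * x4 / (M₁ * M₂)) * (nm p.1 * nm p.2) := by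
          field_simp
      _ = _ := by
          rw [hc.prod]
          field_simp
  have hQ : 0 < QL D.L := QL_pos fun x hx => (hD.slot x hx).pos
  have hcard := b₄ D.Z R D.L.length hZ hR hRZ hD.len
  have hpw := ch_pow hC₃ hZ hη hD.len
  have hE : D.Z ^ ((4 * j + 10) * η) =
      D.Z ^ (2 * η) * (D.Z ^ (4 * η) * D.Z ^ (4 * η)) * D.Z ^ (4 * j * η) := by
    rw [← Real.rpow_add hZ0, ← Real.rpow_add hZ0, ← Real.rpow_add hZ0]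
    congr 1
    ring
  calc _ ≤ (C₄ * D.Z ^ (2 * η)) *
        ((2 * C₁ * C₂ * (D.Z ^ (4 * η) * D.Z ^ (4 * η)) / (D.N₁ * D.N₂) * (x1 * x2 + x3 * x4)) *
          ((max C₃ 1 ^ j * D.Z ^ (4 * j * η)) * π / QL D.L)) := by gcongr
    _ = _ := by
        rw [hE, Dat.X]
        field_simp

/-- `Tq_sub`, `hecke2_le` with `del_exc`, `heckeL_le` with `norm_Tq_triv` (`M i = C Z^(4η)`) -/
theorem coef_exc (hq : Lev q) (hκ : 3 / 4 ≤ κ) (j : ℕ) {a₁ a₂ a₃ η : ℝ} (h₁ : 0 < a₁) (h₂ : 0 < a₂)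
    (h₃ : 0 < a₃) (hη : 0 < η) (hη' : η ≤ 1 / 100) : ∃ C : ℝ, 0 < C ∧
    ∀ (D : Dat) (M₁ M₂ Λ : ℝ) (c : ℂ) (ρ : O → ℂ) (τ : ℝ) (u R : O), D.OK q κ σ j → D.W ≤ D.U →
      Cen D M₁ M₂ Λ c → IsTw 4 ρ → u ≠ 0 → Exc q u → nm u ≤ D.Z → Prim R → nm R ≤ D.Z ^ 8 →
      ‖Tq (coef D a₁ a₂ a₃ M₁ M₂ c) R (th ρ (wt η τ) u)‖ ^ 2 ≤
        C * D.Z ^ ((4 * j + 10) * η) * (1 + D.S + |τ|) ^ C / Λ * nm R := by
  obtain ⟨C₁, hC₁, b₁⟩ := del_exc (κ := κ) (σ := σ) hq j h₁ h₂ hη hη'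
  obtain ⟨C₃, hC₃, b₃⟩ := norm_Tq_triv h₃ hη
  obtain ⟨C₄, hC₄, b₄⟩ := ch_card j hη
  refine ⟨C₄ * C₁ * max C₃ 1 ^ j + C₁, by positivity,
    fun D M₁ M₂ Λ c ρ τ u R hD hW hc hρ hu he huZ hR hRZ => ?_⟩
  have hZ := hD.hZ
  have hZ0 : 0 < D.Z := by linarith
  have hS := hD.S_nonneg
  have hΛ := hc.posΛ
  have hθ : Mu (2 * η - 1) (th ρ (wt η τ) u) := by simpa using mu_th hρ (wt η τ) u
  have hWZ : D.W ≤ D.Z := hW.trans hD.hUZ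
  have key := ch_hecke hq hD h₁ h₂ h₃ hη' hc hθ hR
    (M := C₁ * D.Z ^ (8 * η) * (1 + D.S + |τ|) ^ C₁ / Λ) (by positivity)
    (fun _ => C₃ * D.Z ^ (4 * η))
    (fun D₁ D₂ h1 h2 _ _ => b₁ D M₁ M₂ Λ c ρ τ u D₁ D₂ hD hW hc hρ hu he huZ h1 h2)
    (fun x hx => ⟨by positivity, fun E hE =>
      (b₃ _ _ x.P D.Z E (hD.slot x hx).pos ((hD.P_le_W hκ hx).trans hWZ)
        (maj_wQ ((hD.slot x hx).tw.norm_le hq.1) a₃) hθ hE).trans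
        (le_mul_of_one_le_right (by positivity) (one_le_nm_prim hE))⟩)
  refine key.trans (mul_le_mul_of_nonneg_right ?_ (nm_nonneg _))
  rw [List.map_const', List.prod_replicate]
  have hcard := b₄ D.Z R D.L.length hZ hR hRZ hD.len
  have hpw := ch_pow hC₃ hZ hη hD.len
  have hE : D.Z ^ ((4 * j + 10) * η) =
      D.Z ^ (2 * η) * D.Z ^ (8 * η) * D.Z ^ (4 * j * η) := by
    rw [← Real.rpow_add hZ0, ← Real.rpow_add hZ0]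
    congr 1
    ring
  have h1 : 1 ≤ 1 + D.S + |τ| := by have := abs_nonneg τ; linarith
  have h0 : 0 < C₄ * C₁ * max C₃ 1 ^ j := by positivity
  have hp : (1 + D.S + |τ|) ^ C₁ ≤ (1 + D.S + |τ|) ^ (C₄ * C₁ * max C₃ 1 ^ j + C₁) :=
    Real.rpow_le_rpow_of_exponent_le h1 (by linarith)
  calc _ ≤ (C₄ * D.Z ^ (2 * η)) *
        ((C₁ * D.Z ^ (8 * η) * (1 + D.S + |τ|) ^ (C₄ * C₁ * max C₃ 1 ^ j + C₁) / Λ) *
          (max C₃ 1 ^ j * D.Z ^ (4 * j * η))) := by gcongr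
    _ = (C₄ * C₁ * max C₃ 1 ^ j) * D.Z ^ ((4 * j + 10) * η) *
          (1 + D.S + |τ|) ^ (C₄ * C₁ * max C₃ 1 ^ j + C₁) / Λ := by
        rw [hE]
        ring
    _ ≤ _ := by gcongr; linarith

/-- the data of the children -/
noncomputable def chD (D : Dat) (a₁ a₂ a₃ η τ : ℝ) (ρ : O → ℂ) : Dat :=
  ⟨fun n => D.ψ₁ n * ρ n, fun n => D.ψ₂ n * ρ n, D.Z, D.Y, D.U / D.Y ^ 6,
    D.N₁ * Real.exp (a₁ ^ 2 * (2 * η - 1)), D.N₂ * Real.exp (a₂ ^ 2 * (2 * η - 1)),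
    D.t₁ + τ, D.t₂ + τ, D.S + |τ|, D.L.map (Slot.sh a₃ ρ (wt η τ))⟩

theorem chD_ok {j : ℕ} (hq : Lev q) (hκ : 3 / 4 ≤ κ) {D : Dat} (hD : D.OK q κ σ j) (hH : H1 d D)
    (a₁ a₂ a₃ τ : ℝ) {η : ℝ} (hη' : η ≤ 1 / 100) {ρ : O → ℂ} (hρ : IsTw 4 ρ) :
    (chD D a₁ a₂ a₃ η τ ρ).OK q κ σ j ∧ HP d (chD D a₁ a₂ a₃ η τ ρ) := by
  obtain ⟨g1, g2, g3⟩ := hH
  have hY := hD.hY
  have hY6 : 1 ≤ D.Y ^ 6 := one_le_pow₀ hY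
  have hU := hD.hU
  have k1 : D.Y ^ 6 ≤ D.U / D.Y ^ 6 := by
    rw [le_div_iff₀ (by positivity), ← pow_add]
    exact g1
  have k2 : D.U / D.Y ^ 6 * D.Y ^ 6 = D.U := by field_simp
  have ex : ∀ a : ℝ, Real.exp (a ^ 2 * (2 * η - 1)) ≤ 1 := fun a =>
    Real.exp_le_one_iff.2 (mul_nonpos_of_nonneg_of_nonpos (sq_nonneg a) (by linarith))
  have hN₁ := hD.pos₁
  have hN₂ := hD.pos₂
  refine ⟨⟨hD.tw₁.mul_dvd hρ hq.four_dvd, hD.tw₂.mul_dvd hρ hq.four_dvd, hD.hZ, hY, hD.hZY,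
    hY6.trans k1, (div_le_self (by linarith) hY6).trans hD.hUZ,
    mul_pos hN₁ (Real.exp_pos _), mul_pos hN₂ (Real.exp_pos _),
    (abs_add_le _ _).trans (add_le_add hD.ht₁ le_rfl),
    (abs_add_le _ _).trans (add_le_add hD.ht₂ le_rfl), by simpa [chD] using hD.len,
    fun x hx => ?_⟩, k1, ?_, ?_, ?_⟩
  · obtain ⟨y, hy, rfl⟩ := List.mem_map.1 hx
    have := (hD.slot y hy).sh hq (by linarith) hρ a₃ (w := wt η τ) (by simp; linarith)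
    simpa [chD] using this
  · show D.U / D.Y ^ 6 * D.Y ^ 6 ≤ D.Y ^ (d + 1)
    rwa [k2]
  · show D.U / D.Y ^ 6 * D.Y ^ 6 ≤ D.Z
    rw [k2]
    exact hD.hUZ
  · show max (D.N₁ * Real.exp (a₁ ^ 2 * (2 * η - 1))) 1 *
      max (D.N₂ * Real.exp (a₂ ^ 2 * (2 * η - 1))) 1 *
        D.Y ^ (6 * (D.L.map (Slot.sh a₃ ρ (wt η τ))).length) ≤ D.U / D.Y ^ 6 * D.Y ^ 6
    rw [k2, List.length_map]
    refine le_trans ?_ g3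
    unfold Dat.W
    gcongr
    · exact mul_le_of_le_one_right hN₁.le (ex a₁)
    · exact mul_le_of_le_one_right hN₂.le (ex a₂)

theorem ch_range {N Z : ℝ} (hN : 0 < N) {E : O} (hE : Prim E) (h : nm E ≤ Z ^ 8) :
    N / Z ^ 8 ≤ N / nm E ∧ N / nm E ≤ N :=
  ⟨div_le_div_of_nonneg_left hN.le (nm_prim_pos hE) h, div_le_self hN.le (one_le_nm_prim hE)⟩

/-- `μ u = if Exc q u then (bound of coef_exc) else (bound of coef_all)`, `D₁ u`, `D₂ u` by `choose`.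
Exceptional rows: `card_exc_le` with `y = 1`, `ε = η`, `(U/Y⁶)^(1/6) = U^(1/6) / Y`.  Other rows: `MaxP`
(`ε = η`) twice, for the data `{ψ_i ρ, Z, Y, U / Y⁶, N_i e^(a_i²(2η-1)), t_i + τ, S + |τ|, L.map sh}`
and the same with `M_i` (`IsTw.mul_dvd`, `Slot.OK.sh`; `HP d` from `H1 d` resp. `Cen.wid`);
`1 + S + |τ| ≤ (1 + S)(1 + |τ|)`. -/
theorem child_coef (hq : Lev q) (hκ : 3 / 4 ≤ κ) {j : ℕ} (hM : MaxP q κ σ j d) {a₁ a₂ a₃ η : ℝ}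
    (h₁ : 0 < a₁) (h₂ : 0 < a₂) (h₃ : 0 < a₃) (hη : 0 < η) (hη' : η ≤ 1 / 100) : ∃ C : ℝ, 0 < C ∧
    ∀ (D : Dat) (M₁ M₂ Λ : ℝ) (c : ℂ), D.OK q κ σ j → H1 d D → Cen D M₁ M₂ Λ c →
      Child η 8 C D.Z (D.U / D.Y ^ 6)
        (C * D.Z ^ ((4 * j + 11) * η) * (1 + D.S) ^ C *
          (D.Y ^ 7 * D.U / D.X + D.U ^ (1 / 6 : ℝ) / (D.Y * Λ)))
        (coef D a₁ a₂ a₃ M₁ M₂ c) := by
  classical
  obtain ⟨C₁, hC₁, b₁⟩ := coef_all (σ := σ) hq hκ j h₁ h₂ h₃ hη hη'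
  obtain ⟨C₂, hC₂, b₂⟩ := coef_exc (σ := σ) hq hκ j h₁ h₂ h₃ hη hη'
  obtain ⟨C₃, hC₃, b₃⟩ := hM a₁ a₂ a₃ η h₁ h₂ h₃ hη
  obtain ⟨C₄, hC₄, b₄⟩ := card_exc_le hq.1 hη
  set C := 2 * C₁ * C₃ + C₂ * C₄ + C₂ + C₃ with hC
  have p1 : 0 < 2 * C₁ * C₃ := by positivity
  have p2 : 0 < C₂ * C₄ := by positivity
  refine ⟨C, by positivity, fun D M₁ M₂ Λ c hD hH hc ρ τ hρ => ?_⟩
  have hW : D.W ≤ D.U := hH.2.2
  choose D₁ D₂ q1 q2 n1 n2 hb using fun u => b₁ D M₁ M₂ Λ c ρ τ u hD hW hc hρ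
  obtain ⟨hD', hW', -⟩ := hc.ok hD
  have hH' : H1 d ({ D with N₁ := M₁, N₂ := M₂ } : Dat) := ⟨hH.1, hH.2.1, hW'⟩
  obtain ⟨o1, o2⟩ := chD_ok hq hκ hD hH a₁ a₂ a₃ τ hη' hρ
  obtain ⟨o3, o4⟩ := chD_ok hq hκ hD' hH' a₁ a₂ a₃ τ hη' hρ
  have hZ := hD.hZ
  have hZ0 : 0 < D.Z := by linarith
  have hY := hD.hY
  have hY0 : 0 < D.Y := by linarith
  have hU := hD.hU
  have hS := hD.S_nonneg
  have hΛ := hc.posΛ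
  have hX := hD.X_pos
  have hV1 : 1 ≤ D.U / D.Y ^ 6 := o1.hU
  have hVZ : D.U / D.Y ^ 6 ≤ D.Z := o1.hUZ
  set V := D.U / D.Y ^ 6 with hV
  let F : O → ℝ := fun u =>
    nS (fun n => D.ψ₁ n * ρ n) a₁ (D.N₁ * Real.exp (a₁ ^ 2 * (2 * η - 1)) / nm (D₁ u)) (D.t₁ + τ) u *
      nS (fun n => D.ψ₂ n * ρ n) a₂ (D.N₂ * Real.exp (a₂ ^ 2 * (2 * η - 1)) / nm (D₂ u)) (D.t₂ + τ) u
  let G : O → ℝ := fun u =>
    nS (fun n => D.ψ₁ n * ρ n) a₁ (M₁ * Real.exp (a₁ ^ 2 * (2 * η - 1)) / nm (D₁ u)) (D.t₁ + τ) u *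
      nS (fun n => D.ψ₂ n * ρ n) a₂ (M₂ * Real.exp (a₂ ^ 2 * (2 * η - 1)) / nm (D₂ u)) (D.t₂ + τ) u
  let π : O → ℝ := fun u => ((D.L.map (Slot.sh a₃ ρ (wt η τ))).map fun x => 1 + nP a₃ u x).prod
  refine ⟨fun u => if Exc q u then C₂ * D.Z ^ ((4 * j + 10) * η) * (1 + D.S + |τ|) ^ C₂ / Λ else
    C₁ * D.Z ^ ((4 * j + 10) * η) / D.X * (F u + G u) * π u, fun u hu R hR hRZ => ?_, ?_⟩
  · obtain ⟨hu0, hu1⟩ := mem_rows.1 hu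
    beta_reduce
    split_ifs with he
    · exact b₂ D M₁ M₂ Λ c ρ τ u R hD hW hc hρ hu0 he (hu1.trans hVZ) hR hRZ
    · exact hb u R hR hRZ
  rw [Finset.sum_ite, Finset.sum_const, nsmul_eq_mul]
  have hA : Rw q V ((rows V).filter fun u => ¬ Exc q u) := fun u hu => by
    obtain ⟨h1, h2⟩ := Finset.mem_filter.1 hu
    exact ⟨(mem_rows.1 h1).1, h2, (mem_rows.1 h1).2⟩
  have m1 : ∑ u ∈ (rows V).filter fun u => ¬ Exc q u, F u * π u ≤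
      C₃ * D.Z ^ η * D.Y ^ 13 * (1 + (D.S + |τ|)) ^ C₃ * V :=
    b₃ (chD D a₁ a₂ a₃ η τ ρ) _ (fun u => D.N₁ * Real.exp (a₁ ^ 2 * (2 * η - 1)) / nm (D₁ u))
      (fun u => D.N₂ * Real.exp (a₂ ^ 2 * (2 * η - 1)) / nm (D₂ u)) o1 o2 hA fun u _ =>
      ⟨(ch_range o1.pos₁ (q1 u) (n1 u)).1, (ch_range o1.pos₁ (q1 u) (n1 u)).2,
        (ch_range o1.pos₂ (q2 u) (n2 u)).1, (ch_range o1.pos₂ (q2 u) (n2 u)).2⟩
  have m2 : ∑ u ∈ (rows V).filter fun u => ¬ Exc q u, G u * π u ≤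
      C₃ * D.Z ^ η * D.Y ^ 13 * (1 + (D.S + |τ|)) ^ C₃ * V :=
    b₃ (chD { D with N₁ := M₁, N₂ := M₂ } a₁ a₂ a₃ η τ ρ) _
      (fun u => M₁ * Real.exp (a₁ ^ 2 * (2 * η - 1)) / nm (D₁ u))
      (fun u => M₂ * Real.exp (a₂ ^ 2 * (2 * η - 1)) / nm (D₂ u)) o3 o4 hA fun u _ =>
      ⟨(ch_range o3.pos₁ (q1 u) (n1 u)).1, (ch_range o3.pos₁ (q1 u) (n1 u)).2,
        (ch_range o3.pos₂ (q2 u) (n2 u)).1, (ch_range o3.pos₂ (q2 u) (n2 u)).2⟩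
  have m3 : (((rows V).filter fun u => Exc q u).card : ℝ) ≤
      C₄ * (D.U ^ (1 / 6 : ℝ) / D.Y * D.Z ^ η) := by
    refine (b₄ 1 V _ one_ne_zero hV1 fun h hh => ?_).trans ?_
    · obtain ⟨h1, h2⟩ := Finset.mem_filter.1 hh
      exact ⟨(mem_rows.1 h1).1, by rwa [mul_one], (mem_rows.1 h1).2⟩
    · rw [Real.rpow_add (by linarith)]
      have e : V ^ (1 / 6 : ℝ) = D.U ^ (1 / 6 : ℝ) / D.Y := by
        rw [hV, Real.div_rpow (by linarith) (by positivity), ← Real.rpow_natCast,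
          ← Real.rpow_mul hY0.le]
        norm_num
      rw [e]
      gcongr
  have e1 : ∑ u ∈ (rows V).filter fun u => ¬ Exc q u,
      C₁ * D.Z ^ ((4 * j + 10) * η) / D.X * (F u + G u) * π u =
      C₁ * D.Z ^ ((4 * j + 10) * η) / D.X *
        (∑ u ∈ (rows V).filter fun u => ¬ Exc q u, F u * π u +
          ∑ u ∈ (rows V).filter fun u => ¬ Exc q u, G u * π u) := by
    rw [← Finset.sum_add_distrib, Finset.mul_sum]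
    exact Finset.sum_congr rfl fun u _ => by ring
  rw [e1]
  have hτ := abs_nonneg τ
  have hT : ∀ C' : ℝ, C' ≤ C → (1 + D.S + |τ|) ^ C' ≤ (1 + D.S) ^ C * (1 + |τ|) ^ C := by
    intro C' hC'
    rw [← Real.mul_rpow (by positivity) (by positivity)]
    refine (Real.rpow_le_rpow_of_exponent_le (by linarith) hC').trans ?_
    refine Real.rpow_le_rpow (by positivity) ?_ (by positivity)
    nlinarith [mul_nonneg hS hτ]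
  have t2 := hT C₂ (by rw [hC]; linarith)
  have t3 := hT C₃ (by rw [hC]; linarith)
  rw [add_assoc] at t3
  have hE : D.Z ^ ((4 * j + 11) * η) = D.Z ^ ((4 * j + 10) * η) * D.Z ^ η := by
    rw [← Real.rpow_add hZ0]
    congr 1
    ring
  rw [hE]
  set T := (1 + D.S) ^ C * (1 + |τ|) ^ C with hTd
  have hT0 : 0 ≤ T := by positivity
  have hU6 : 0 ≤ D.U ^ (1 / 6 : ℝ) := by positivity
  calc _ ≤ C₄ * (D.U ^ (1 / 6 : ℝ) / D.Y * D.Z ^ η) * (C₂ * D.Z ^ ((4 * j + 10) * η) * T / Λ) +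
        C₁ * D.Z ^ ((4 * j + 10) * η) / D.X *
          (C₃ * D.Z ^ η * D.Y ^ 13 * T * V + C₃ * D.Z ^ η * D.Y ^ 13 * T * V) := by
        gcongr
        · exact m1.trans (by gcongr)
        · exact m2.trans (by gcongr)
    _ = (D.Z ^ ((4 * j + 10) * η) * D.Z ^ η) * T *
          ((2 * C₁ * C₃) * (D.Y ^ 7 * D.U / D.X) + (C₂ * C₄) * (D.U ^ (1 / 6 : ℝ) / (D.Y * Λ))) := by
        rw [hV]
        field_simp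
        ring
    _ ≤ (D.Z ^ ((4 * j + 10) * η) * D.Z ^ η) * T *
          (C * (D.Y ^ 7 * D.U / D.X) + C * (D.U ^ (1 / 6 : ℝ) / (D.Y * Λ))) := by
        gcongr <;> (rw [hC]; linarith)
    _ = _ := by
        rw [hTd]
        ring


end Crest.Agent.R17.M2
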