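import Crest.Agent.R17.M2.Basic

/-! Row 17, block M2 (owner helper24): decay, parity and majorants of convolutions. -/

set_option autoImplicit false

namespace Crest.Agent.R17.M2

open scoped ComplexConjugate
open Complex

variable {f g : O → ℂ} {q : O} {κ σ : ℝ}

/-- `summable_Pr_anti` with `F a b = f a * N a ^ σ * (g b * N b ^ σ)` (`summable_mul_of_summable_norm`) -/
theorem Dec.cv (hf : Dec f) (hg : Dec g) : Dec (cv f g) := by
  intro σ
  have hn : ∀ (h : O → ℂ) (n : O), ‖h n * ((nm n ^ σ : ℝ) : ℂ)‖ = ‖h n‖ * nm n ^ σ := fun h n => by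
    rw [norm_mul, norm_real, Real.norm_of_nonneg (Real.rpow_nonneg (nm_nonneg n) σ)]
  have h1 : Summable fun n : Pr => ‖f n * ((nm n ^ σ : ℝ) : ℂ)‖ := by simpa only [hn] using hf σ
  have h2 : Summable fun n : Pr => ‖g n * ((nm n ^ σ : ℝ) : ℂ)‖ := by simpa only [hn] using hg σ
  have h12 : Summable fun p : Pr × Pr =>
      f p.1 * ((nm p.1 ^ σ : ℝ) : ℂ) * (g p.2 * ((nm p.2 ^ σ : ℝ) : ℂ)) :=
    summable_mul_of_summable_norm (f := fun n : Pr => f n * ((nm n ^ σ : ℝ) : ℂ))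
      (g := fun n : Pr => g n * ((nm n ^ σ : ℝ) : ℂ)) h1 h2
  have h3 := summable_Pr_anti
    (F := fun a b => f a * ((nm a ^ σ : ℝ) : ℂ) * (g b * ((nm b ^ σ : ℝ) : ℂ))) h12
  refine Summable.of_nonneg_of_le
    (fun n => mul_nonneg (norm_nonneg _) (Real.rpow_nonneg (nm_nonneg _) σ)) (fun n => ?_) h3
  have h4 : ‖M2.cv f g n‖ ≤ ∑ p ∈ anti n, ‖f p.1 * g p.2‖ := norm_sum_le _ _
  refine (mul_le_mul_of_nonneg_right h4 (Real.rpow_nonneg (nm_nonneg _) σ)).trans ?_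
  rw [Finset.sum_mul]
  refine Finset.sum_le_sum fun p hp => le_of_eq ?_
  rw [norm_mul (f p.1 * _), hn, hn, ← (mem_anti.1 hp).2.2, nm_mul,
    Real.mul_rpow (nm_nonneg _) (nm_nonneg _), norm_mul]
  ring

theorem dec_cvL {ws : List (O → ℂ)} (h : ∀ w ∈ ws, Dec w) : Dec (cvL ws) := by
  induction ws with
  | nil =>
    intro σ
    refine summable_of_ne_finset_zero (s := {(1 : Pr)}) fun n hn => ?_
    have : (n : O) ≠ 1 := fun e => hn (Finset.mem_singleton.2 (Subtype.ext e))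
    simp [cvL, this]
  | cons w ws ih =>
    exact (h w (by simp)).cv (ih fun v hv => h v (by simp [hv]))

theorem Od.cv (hf : Od f) (hg : Od g) : Od (cv f g) := by
  intro n _ h
  obtain ⟨p, hp, h0⟩ := Finset.exists_ne_zero_of_sum_ne_zero h
  obtain ⟨h1, h2, h3⟩ := mem_anti.1 hp
  rw [← h3]
  exact (hf _ h1 (left_ne_zero_of_mul h0)).mul_left (hg _ h2 (right_ne_zero_of_mul h0))

theorem od_cvL {ws : List (O → ℂ)} (h : ∀ w ∈ ws, Od w) : Od (cvL ws) := by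
  induction ws with
  | nil =>
    intro n _ hn
    have : n = 1 := by
      by_contra e
      exact hn (by simp [cvL, e])
    rw [this]
    exact isCoprime_one_left
  | cons w ws ih =>
    exact (h w (by simp)).cv (ih fun v hv => h v (by simp [hv]))

theorem cva_titu {a b : ℝ} (ha : 0 < a) (hb : 0 < b) (x y : ℝ) :
    (x + y) ^ 2 / (2 * (a + b) ^ 2) ≤ x ^ 2 / (2 * a ^ 2) + y ^ 2 / (2 * b ^ 2) := by
  have h1 : (x + y) ^ 2 / (2 * (a + b) ^ 2) ≤ (x + y) ^ 2 / (2 * (a ^ 2 + b ^ 2)) := by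
    gcongr
    nlinarith [mul_pos ha hb]
  refine h1.trans ?_
  rw [div_add_div _ _ (by positivity) (by positivity), div_le_div_iff₀ (by positivity) (by positivity)]
  nlinarith [sq_nonneg (x * b ^ 2 - y * a ^ 2)]

/-- With `y₁ = log (n₁/X)`, `y₂ = log (n₂/X')`, `y = y₁ + y₂`:
`y₁²/a² + y₂²/b² ≥ y²/(a+b)²` (Cauchy-Schwarz, `a² + b² ≤ (a+b)²`); `card_anti`, `card_pdiv_le`;
`N(n)^η = (X X')^η e^(η y)` and `η y - y²/(2c²) ≤ C - y²/(8c²)`, `c = a + b`. -/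
theorem maj_cv {a b η : ℝ} (ha : 0 < a) (hb : 0 < b) (hη : 0 < η) : ∃ C : ℝ, 0 < C ∧
    ∀ (f g : O → ℂ) (X X' B B' Z : ℝ), 0 < X → 0 < X' → 0 ≤ B → 0 ≤ B' → X * X' ≤ Z →
      Maj a X B f → Maj b X' B' g → Maj (2 * (a + b)) (X * X') (C * Z ^ η * (B * B')) (cv f g) := by
  obtain ⟨C, hC, hcard⟩ := card_pdiv_le hη
  refine ⟨C * Real.exp (η ^ 2 * (a + b) ^ 2), by positivity,
    fun f g X X' B B' Z hX hX' hB hB' hZ hf hg n hn => ?_⟩
  have hn0 := nm_pos hn.ne_zero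
  set y := Real.log (nm n / (X * X')) with hy
  have h1 : ‖cv f g n‖ ≤ (anti n).card • (B * B' * Real.exp (-(y ^ 2 / (2 * (a + b) ^ 2)))) := by
    refine (norm_sum_le _ _).trans (Finset.sum_le_card_nsmul _ _ _ fun p hp => ?_)
    obtain ⟨p1, p2, p3⟩ := mem_anti.1 hp
    have q1 := nm_pos p1.ne_zero
    have q2 := nm_pos p2.ne_zero
    have e : y = Real.log (nm p.1 / X) + Real.log (nm p.2 / X') := by
      rw [hy, ← p3, nm_mul, ← Real.log_mul (by positivity) (by positivity)]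
      congr 1
      field_simp
    have k1 := hf _ p1
    have k2 := hg _ p2
    rw [norm_LN] at k1 k2
    rw [norm_mul]
    refine (mul_le_mul k1 k2 (norm_nonneg _) (by positivity)).trans ?_
    rw [mul_mul_mul_comm, ← Real.exp_add]
    refine mul_le_mul_of_nonneg_left (Real.exp_le_exp.2 ?_) (by positivity)
    have := cva_titu ha hb (Real.log (nm p.1 / X)) (Real.log (nm p.2 / X'))
    rw [← e] at this
    linarith
  have h2 : nm n ^ η ≤ Z ^ η * Real.exp (η * y) := by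
    have e : nm n = X * X' * Real.exp y := by
      rw [hy, Real.exp_log (by positivity)]
      field_simp
    rw [e, Real.mul_rpow (by positivity) (by positivity), ← Real.exp_mul, mul_comm y η]
    gcongr
  have h3 : Real.exp (η * y) * Real.exp (-(y ^ 2 / (2 * (a + b) ^ 2))) ≤
      Real.exp (η ^ 2 * (a + b) ^ 2) * Real.exp (-(y ^ 2 / (2 * (2 * (a + b)) ^ 2))) := by
    rw [← Real.exp_add, ← Real.exp_add, Real.exp_le_exp]
    set c := a + b
    have hc : 0 < c := by positivity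
    have e1 : y ^ 2 / (2 * c ^ 2) = 4 * (y / c) ^ 2 / 8 := by field_simp; ring
    have e2 : y ^ 2 / (2 * (2 * c) ^ 2) = (y / c) ^ 2 / 8 := by field_simp; ring
    have e3 : η * y = η * c * (y / c) := by field_simp
    rw [e1, e2, e3]
    nlinarith [sq_nonneg (η * c - y / c / 2), sq_nonneg (y / c)]
  have hZ0 : 0 < Z := lt_of_lt_of_le (by positivity) hZ
  rw [nsmul_eq_mul, card_anti hn] at h1
  rw [norm_LN]
  calc ‖cv f g n‖ ≤ C * (Z ^ η * Real.exp (η * y)) *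
        (B * B' * Real.exp (-(y ^ 2 / (2 * (a + b) ^ 2)))) := by
        refine h1.trans (mul_le_mul_of_nonneg_right ((hcard n hn.ne_zero).trans ?_) (by positivity))
        gcongr
    _ = C * Z ^ η * (B * B') * (Real.exp (η * y) * Real.exp (-(y ^ 2 / (2 * (a + b) ^ 2)))) := by ring
    _ ≤ C * Z ^ η * (B * B') * (Real.exp (η ^ 2 * (a + b) ^ 2) *
        Real.exp (-(y ^ 2 / (2 * (2 * (a + b)) ^ 2)))) := by gcongr
    _ = _ := by ring

theorem cvb_nil (a b : ℝ) {B : ℝ} (hB : 1 ≤ B) : Maj b (QL []) B (sl a []) := by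
  intro n _
  by_cases h : n = 1
  · subst h
    simpa [sl, cvL, QL, norm_LN] using hB
  · simp only [sl, cvL, List.map_nil, if_neg h, norm_zero]
    positivity

theorem cvb_QL {L : List Slot} {Z : ℝ} (hZ : 0 ≤ Z) (h : ∀ x ∈ L, 0 < x.P ∧ x.P ≤ Z) :
    QL L ≤ Z ^ L.length := by
  induction L with
  | nil => simp [QL]
  | cons y L ih =>
    have h1 := ih fun x hx => h x (List.mem_cons_of_mem _ hx)
    have h2 := QL_pos fun x hx => (h x (List.mem_cons_of_mem _ hx)).1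
    rw [List.length_cons, pow_succ']
    exact mul_le_mul (h y List.mem_cons_self).2 h1 h2.le hZ

/-- induction on `j` (for all `η`): `η/2` for the tail, `η/(2(j+1))` and `Z^(j+1)` in `maj_cv`;
`Maj.widen`, `Maj.mono` for shorter lists -/
theorem maj_sl {a : ℝ} (ha : 0 < a) (j : ℕ) {η : ℝ} (hη : 0 < η) : ∃ b C : ℝ, 0 < b ∧ 0 < C ∧
    ∀ (L : List Slot) (Z : ℝ), 1 ≤ Z → L.length ≤ j →
      (∀ x ∈ L, (∀ n, ‖x.ψ n‖ ≤ 1) ∧ 0 < x.P ∧ x.P ≤ Z) → Maj b (QL L) (C * Z ^ η) (sl a L) := by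
  induction j generalizing η with
  | zero =>
    refine ⟨1, 1, one_pos, one_pos, fun L Z hZ hL _ => ?_⟩
    obtain rfl := List.length_eq_zero_iff.1 (Nat.le_zero.1 hL)
    exact cvb_nil a 1 (by simpa using Real.one_le_rpow hZ hη.le)
  | succ j ih =>
    obtain ⟨b, C, hb, hC, H⟩ := ih (η := η / 2) (by positivity)
    obtain ⟨C', hC', H'⟩ := maj_cv ha hb (η := η / (2 * (j + 1 : ℕ))) (by positivity)
    refine ⟨2 * (a + b), C' * C + 1, by positivity, by positivity, fun L Z hZ hL h => ?_⟩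
    have hZ0 : 0 < Z := by linarith
    have hZη : 1 ≤ Z ^ η := Real.one_le_rpow hZ hη.le
    cases L with
    | nil =>
      refine cvb_nil a _ (one_le_mul_of_one_le_of_one_le ?_ hZη)
      have := mul_pos hC' hC
      linarith
    | cons x L =>
      have hx := h x List.mem_cons_self
      have hL' : ∀ y ∈ L, (∀ n, ‖y.ψ n‖ ≤ 1) ∧ 0 < y.P ∧ y.P ≤ Z :=
        fun y hy => h y (List.mem_cons_of_mem _ hy)
      have h1 := H L Z hZ (by simpa using hL) hL'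
      have hQ : x.P * QL L ≤ Z ^ (j + 1) :=
        (cvb_QL hZ0.le fun y hy => (h y hy).2).trans (pow_le_pow_right₀ hZ hL)
      have h2 := H' _ _ _ _ _ _ _ hx.2.1 (QL_pos fun y hy => (hL' y hy).2.1) zero_le_one
        (by positivity) hQ (maj_wQ hx.1 a) h1
      refine Maj.mono h2 ?_
      have e : (Z ^ (j + 1)) ^ (η / (2 * (j + 1 : ℕ))) * Z ^ (η / 2) = Z ^ η := by
        rw [← Real.rpow_natCast, ← Real.rpow_mul hZ0.le, ← Real.rpow_add hZ0]
        congr 1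
        field_simp
        ring
      calc _ = C' * C * ((Z ^ (j + 1)) ^ (η / (2 * (j + 1 : ℕ))) * Z ^ (η / 2)) := by ring
        _ ≤ _ := by
          rw [e]
          exact mul_le_mul_of_nonneg_right (by linarith) (by positivity)

theorem dec_sl {a : ℝ} (ha : 0 < a) {L : List Slot}
    (h : ∀ x ∈ L, (∀ n, ‖x.ψ n‖ ≤ 1) ∧ 0 < x.P) : Dec (sl a L) := by
  refine dec_cvL fun w hw => ?_
  obtain ⟨x, hx, rfl⟩ := List.mem_map.1 hw
  exact (maj_wQ (h x hx).1 a).dec ha (h x hx).2 zero_le_one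

/-- `maj_sl`, `maj_cv` twice (`N₂ QL ≤ W ≤ Z`, `X ≤ W ≤ Z`), for `D` and for the comparison data
(`Cen.ok`), `Maj.sub` -/
theorem maj_coef (hq : Lev q) (hκ : 3 / 4 ≤ κ) (j : ℕ) {a₁ a₂ a₃ η : ℝ} (h₁ : 0 < a₁) (h₂ : 0 < a₂)
    (h₃ : 0 < a₃) (hη : 0 < η) : ∃ b C : ℝ, 0 < b ∧ 0 < C ∧
    ∀ (D : Dat) (M₁ M₂ Λ : ℝ) (c : ℂ), D.OK q κ σ j → D.W ≤ D.U → Cen D M₁ M₂ Λ c →
      Maj b D.X (C * D.Z ^ η) (coef D a₁ a₂ a₃ M₁ M₂ c) ∧ Od (coef D a₁ a₂ a₃ M₁ M₂ c) := by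
  have hη3 : 0 < η / 3 := by positivity
  obtain ⟨b, C, hb, hC, H⟩ := maj_sl h₃ j hη3
  obtain ⟨C₂, hC₂, H₂⟩ := maj_cv h₂ hb hη3
  obtain ⟨C₁, hC₁, H₁⟩ := maj_cv h₁ (b := 2 * (a₂ + b)) (by positivity) hη3
  have key : ∀ D : Dat, D.OK q κ σ j → D.W ≤ D.U →
      Maj (2 * (a₁ + 2 * (a₂ + b))) D.X (C₁ * C₂ * C * D.Z ^ η)
        (cv (wP D.ψ₁ a₁ D.N₁ D.t₁) (cv (wP D.ψ₂ a₂ D.N₂ D.t₂) (sl a₃ D.L))) := fun D hD hW => by
    have hWZ : D.W ≤ D.Z := hW.trans hD.hUZ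
    have hZ0 : 0 < D.Z := lt_of_lt_of_le one_pos hD.hZ
    have hQ : 0 < QL D.L := QL_pos fun x hx => (hD.slot x hx).pos
    have h1 := H D.L D.Z hD.hZ hD.len fun x hx =>
      ⟨(hD.slot x hx).tw.norm_le hq.1, (hD.slot x hx).pos, (hD.P_le_W hκ hx).trans hWZ⟩
    have hN : D.N₂ * QL D.L ≤ D.Z := by
      refine le_trans ?_ hWZ
      have a1 := (QL_le hD.slot hκ hD.hY).trans
        (pow_le_pow_right₀ hD.hY (by omega : 2 * D.L.length ≤ 6 * D.L.length))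
      have a2 : D.N₂ ≤ max D.N₁ 1 * max D.N₂ 1 :=
        (le_max_left _ 1).trans (le_mul_of_one_le_left (by positivity) (le_max_right _ _))
      exact mul_le_mul a2 a1 hQ.le (by positivity)
    have h2 := H₂ _ _ _ _ _ _ _ hD.pos₂ hQ zero_le_one (by positivity) hN
      (maj_wP (hD.tw₂.norm_le hq.1) a₂ D.N₂ D.t₂) h1
    have hX : D.N₁ * (D.N₂ * QL D.L) = D.X := by rw [Dat.X, mul_assoc]
    have h3 := H₁ _ _ _ _ _ _ D.Z hD.pos₁ (mul_pos hD.pos₂ hQ) zero_le_one (by positivity)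
      (hX ▸ (hD.X_le_W hκ).trans hWZ) (maj_wP (hD.tw₁.norm_le hq.1) a₁ D.N₁ D.t₁) h2
    rw [hX] at h3
    refine h3.mono (le_of_eq ?_)
    have e : D.Z ^ η = D.Z ^ (η / 3) * D.Z ^ (η / 3) * D.Z ^ (η / 3) := by
      rw [← Real.rpow_add hZ0, ← Real.rpow_add hZ0]
      congr 1
      ring
    rw [e]
    ring
  refine ⟨2 * (a₁ + 2 * (a₂ + b)), 2 * (C₁ * C₂ * C), by positivity, by positivity,
    fun D M₁ M₂ Λ c hD hW hc => ⟨?_, fun n hn h => ?_⟩⟩
  · obtain ⟨k1, k2, k3⟩ := hc.ok hD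
    have h1 := key _ k1 k2
    rw [k3] at h1
    rw [mul_assoc 2]
    exact (key D hD hW).sub h1 hc.norm_le
  · have hs : Od (sl a₃ D.L) := od_cvL fun w hw => by
      obtain ⟨x, hx, rfl⟩ := List.mem_map.1 hw
      exact od_wQ hq (hD.slot x hx).tw a₃
    by_contra hco
    refine h ?_
    have a1 : ∀ N₁ N₂ : ℝ, cv (wP D.ψ₁ a₁ N₁ D.t₁) (cv (wP D.ψ₂ a₂ N₂ D.t₂) (sl a₃ D.L)) n = 0 :=
      fun N₁ N₂ => by_contra fun h0 =>
        hco (((od_wP hq hD.tw₁ a₁ N₁ D.t₁).cv ((od_wP hq hD.tw₂ a₂ N₂ D.t₂).cv hs)) n hn h0)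
    rw [coef, a1, a1, mul_zero, sub_zero]


end Crest.Agent.R17.M2
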