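import Crest.Agent.R17.M2.Basic

/-! Row 17, block M2 (owner helper24): reduction to squarefree columns, `n = m r²`. -/

set_option autoImplicit false

namespace Crest.Agent.R17.M2

open scoped ComplexConjugate
open Complex

/-- `tsum_powFree` with `k = 2` (`powFree_two`), `sx_mul_right`, `sx_pow_right` -/
theorem Sp_eq_tsum_sq {f : O → ℂ} (hf : Dec f) (k : O) :
    Sp false f k = ∑' r : Pr, sx k r ^ 2 * Sp false (sq r f) k := by
  have hs : Summable fun n : Pr => f n * sx k n := by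
    refine Summable.of_norm_bounded (hf 0) fun n => ?_
    rw [Real.rpow_zero, norm_mul]
    exact mul_le_mul_of_nonneg_left (norm_sx_le _ _) (norm_nonneg _)
  simp only [Sp, sj_false]
  rw [tsum_powFree (k := 2) (F := fun n => f n * sx k n) two_pos hs]
  refine tsum_congr fun r => ?_
  rw [← tsum_mul_left]
  refine tsum_congr fun m => ?_
  unfold sq
  by_cases hm : Squarefree (m : O)
  · rw [if_pos ((powFree_two (Prim.ne_zero m.2)).2 hm), if_pos hm, sx_mul_right, sx_pow_right]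
    ring
  · rw [if_neg fun h => hm ((powFree_two (Prim.ne_zero m.2)).1 h), if_neg hm, zero_mul, mul_zero]

open Classical in
theorem sq1_split {a : ℝ} (ha : 0 < a) : ∃ C : ℝ, 0 < C ∧
    ∀ (f : O → ℂ) (X B Z : ℝ) (k : O), 0 < Z → 0 < X → 0 ≤ B → Maj a X B f →
      ‖Sp false f k‖ ≤ ∑ r ∈ (ball Z).filter Prim, ‖Sp false (sq r f) k‖ + C * B * X / Z := by
  obtain ⟨C₁, hC₁, h₁⟩ := norm_Tq_le ha 0
  obtain ⟨C₂, hC₂, h₂⟩ := sum_nm_rpow_tail (σ := 2) one_lt_two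
  refine ⟨C₁ * C₂, by positivity, fun f X B Z k hZ hX hB hf => ?_⟩
  have hb : ∀ r, Prim r → ‖Sp false (sq r f) k‖ ≤ C₁ * B * X * nm r ^ (-(2 : ℝ)) := fun r hr => by
    have hr0 := nm_pos hr.ne_zero
    have := h₁ (sq r f) _ _ B 1 (by positivity) hB (hf.sq hB hr) (mu_sx k) prim_one
    rw [← Sp_eq_Tq, nm_one, div_one, zero_add, Real.rpow_one] at this
    rw [Real.rpow_neg hr0.le, Real.rpow_two, mul_assoc, ← div_eq_mul_inv]
    exact this
  have key : ∀ T : Finset Pr, ∑ r ∈ T, ‖sx k r ^ 2 * Sp false (sq r f) k‖ ≤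
      ∑ r ∈ (ball Z).filter Prim, ‖Sp false (sq r f) k‖ + C₁ * C₂ * B * X / Z := fun T => by
    have e1 : ∑ r ∈ T, ‖sx k r ^ 2 * Sp false (sq r f) k‖ ≤
        ∑ r ∈ T.map (Function.Embedding.subtype _), ‖Sp false (sq r f) k‖ := by
      rw [Finset.sum_map]
      refine Finset.sum_le_sum fun r _ => ?_
      rw [norm_mul, norm_pow]
      exact mul_le_of_le_one_left (norm_nonneg _) (pow_le_one₀ (norm_nonneg _) (norm_sx_le _ _))
    have hT : ∀ r ∈ T.map (Function.Embedding.subtype _), Prim r := fun r hr => by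
      obtain ⟨r', -, rfl⟩ := Finset.mem_map.1 hr
      exact r'.2
    generalize T.map (Function.Embedding.subtype _) = T' at e1 hT
    refine e1.trans ?_
    rw [← Finset.sum_filter_add_sum_filter_not T' fun r => nm r ≤ Z]
    refine add_le_add (Finset.sum_le_sum_of_subset_of_nonneg (fun r hr => ?_)
      fun _ _ _ => norm_nonneg _) ?_
    · obtain ⟨h1, h2⟩ := Finset.mem_filter.1 hr
      exact Finset.mem_filter.2 ⟨mem_ball.2 h2, hT r h1⟩
    · refine (Finset.sum_le_sum fun r hr => hb r (hT r (Finset.mem_filter.1 hr).1)).trans ?_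
      rw [← Finset.mul_sum]
      refine (mul_le_mul_of_nonneg_left (h₂ Z _ hZ fun r hr =>
        (not_le.1 (Finset.mem_filter.1 hr).2).le) (by positivity)).trans (le_of_eq ?_)
      rw [show (1 : ℝ) - 2 = -1 by norm_num, Real.rpow_neg_one]
      ring
  rw [Sp_eq_tsum_sq (hf.dec ha hX hB)]
  exact (norm_tsum_le_tsum_norm (summable_of_sum_le (fun _ => norm_nonneg _) key)).trans
    (Real.tsum_le_of_sum_le (fun _ => norm_nonneg _) key)

/-- Split the sum over `r` at `N r ≤ Z`.  Tail: `‖Sp false (sq r f) k‖ ≤ C B X / N(r)²` (`Maj.sq`,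
`maj_sum` with `σ = 0`, `R = 1`), `sum_nm_rpow_tail` with `σ = 2`, so the tail is `≤ C B X / Z` and its
square times `#A ≤ 11 U` is `≤ C B² U X`.  Finite part: Cauchy-Schwarz with weights `1 / N r`, `N r`;
`AdmP.sum_le_En` (`admP_sq`), `sum_inv_nm_le` twice, `one_add_log_rpow_le`. -/
theorem sum_le_sq {a η : ℝ} (ha : 0 < a) (hη : 0 < η) : ∃ C : ℝ, 0 < C ∧
    ∀ (f : O → ℂ) (X B Z U E : ℝ) (A : Finset O), 1 ≤ U → U ≤ Z → 0 < X → X ≤ Z → 0 ≤ B → 0 ≤ E →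
      Maj a X B f → Od f → (∀ k ∈ A, nm k ≤ U) →
      (∀ r, Prim r → nm r ≤ Z → En false (sq r f) U ≤ E / nm r ^ 2) →
      ∑ k ∈ A, ‖Sp false f k‖ ^ 2 ≤ C * Z ^ η * (E + B ^ 2 * U * X) := by
  classical
  obtain ⟨C₁, hC₁, h₁⟩ := sq1_split ha
  obtain ⟨C₂, hC₂, h₂⟩ := one_add_log_rpow_le 2 hη
  refine ⟨2 * 44 ^ 2 * 55 * C₂ + 22 * C₁ ^ 2, by positivity,
    fun f X B Z U E A hU hUZ hX hXZ hB hE hf ho hA hEn => ?_⟩
  have hZ : 1 ≤ Z := hU.trans hUZ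
  have hZ0 : 0 < Z := by linarith
  have hU0 : 0 < U := by linarith
  set S : Finset O := (ball Z).filter Prim with hS
  have hSp : ∀ r ∈ S, Prim r := fun r hr => (Finset.mem_filter.1 hr).2
  have hSZ : ∀ r ∈ S, nm r ≤ Z := fun r hr => mem_ball.1 (Finset.mem_filter.1 hr).1
  have hS0 : ∀ r ∈ S, 0 < nm r := fun r hr => nm_pos (hSp r hr).ne_zero
  have hL := sum_inv_nm_le hZ hSZ
  have hL0 : 0 ≤ 1 + Real.log Z := by have := Real.log_nonneg hZ; linarith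
  have hZη : 1 ≤ Z ^ η := Real.one_le_rpow hZ hη.le
  have hpt : ∀ k, ‖Sp false f k‖ ^ 2 ≤
      2 * (44 * (1 + Real.log Z)) * ∑ r ∈ S, nm r * ‖Sp false (sq r f) k‖ ^ 2 +
        2 * (C₁ * B * X / Z) ^ 2 := fun k => by
    have e1 := pow_le_pow_left₀ (norm_nonneg _) (h₁ f X B Z k hZ0 hX hB hf) 2
    have e2 : (∑ r ∈ S, ‖Sp false (sq r f) k‖) ^ 2 ≤
        (∑ r ∈ S, (nm r)⁻¹) * ∑ r ∈ S, nm r * ‖Sp false (sq r f) k‖ ^ 2 :=
      Finset.sum_sq_le_sum_mul_sum_of_sq_eq_mul S (fun r hr => inv_nonneg.2 (hS0 r hr).le)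
        (fun r hr => mul_nonneg (hS0 r hr).le (sq_nonneg _))
        fun r hr => (inv_mul_cancel_left₀ (hS0 r hr).ne' _).symm
    have e3 : (∑ r ∈ S, (nm r)⁻¹) * ∑ r ∈ S, nm r * ‖Sp false (sq r f) k‖ ^ 2 ≤
        44 * (1 + Real.log Z) * ∑ r ∈ S, nm r * ‖Sp false (sq r f) k‖ ^ 2 :=
      mul_le_mul_of_nonneg_right hL
        (Finset.sum_nonneg fun r hr => mul_nonneg (hS0 r hr).le (sq_nonneg _))
    nlinarith [sq_nonneg (∑ r ∈ S, ‖Sp false (sq r f) k‖ - C₁ * B * X / Z)]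
  have hfin : ∑ k ∈ A, ∑ r ∈ S, nm r * ‖Sp false (sq r f) k‖ ^ 2 ≤
      55 * E * (44 * (1 + Real.log Z)) := by
    rw [Finset.sum_comm]
    refine le_trans ?_ (mul_le_mul_of_nonneg_left hL (by positivity))
    rw [Finset.mul_sum]
    refine Finset.sum_le_sum fun r hr => ?_
    have h0 := hS0 r hr
    rw [← Finset.mul_sum]
    calc nm r * ∑ k ∈ A, ‖Sp false (sq r f) k‖ ^ 2 ≤ nm r * (55 * (E / nm r ^ 2)) := by
          refine mul_le_mul_of_nonneg_left ?_ h0.le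
          refine ((admP_sq (hf.dec ha hX hB) ho (hSp r hr)).sum_le_En false hU0 A hA).trans ?_
          exact mul_le_mul_of_nonneg_left (hEn r (hSp r hr) (hSZ r hr)) (by norm_num)
      _ = 55 * E * (nm r)⁻¹ := by field_simp
  have hcard : (A.card : ℝ) ≤ 11 * U := by
    refine le_trans ?_ (card_ball_le hU)
    exact_mod_cast Finset.card_le_card fun k hk => mem_ball.2 (hA k hk)
  have hlog : (1 + Real.log Z) ^ 2 ≤ C₂ * Z ^ η := by
    have := h₂ Z hZ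
    rwa [Real.rpow_two] at this
  have htail : (C₁ * B * X / Z) ^ 2 ≤ C₁ ^ 2 * B ^ 2 * X := by
    rw [div_pow, div_le_iff₀ (by positivity)]
    have : X ≤ Z ^ 2 := by nlinarith
    calc (C₁ * B * X) ^ 2 = C₁ ^ 2 * B ^ 2 * X * X := by ring
      _ ≤ _ := by gcongr
  calc ∑ k ∈ A, ‖Sp false f k‖ ^ 2
      ≤ ∑ k ∈ A, (2 * (44 * (1 + Real.log Z)) * ∑ r ∈ S, nm r * ‖Sp false (sq r f) k‖ ^ 2 +
        2 * (C₁ * B * X / Z) ^ 2) := Finset.sum_le_sum fun k _ => hpt k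
    _ = 2 * (44 * (1 + Real.log Z)) * ∑ k ∈ A, ∑ r ∈ S, nm r * ‖Sp false (sq r f) k‖ ^ 2 +
        A.card * (2 * (C₁ * B * X / Z) ^ 2) := by
      rw [Finset.sum_add_distrib, ← Finset.mul_sum, Finset.sum_const, nsmul_eq_mul]
    _ ≤ 2 * (44 * (1 + Real.log Z)) * (55 * E * (44 * (1 + Real.log Z))) +
        11 * U * (2 * (C₁ ^ 2 * B ^ 2 * X)) := by gcongr
    _ = 2 * 44 ^ 2 * 55 * (1 + Real.log Z) ^ 2 * E + 22 * C₁ ^ 2 * 1 * (B ^ 2 * U * X) := by ring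
    _ ≤ 2 * 44 ^ 2 * 55 * (C₂ * Z ^ η) * E + 22 * C₁ ^ 2 * Z ^ η * (B ^ 2 * U * X) := by gcongr
    _ ≤ _ := by
      have p1 : 0 ≤ 22 * C₁ ^ 2 * Z ^ η * E := by positivity
      have p2 : 0 ≤ 2 * 44 ^ 2 * 55 * (C₂ * Z ^ η) * (B ^ 2 * U * X) := by positivity
      nlinarith


end Crest.Agent.R17.M2
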