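import Crest.Agent.R17.M2.Hecke

/-! Row 17, block M2 (owner helper24): removing the squarefree condition from the children. -/

set_option autoImplicit false

namespace Crest.Agent.R17.M2

open scoped ComplexConjugate
open Complex

open Classical in
theorem sq2a_rest {m : O} (hm : Prim m) {Z : ℝ} (hZ : 1 ≤ Z) :
    ‖(if Squarefree m then 1 else 0) -
        ∑ s ∈ (ball Z).filter Prim, (if s ^ 2 ∣ m then mu s else 0)‖ ≤
      if Z ^ 2 < nm m then ((pdiv m).card : ℝ) else 0 := by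
  set S := (ball Z).filter Prim with hS
  have h1 : ∑ s ∈ S, (if s ^ 2 ∣ m then mu s else 0) =
      ∑ s ∈ pdiv m ∩ S, (if s ^ 2 ∣ m then mu s else 0) := by
    refine (Finset.sum_subset Finset.inter_subset_right fun s hs hs' => if_neg fun h => hs' ?_).symm
    exact Finset.mem_inter.2 ⟨(mem_pdiv hm.ne_zero).2
      ⟨(Finset.mem_filter.1 hs).2, (dvd_pow_self s two_ne_zero).trans h⟩, hs⟩
  rw [← sum_mu_sq hm, h1, ← Finset.sum_inter_add_sum_sdiff (pdiv m) S, add_sub_cancel_left]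
  refine (norm_sum_le _ _).trans ?_
  split_ifs with h
  · refine (Finset.sum_le_card_nsmul _ _ 1 fun s _ => ?_).trans ?_
    · split_ifs
      · exact norm_mu_le s
      · simp
    · rw [nsmul_eq_mul, mul_one]
      exact_mod_cast Finset.card_le_card Finset.sdiff_subset
  · refine le_of_eq (Finset.sum_eq_zero fun s hs => ?_)
    obtain ⟨h2, h3⟩ := Finset.mem_sdiff.1 hs
    rw [if_neg, norm_zero]
    intro h4
    refine h3 (Finset.mem_filter.2 ⟨mem_ball.2 ?_, ((mem_pdiv hm.ne_zero).1 h2).1⟩)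
    have h5 := (nm_le_of_dvd h4 hm.ne_zero).trans (not_lt.1 h)
    rw [nm_pow] at h5
    exact (pow_le_pow_iff_left₀ (nm_nonneg s) (by linarith) two_ne_zero).1 h5

open Classical in
/-- For squarefree `D`: `D m` squarefree iff `(D, m) = 1` and `m` squarefree (`squarefree_mul_iff`);
`sum_mu_sq`: `1_{sqfree}(m) = ∑_{s ∈ S, s² ∣ m} mu s + rest`, `S` = primary of norm `≤ Z`,
`‖rest‖ ≤ card (pdiv m)` and `rest = 0` unless `N m > Z²`.  Main part: for `s ∈ S`, substitute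
`m = s² m'` (`tsum_Pr_dvd`), `(D, s² m') = 1 ↔ (D, s) = 1 ∧ (D, m') = 1`, then `Tq_mask` with
`R = r² D s²`.  For non-squarefree `D` the left side is `0`. -/
theorem norm_Tq_sq_le {f θ : O → ℂ} {α : ℝ} (hf : Dec f) (hθ : Mu α θ) {r D : O} (hr : Prim r)
    (hD : Prim D) {Z : ℝ} (hZ : 1 ≤ Z) :
    ‖Tq (sq r f) D θ‖ ≤ ∑ s ∈ (ball Z).filter Prim, ∑ δ ∈ pdiv D,
        (nm s ^ 2 * nm δ) ^ α * ‖Tq f (r ^ 2 * D * s ^ 2 * δ) θ‖ +
      ∑' m : Pr, if Z ^ 2 < nm (m : O) then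
        ((pdiv (m : O)).card : ℝ) * (‖f (r ^ 2 * D * m)‖ * nm (m : O) ^ α) else 0 := by
  have hR : Prim (r ^ 2 * D) := (hr.pow 2).mul hD
  have hw : ∀ m : Pr, 0 ≤ (if Z ^ 2 < nm (m : O) then
      ((pdiv (m : O)).card : ℝ) * (‖f (r ^ 2 * D * m)‖ * nm (m : O) ^ α) else 0) := by
    intro m
    have := nm_nonneg (m : O)
    split_ifs
    · positivity
    · exact le_rfl
  by_cases hsq : Squarefree D
  swap
  · have h0 : Tq (sq r f) D θ = 0 := by
      rw [Tq]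
      refine (tsum_congr fun m => ?_).trans tsum_zero
      rw [sq, if_neg fun h => hsq h.of_mul_left, zero_mul]
    rw [h0, norm_zero]
    refine add_nonneg (Finset.sum_nonneg fun s _ => Finset.sum_nonneg fun δ _ => ?_)
      (tsum_nonneg hw)
    have := nm_nonneg s
    have := nm_nonneg δ
    positivity
  set S := (ball Z).filter Prim with hS
  set g : O → ℂ := fun m => if IsCoprime D m then f (r ^ 2 * D * m) * θ m else 0 with hg
  set ρ : O → ℂ := fun m => (if Squarefree m then 1 else 0) -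
    ∑ s ∈ S, (if s ^ 2 ∣ m then mu s else 0) with hρ
  have hgle : ∀ m : O, ‖g m‖ ≤ ‖f (r ^ 2 * D * m) * θ m‖ := by
    intro m
    simp only [hg]
    split_ifs
    · exact le_rfl
    · rw [norm_zero]; exact norm_nonneg _
  have hsum := hf.summable_Tq hθ hR
  have hs1 : ∀ s ∈ S, Summable fun m : Pr => mu s * (if s ^ 2 ∣ (m : O) then g m else 0) := by
    intro s _
    refine Summable.mul_left _ (Summable.of_norm_bounded hsum fun m => ?_)
    split_ifs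
    · exact hgle m
    · rw [norm_zero]; exact norm_nonneg _
  have hρle : ∀ m : Pr, ‖ρ m * g m‖ ≤ if Z ^ 2 < nm (m : O) then
      ((pdiv (m : O)).card : ℝ) * (‖f (r ^ 2 * D * m)‖ * nm (m : O) ^ α) else 0 := by
    intro m
    have h1 := sq2a_rest (Pr_prim m) hZ
    have h2 : ‖g m‖ ≤ ‖f (r ^ 2 * D * m)‖ * nm (m : O) ^ α := by
      refine (hgle m).trans ?_
      rw [norm_mul]
      exact mul_le_mul_of_nonneg_left (hθ.le m (Pr_prim m)) (norm_nonneg _)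
    refine (norm_mul_le _ _).trans ((mul_le_mul h1 h2 (norm_nonneg _)
      ((norm_nonneg _).trans h1)).trans (le_of_eq ?_))
    split_ifs
    · rfl
    · rw [zero_mul]
  have hsw : Summable fun m : Pr => if Z ^ 2 < nm (m : O) then
      ((pdiv (m : O)).card : ℝ) * (‖f (r ^ 2 * D * m)‖ * nm (m : O) ^ α) else 0 := by
    obtain ⟨C, hC, hcard⟩ := card_pdiv_le one_pos
    refine Summable.of_nonneg_of_le hw (fun m => ?_) ((hf.shift hR (1 + α)).mul_left C)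
    have h0 := nm_prim_pos (Pr_prim m)
    split_ifs
    · rw [Real.rpow_add h0]
      calc _ ≤ C * nm (m : O) ^ (1 : ℝ) * (‖f (r ^ 2 * D * m)‖ * nm (m : O) ^ α) :=
            mul_le_mul_of_nonneg_right (hcard m (Pr_prim m).ne_zero) (by positivity)
        _ = _ := by ring
    · positivity
  have hterm : ∀ m : Pr, sq r f (D * m) * θ m =
      ∑ s ∈ S, mu s * (if s ^ 2 ∣ (m : O) then g m else 0) + ρ m * g m := by
    intro m
    have e1 : ∑ s ∈ S, mu s * (if s ^ 2 ∣ (m : O) then g m else 0) =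
        (∑ s ∈ S, (if s ^ 2 ∣ (m : O) then mu s else 0)) * g m := by
      rw [Finset.sum_mul]
      refine Finset.sum_congr rfl fun s _ => ?_
      split_ifs <;> simp
    rw [e1, ← add_mul, hρ, add_sub_cancel, sq, hg]
    have e2 : D * m * r ^ 2 = r ^ 2 * D * m := by ring
    simp only [squarefree_mul_iff, isRelPrime_iff_isCoprime, hsq, true_and, e2]
    by_cases h1 : IsCoprime D (m : O) <;> by_cases h2 : Squarefree (m : O) <;> simp [h1, h2]
  rw [Tq, tsum_congr hterm, (summable_sum hs1).tsum_add (Summable.of_norm_bounded hsw hρle),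
    Summable.tsum_finsetSum hs1]
  refine (norm_add_le _ _).trans (add_le_add ((norm_sum_le _ _).trans
    (Finset.sum_le_sum fun s hs => ?_)) (tsum_of_norm_bounded hsw.hasSum hρle))
  have hsp : Prim s := (Finset.mem_filter.1 hs).2
  have hs2 : Prim (s ^ 2) := hsp.pow 2
  have hnn : ∀ δ : O, 0 ≤ (nm s ^ 2 * nm δ) ^ α * ‖Tq f (r ^ 2 * D * s ^ 2 * δ) θ‖ := by
    intro δ
    have := nm_nonneg s
    have := nm_nonneg δ
    positivity
  rw [tsum_mul_left, tsum_Pr_dvd hs2 g]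
  by_cases hc : IsCoprime D (s ^ 2)
  · have e : ∀ m : Pr, g (s ^ 2 * m) = θ (s ^ 2) *
        (if IsCoprime D (m : O) then f (r ^ 2 * D * s ^ 2 * m) * θ m else 0) := by
      intro m
      simp only [hg, IsCoprime.mul_right_iff, hc, true_and, hθ.mul _ _ hs2 (Pr_prim m), mul_assoc]
      split_ifs
      · ring
      · rw [mul_zero]
    rw [tsum_congr e, tsum_mul_left, Tq_mask hf hθ (hR.mul hs2) hD, Finset.mul_sum, Finset.mul_sum]
    refine (norm_sum_le _ _).trans (Finset.sum_le_sum fun δ hδ => ?_)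
    have hδp : Prim δ := ((mem_pdiv hD.ne_zero).1 hδ).1
    have h1 := hθ.le _ hs2
    have h2 := hθ.le _ hδp
    have h3 := norm_mu_le s
    have h4 := norm_mu_le δ
    rw [nm_pow] at h1
    have h5 := (norm_nonneg _).trans h1
    rw [Real.mul_rpow (pow_nonneg (nm_nonneg s) 2) (nm_nonneg δ), norm_mul, norm_mul, norm_mul,
      norm_mul]
    calc _ ≤ 1 * ((nm s ^ 2) ^ α * (1 * nm δ ^ α * ‖Tq f (r ^ 2 * D * s ^ 2 * δ) θ‖)) := by
          gcongr
      _ = _ := by ring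
  · have e : ∀ m : Pr, g (s ^ 2 * m) = 0 := fun m => if_neg fun h => hc h.of_mul_right_left
    rw [tsum_congr e, tsum_zero, mul_zero, norm_zero]
    exact Finset.sum_nonneg fun δ _ => hnn δ

open Classical in
theorem sq2b_main {η : ℝ} (hη : 0 < η) (hη' : η ≤ 1 / 100) : ∃ C : ℝ, 0 < C ∧
    ∀ (F : O → ℝ) (Z W : ℝ) (r D : O), 1 ≤ Z → 0 ≤ W → Prim r → nm r ≤ Z → Prim D → nm D ≤ Z ^ 2 →
      (∀ R, 0 ≤ F R) → (∀ R, Prim R → nm R ≤ Z ^ 8 → F R ^ 2 ≤ W * nm R) →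
      ∑ s ∈ (ball Z).filter Prim, ∑ δ ∈ pdiv D,
        (nm s ^ 2 * nm δ) ^ (2 * η - 1) * F (r ^ 2 * D * s ^ 2 * δ) ≤
          C * Z ^ (7 * η) * Real.sqrt (W * nm r ^ 2 * nm D) := by
  obtain ⟨C₁, hC₁, h₁⟩ := one_add_log_rpow_le 1 hη
  obtain ⟨C₂, hC₂, h₂⟩ := card_pdiv_le hη
  refine ⟨44 * C₁ * C₂, by positivity, fun F Z W r D hZ hW hr hrZ hD hDZ hF0 hF => ?_⟩
  have Z0 : 0 < Z := by linarith
  have pr := nm_prim_pos hr
  have pD := nm_prim_pos hD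
  set Q := Real.sqrt (W * nm r ^ 2 * nm D) with hQ
  have Q0 : 0 ≤ Q := Real.sqrt_nonneg _
  have key : ∀ s ∈ (ball Z).filter Prim, ∀ δ ∈ pdiv D,
      (nm s ^ 2 * nm δ) ^ (2 * η - 1) * F (r ^ 2 * D * s ^ 2 * δ) ≤ Z ^ (4 * η) * Q * (nm s)⁻¹ := by
    intro s hs δ hδ
    obtain ⟨hs1, hs⟩ := Finset.mem_filter.1 hs
    rw [mem_ball] at hs1
    obtain ⟨hδ, hδ1⟩ := (mem_pdiv hD.ne_zero).1 hδ
    have ps := nm_prim_pos hs
    have pδ := nm_prim_pos hδ
    have hδ2 : nm δ ≤ Z ^ 2 := (nm_le_of_dvd hδ1 hD.ne_zero).trans hDZ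
    have e : nm (r ^ 2 * D * s ^ 2 * δ) = nm r ^ 2 * nm D * nm s ^ 2 * nm δ := by
      simp only [nm_mul, nm_pow]
    have h3 := hF _ ((((hr.pow 2).mul hD).mul (hs.pow 2)).mul hδ) (by
      rw [e, show Z ^ 8 = Z ^ 2 * Z ^ 2 * Z ^ 2 * Z ^ 2 by ring]
      gcongr)
    have h4 : F (r ^ 2 * D * s ^ 2 * δ) ≤ Q * (nm s ^ 2 * nm δ) ^ (1 / 2 : ℝ) := by
      rw [← Real.sqrt_eq_rpow, hQ, ← Real.sqrt_mul (by positivity)]
      refine Real.le_sqrt_of_sq_le (h3.trans_eq ?_)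
      rw [e]; ring
    have h5 : (nm s ^ 2 * nm δ) ^ (2 * η - 1 / 2) ≤ Z ^ (4 * η) * (nm s)⁻¹ := by
      calc (nm s ^ 2 * nm δ) ^ (2 * η - 1 / 2) ≤ (nm s ^ 2) ^ (2 * η - 1 / 2) :=
            Real.rpow_le_rpow_of_nonpos (by positivity)
              (le_mul_of_one_le_right (by positivity) (one_le_nm_prim hδ)) (by linarith)
        _ = nm s ^ (4 * η) * (nm s)⁻¹ := by
            rw [← Real.rpow_two, ← Real.rpow_mul ps.le, ← Real.rpow_neg_one, ← Real.rpow_add ps]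
            congr 1; ring
        _ ≤ _ := by gcongr
    calc _ ≤ (nm s ^ 2 * nm δ) ^ (2 * η - 1) * (Q * (nm s ^ 2 * nm δ) ^ (1 / 2 : ℝ)) := by gcongr
      _ = Q * (nm s ^ 2 * nm δ) ^ (2 * η - 1 / 2) := by
          rw [mul_left_comm, ← Real.rpow_add (by positivity)]
          congr 2; ring
      _ ≤ Q * (Z ^ (4 * η) * (nm s)⁻¹) := by gcongr
      _ = _ := by ring
  have hcard : ((pdiv D).card : ℝ) ≤ C₂ * Z ^ (2 * η) := by
    refine (h₂ D hD.ne_zero).trans (mul_le_mul_of_nonneg_left ?_ hC₂.le)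
    rw [Real.rpow_mul Z0.le, Real.rpow_two]
    exact Real.rpow_le_rpow pD.le hDZ hη.le
  have hlog : ∑ s ∈ (ball Z).filter Prim, (nm s)⁻¹ ≤ 44 * (C₁ * Z ^ η) := by
    refine (sum_inv_nm_le hZ fun s hs => mem_ball.1 (Finset.mem_filter.1 hs).1).trans ?_
    have := h₁ Z hZ
    rw [Real.rpow_one] at this
    linarith
  calc _ ≤ ∑ s ∈ (ball Z).filter Prim, C₂ * Z ^ (2 * η) * (Z ^ (4 * η) * Q * (nm s)⁻¹) := by
        refine Finset.sum_le_sum fun s hs => (Finset.sum_le_card_nsmul _ _ _ (key s hs)).trans ?_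
        rw [nsmul_eq_mul]
        have := nm_nonneg s
        exact mul_le_mul_of_nonneg_right hcard (by positivity)
    _ = C₂ * Z ^ (2 * η) * (Z ^ (4 * η) * Q * ∑ s ∈ (ball Z).filter Prim, (nm s)⁻¹) := by
        rw [← Finset.mul_sum, ← Finset.mul_sum]
    _ ≤ C₂ * Z ^ (2 * η) * (Z ^ (4 * η) * Q * (44 * (C₁ * Z ^ η))) := by gcongr
    _ = _ := by
        rw [show 7 * η = 2 * η + 4 * η + η by ring, Real.rpow_add Z0, Real.rpow_add Z0]
        ring

open Classical in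
theorem sq2b_tail {a η : ℝ} (ha : 0 < a) (hη : 0 < η) : ∃ C : ℝ, 0 < C ∧
    ∀ (f : O → ℂ) (X B Z : ℝ) (R : O), 1 ≤ Z → 0 < X → X ≤ Z → 0 ≤ B → Maj a X B f → Prim R →
      (∑' m : Pr, if Z ^ 2 < nm (m : O) then
        ((pdiv (m : O)).card : ℝ) * (‖f (R * m)‖ * nm (m : O) ^ (2 * η - 1)) else 0) ≤
        C * B * Z ^ (3 * η) / Z := by
  obtain ⟨C₂, hC₂, h₂⟩ := card_pdiv_le hη
  obtain ⟨C₃, hC₃, h₃⟩ := maj_sum ha (3 * η)
  refine ⟨C₂ * C₃, by positivity, fun f X B Z R hZ hX hXZ hB hf hR => ?_⟩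
  have Z0 : 0 < Z := by linarith
  obtain ⟨s1, s2⟩ := h₃ f X B R hX hB hf hR
  have hle : ∀ m : Pr, (if Z ^ 2 < nm (m : O) then
      ((pdiv (m : O)).card : ℝ) * (‖f (R * m)‖ * nm (m : O) ^ (2 * η - 1)) else 0) ≤
      C₂ / Z ^ 2 * (‖f (R * m)‖ * nm (m : O) ^ (3 * η)) := by
    intro m
    have pm := nm_prim_pos (Pr_prim m)
    split_ifs with h
    · calc _ ≤ C₂ * nm (m : O) ^ η * (‖f (R * m)‖ * nm (m : O) ^ (2 * η - 1)) :=
            mul_le_mul_of_nonneg_right (h₂ m (Pr_prim m).ne_zero) (by positivity)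
        _ = C₂ / nm (m : O) * (‖f (R * m)‖ * nm (m : O) ^ (3 * η)) := by
            rw [show 3 * η = η + 2 * η by ring, Real.rpow_add pm, Real.rpow_sub_one pm.ne']
            field_simp
        _ ≤ _ := by gcongr
    · positivity
  have h0 : ∀ m : Pr, 0 ≤ (if Z ^ 2 < nm (m : O) then
      ((pdiv (m : O)).card : ℝ) * (‖f (R * m)‖ * nm (m : O) ^ (2 * η - 1)) else 0) := by
    intro m
    have pm := nm_prim_pos (Pr_prim m)
    split_ifs <;> positivity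
  refine ((Summable.of_nonneg_of_le h0 hle (s1.mul_left _)).tsum_le_tsum hle
    (s1.mul_left _)).trans ?_
  rw [tsum_mul_left]
  have pR := nm_prim_pos hR
  have h4 : (X / nm R) ^ (3 * η + 1) ≤ Z ^ (3 * η) * Z := by
    rw [← Real.rpow_add_one Z0.ne']
    exact Real.rpow_le_rpow (by positivity)
      ((div_le_self hX.le (one_le_nm_prim hR)).trans hXZ) (by positivity)
  calc _ ≤ C₂ / Z ^ 2 * (C₃ * B * (Z ^ (3 * η) * Z)) :=
        mul_le_mul_of_nonneg_left (s2.trans (by gcongr)) (by positivity)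
    _ = _ := by field_simp

/-- Take `μ' u = C Z^(20η) (N(r)² μ u + B² / Z)`.  In `norm_Tq_sq_le` (`α = 2η - 1`, `mu_th`):
`N(r² D s² δ) ≤ Z^8`, each term is `≤ √(μ u N(r)² N D) · N(s)^(4η-1) N(δ)^(2η-1/2)`;
`sum_inv_nm_le`, `card_pdiv_le`; tail: `card (pdiv m) ≤ C N(m)^η`, `N(m)^(3η-1) ≤ Z^(-2) N(m)^(3η)`,
`maj_sum` with `σ = 3η` gives `≤ C B Z^(3η-1)`.  `μ u ≥ 0` by the hypothesis at `R = 1`;
`#rows U ≤ 11 U` (`card_le_of_nm_le`). -/
theorem child_sq {a η : ℝ} (ha : 0 < a) (hη : 0 < η) (hη' : η ≤ 1 / 100) : ∃ C : ℝ, 0 < C ∧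
    ∀ (f : O → ℂ) (X B Z U G m : ℝ) (r : O), 1 ≤ Z → 0 < X → X ≤ Z → 0 ≤ B → 0 ≤ U → 0 ≤ m →
      Maj a X B f → Prim r → nm r ≤ Z → Child η 8 m Z U G f →
      Child η 2 m Z U (C * Z ^ (20 * η) * (nm r ^ 2 * G + B ^ 2 * U / Z)) (sq r f) := by
  obtain ⟨C₁, hC₁, h₁⟩ := sq2b_main hη hη'
  obtain ⟨C₂, hC₂, h₂⟩ := sq2b_tail ha hη
  refine ⟨2 * C₁ ^ 2 + 22 * C₂ ^ 2, by positivity,
    fun f X B Z U G m r hZ hX hXZ hB hU hm hf hr hrZ hc ρ τ hρ => ?_⟩
  obtain ⟨μ, hμ, hG⟩ := hc ρ τ hρ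
  have Z0 : 0 < Z := by linarith
  set C := 2 * C₁ ^ 2 + 22 * C₂ ^ 2 with hC
  refine ⟨fun u => C * Z ^ (20 * η) * (nm r ^ 2 * μ u + B ^ 2 / (11 * Z)), fun u hu D hD hDZ => ?_, ?_⟩
  · have μ0 : 0 ≤ μ u := by
      have := hμ u hu 1 prim_one (by rw [nm_one]; exact one_le_pow₀ hZ)
      rw [nm_one, mul_one] at this
      exact (sq_nonneg _).trans this
    have hθ : Mu (2 * η - 1) (th ρ (wt η τ) u) := by simpa using mu_th hρ (wt η τ) u
    have k0 := norm_Tq_sq_le (hf.dec ha hX hB) hθ hr hD hZ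
    have k1 := h₁ (fun R => ‖Tq f R (th ρ (wt η τ) u)‖) Z (μ u) r D hZ μ0 hr hrZ hD hDZ
      (fun _ => norm_nonneg _) (hμ u hu)
    have k2 := h₂ f X B Z (r ^ 2 * D) hZ hX hXZ hB hf ((hr.pow 2).mul hD)
    have k3 := k0.trans (add_le_add k1 k2)
    have pD := one_le_nm_prim hD
    have pr := nm_prim_pos hr
    have z1 : (Z ^ (7 * η)) ^ 2 ≤ Z ^ (20 * η) := by
      rw [← Real.rpow_two, ← Real.rpow_mul Z0.le]
      exact Real.rpow_le_rpow_of_exponent_le hZ (by linarith)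
    have z2 : (Z ^ (3 * η)) ^ 2 ≤ Z ^ (20 * η) := by
      rw [← Real.rpow_two, ← Real.rpow_mul Z0.le]
      exact Real.rpow_le_rpow_of_exponent_le hZ (by linarith)
    have a1 : (C₁ * Z ^ (7 * η) * Real.sqrt (μ u * nm r ^ 2 * nm D)) ^ 2 ≤
        C₁ ^ 2 * Z ^ (20 * η) * (nm r ^ 2 * μ u) * nm D := by
      rw [mul_pow, mul_pow, Real.sq_sqrt (by positivity)]
      calc _ ≤ C₁ ^ 2 * Z ^ (20 * η) * (μ u * nm r ^ 2 * nm D) := by gcongr
        _ = _ := by ring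
    have a2 : (C₂ * B * Z ^ (3 * η) / Z) ^ 2 ≤
        11 * C₂ ^ 2 * Z ^ (20 * η) * (B ^ 2 / (11 * Z)) * nm D := by
      calc (C₂ * B * Z ^ (3 * η) / Z) ^ 2 = C₂ ^ 2 * (Z ^ (3 * η)) ^ 2 * (B ^ 2 / Z) * (1 / Z) := by
            field_simp
        _ ≤ C₂ ^ 2 * Z ^ (20 * η) * (B ^ 2 / Z) * nm D := by
            have : 1 / Z ≤ nm D := ((div_le_one Z0).2 hZ).trans pD
            gcongr
        _ = _ := by field_simp
    have a3 := pow_le_pow_left₀ (norm_nonneg _) k3 2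
    have b1 : 0 ≤ C₂ ^ 2 * (Z ^ (20 * η) * (nm r ^ 2 * μ u) * nm D) := by positivity
    have b2 : 0 ≤ C₁ ^ 2 * (Z ^ (20 * η) * (B ^ 2 / (11 * Z)) * nm D) := by positivity
    have a4 := add_sq_le (a := C₁ * Z ^ (7 * η) * Real.sqrt (μ u * nm r ^ 2 * nm D))
      (b := C₂ * B * Z ^ (3 * η) / Z)
    rw [hC]
    linarith
  · have w1 : 1 ≤ (1 + |τ|) ^ m := Real.one_le_rpow (by linarith [abs_nonneg τ]) hm
    have hcard : ((rows U).card : ℝ) ≤ 11 * U := card_le_of_nm_le hU fun h hh => mem_rows.1 hh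
    rw [← Finset.mul_sum, Finset.sum_add_distrib, ← Finset.mul_sum, Finset.sum_const, nsmul_eq_mul,
      mul_assoc (C * Z ^ (20 * η))]
    refine mul_le_mul_of_nonneg_left ?_ (by positivity)
    rw [add_mul, mul_assoc]
    refine add_le_add (mul_le_mul_of_nonneg_left hG (sq_nonneg _)) ?_
    calc _ ≤ 11 * U * (B ^ 2 / (11 * Z)) := by gcongr
      _ = B ^ 2 * U / Z * 1 := by field_simp
      _ ≤ _ := by gcongr


end Crest.Agent.R17.M2
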