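import Crest.Agent.R17.M2.Step2b
import Crest.Agent.R17.M2.Amp
import Crest.Agent.R17.M2.Sq1
import Crest.Agent.R17.M2.Sq2

/-! Row 17, block M2 (owner helper24): the abstract recursion step. -/

set_option autoImplicit false

namespace Crest.Agent.R17.M2

open scoped ComplexConjugate
open Complex

theorem c2a_tail (A : ℕ) (b : O → ℂ) {X T : ℝ} (hX : 0 ≤ X) (hT : 0 ≤ T) : 0 ≤ tail A b X T := by
  unfold tail
  positivity

/-- Drop the labels with `Y⁶ len < 1` (no rows).  `dual_false`, `AdmP.sum_le_En` (`AdmP.child`,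
`AdmP.gauss`), `lemmaP2` for the family `b l = child f ρ z l`, `v l = l.1 * l.2.2 ^ 2`, `w l = pre η K l`,
`K l = Y⁶ len`, `X l = X / N(e g j)`, `A = ⌈13/η⌉₊ + 2`; then `step2_diag`, `step2_tail`, `step2_ledger`
with the `μ` of `Child` at `ρ ρ'` (`IsTw.mul'`), `τ + τ'`; `exp_twist_le` with `t = |τ|`. -/
theorem step2 {a η m : ℝ} (ha : 0 < a) (hη : 0 < η) (hη' : η ≤ 1 / 100) (hm : 0 ≤ m) :
    ∃ C : ℝ, 0 < C ∧ ∀ (f ρ : O → ℂ) (X B K Y Z G τ : ℝ), 1 ≤ K → K ≤ Z → 0 < X → X ≤ Z → 1 ≤ Y →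
      Y ≤ Z → 0 ≤ B → 0 ≤ G → Maj a X B f → AdmP f → IsTw 4 ρ → Child η 2 m Z (K / Y ^ 6) G f →
      ∑ l ∈ Lab (X * Z ^ η * Y), pre η K l * ∑ h ∈ rows (Y ^ 6 * len K X (Z ^ η) l),
          ‖Sp true (dual false f ρ (η + τ * I) l) h‖ ^ 2 ≤
        C * Z ^ (21 * η) * (Y ^ 6 * X ^ 2 * (B ^ 2 + G * (1 + |τ|) ^ m) + B ^ 2 * K * X) := by
  classical
  set A : ℕ := ⌈13 / η⌉₊ + 2 with hAdef
  have hA : 13 ≤ η * ((A : ℝ) - 1) := by
    have h1 := Nat.le_ceil (13 / η)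
    rw [div_le_iff₀ hη] at h1
    rw [hAdef]
    push_cast
    nlinarith
  obtain ⟨C₀, hC₀, HP⟩ := lemmaP2 η hη A (by omega)
  obtain ⟨C₁, hC₁, HD⟩ := step2_diag ha hη
  obtain ⟨C₂, hC₂, HT⟩ := step2_tail ha hη hη' hA
  obtain ⟨C₃, hC₃, HL⟩ := step2_ledger hη
  obtain ⟨C₄, hC₄, HE⟩ := exp_twist_le m
  refine ⟨55 * (C₁ + C₀ * C₃ * C₄ + C₀ * C₂), by positivity, ?_⟩
  intro f ρ X B K Y Z G τ hK hKZ hX hXZ hY hYZ hB hG hM hf hρ hCh
  have hZ : 1 ≤ Z := hK.trans hKZ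
  have hK0 : 0 < K := by linarith
  have hT : 1 ≤ Z ^ η := Real.one_le_rpow hZ hη.le
  have hTZ : Z ^ η ≤ Z := by
    calc Z ^ η ≤ Z ^ (1 : ℝ) := Real.rpow_le_rpow_of_exponent_le hZ (by linarith)
      _ = Z := Real.rpow_one Z
  set J := (Lab (X * Z ^ η * Y)).filter fun l => 1 ≤ Y ^ 6 * len K X (Z ^ η) l with hJ
  have hJs : J ⊆ Lab (X * Z ^ η * Y) := Finset.filter_subset _ _
  have hJm : ∀ l ∈ J, l ∈ Lab (X * Z ^ η * Y) ∧ 1 ≤ Y ^ 6 * len K X (Z ^ η) l := fun l hl =>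
    Finset.mem_filter.1 hl
  have hadm : ∀ l ∈ J, AdmP (child f ρ (η + τ * I) l) := by
    intro l hl
    obtain ⟨h1, h2, h3, -⟩ := mem_Lab'.1 (hJm l hl).1
    exact hf.child (hρ.norm_le four_ne) _ h1 h2 h3
  obtain ⟨τ', ρ', hρ', H⟩ := HP J (fun l => child f ρ (η + τ * I) l) (fun l => l.1 * l.2.2 ^ 2)
    (fun l => pre η K l) (fun l => Y ^ 6 * len K X (Z ^ η) l)
    (fun l => X / nm (l.1 * l.2.1 * l.2.2)) (Z ^ η) hT (fun l hl => by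
      obtain ⟨h1, h2, h3, -⟩ := mem_Lab'.1 (hJm l hl).1
      exact ⟨hadm l hl, pre_nonneg η hK0 l, lt_of_lt_of_le one_pos (hJm l hl).2,
        div_pos hX (nm_prim_pos ((h1.mul h2).mul h3))⟩)
  obtain ⟨μ, hμ, hμs⟩ := hCh (fun n => ρ n * ρ' n) (τ + τ') (hρ.mul' hρ')
  have hL := HL f ρ ρ' μ X K Y Z τ τ' J hK hKZ hX hXZ hY hYZ hTZ hρ hJm hμ
  have hD := HD f ρ X B K Y Z τ hK hZ hX hXZ hY hYZ hTZ hB hM hρ
  have hTl := HT f ρ X B K Y Z τ hK hZ hX hXZ hY hYZ hB hM hρ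
  have hlen : ∀ l, 0 ≤ len K X (Z ^ η) l := fun l => by
    have := nm_nonneg l.1
    unfold len
    positivity
  have hD' := (Finset.sum_le_sum_of_subset_of_nonneg hJs fun l _ _ =>
    mul_nonneg (pre_nonneg η hK0 l) (mul_nonneg (mul_nonneg (by positivity) (hlen l))
      (tsum_nonneg fun n => sq_nonneg _))).trans hD
  have hTl' := (Finset.sum_le_sum_of_subset_of_nonneg hJs fun l _ _ =>
    mul_nonneg (pre_nonneg η hK0 l) (c2a_tail A _ (div_nonneg hX.le (nm_nonneg _))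
      (by linarith))).trans hTl
  have h1 : ∑ l ∈ Lab (X * Z ^ η * Y), pre η K l * ∑ h ∈ rows (Y ^ 6 * len K X (Z ^ η) l),
      ‖Sp true (dual false f ρ (η + τ * I) l) h‖ ^ 2 ≤ 55 * ∑ l ∈ J, pre η K l *
        En true (fun m => child f ρ (η + τ * I) l m * gt m * sx (l.1 * l.2.2 ^ 2) m)
          (Y ^ 6 * len K X (Z ^ η) l) := by
    rw [← Finset.sum_subset hJs, Finset.mul_sum]
    · refine Finset.sum_le_sum fun l hl => ?_
      rw [mul_left_comm, dual_false]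
      exact mul_le_mul_of_nonneg_left (((hadm l hl).gauss _).sum_le_En true
        (lt_of_lt_of_le one_pos (hJm l hl).2) _ fun k hk => (mem_rows.1 hk).2) (pre_nonneg η hK0 l)
    · intro l hl hl'
      rw [Finset.sum_eq_zero, mul_zero]
      intro h hh
      exact absurd (Finset.mem_filter.2 ⟨hl, (one_le_nm (mem_rows.1 hh).1).trans (mem_rows.1 hh).2⟩)
        hl'
  refine h1.trans ?_
  rw [mul_assoc, mul_assoc]
  refine mul_le_mul_of_nonneg_left (H.trans ?_) (by norm_num)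
  simp only [mul_add (pre η K _), Finset.sum_add_distrib, mul_left_comm (pre η K _) C₀,
    mul_left_comm (pre η K _) (C₀ * _), ← Finset.mul_sum]
  have hE : Real.exp (-|τ'| / 2) * (1 + |τ + τ'|) ^ m ≤ C₄ * (1 + |τ|) ^ m := by
    refine le_trans (mul_le_mul_of_nonneg_left (Real.rpow_le_rpow (by positivity) ?_ hm)
      (Real.exp_pos _).le) (HE τ' |τ| (abs_nonneg τ))
    have := abs_add_le τ τ'
    linarith
  have hW1 : Z ^ (10 * η) ≤ Z ^ (21 * η) := Real.rpow_le_rpow_of_exponent_le hZ (by linarith)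
  have hW2 : 1 ≤ Z ^ (21 * η) := Real.one_le_rpow hZ (by positivity)
  have hw : 0 ≤ (1 + |τ|) ^ m := by positivity
  set W := Z ^ (21 * η)
  set w := (1 + |τ|) ^ m
  set P := Y ^ 6 * X ^ 2 * B ^ 2 with hP
  set Q := Y ^ 6 * X ^ 2 * (G * w) with hQ
  set S := B ^ 2 * K * X with hS
  have hP0 : 0 ≤ P := by positivity
  have hQ0 : 0 ≤ Q := by positivity
  have hS0 : 0 ≤ S := by positivity
  have e : Y ^ 6 * X ^ 2 * (B ^ 2 + G * w) + S = P + Q + S := by rw [hP, hQ]; ring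
  rw [e]
  have b1 := hD'.trans (show C₁ * Z ^ (10 * η) * Y ^ 6 * X ^ 2 * B ^ 2 ≤ C₁ * (W * (P + Q + S)) by
    calc C₁ * Z ^ (10 * η) * Y ^ 6 * X ^ 2 * B ^ 2 = C₁ * (Z ^ (10 * η) * P) := by rw [hP]; ring
      _ ≤ _ := by gcongr; linarith)
  have b3 := hTl'.trans (show C₂ * B ^ 2 * K * X ≤ C₂ * (W * (P + Q + S)) by
    calc C₂ * B ^ 2 * K * X = C₂ * (1 * S) := by rw [hS]; ring
      _ ≤ _ := by gcongr; linarith)
  have b2 := (mul_le_mul_of_nonneg_left hL (Real.exp_pos (-|τ'| / 2)).le).trans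
    (show Real.exp (-|τ'| / 2) * (C₃ * W * Y ^ 6 * X ^ 2 * ∑ u ∈ rows (K / Y ^ 6), μ u) ≤
      C₃ * C₄ * (W * (P + Q + S)) by
    calc _ ≤ Real.exp (-|τ'| / 2) * (C₃ * W * Y ^ 6 * X ^ 2 * (G * (1 + |τ + τ'|) ^ m)) := by
          gcongr
      _ = C₃ * W * Y ^ 6 * X ^ 2 * G * (Real.exp (-|τ'| / 2) * (1 + |τ + τ'|) ^ m) := by ring
      _ ≤ C₃ * W * Y ^ 6 * X ^ 2 * G * (C₄ * w) := by gcongr
      _ = C₃ * C₄ * (W * Q) := by rw [hQ]; ring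
      _ ≤ _ := by gcongr; linarith)
  have b2' := mul_le_mul_of_nonneg_left b2 hC₀.le
  have b3' := mul_le_mul_of_nonneg_left b3 hC₀.le
  rw [← mul_assoc C₀] at b2'
  refine (add_le_add (add_le_add b1 b2') b3').trans (le_of_eq ?_)
  ring

/-- `ampP` with `T = Z^η`, `step2`, `step1_triv`, `exp_twist_le` with `t = 0` -/
theorem core_sq {a η m : ℝ} (ha : 0 < a) (hη : 0 < η) (hη' : η ≤ 1 / 100) (hm : 0 ≤ m) :
    ∃ C : ℝ, 0 < C ∧ ∀ (f : O → ℂ) (X B K Y Z G : ℝ), 1 ≤ K → K ≤ Z → 0 < X → X ≤ Z → 1 ≤ Y →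
      Y ≤ Z → 0 ≤ B → 0 ≤ G → Maj a X B f → AdmP f → Child η 2 m Z (K / Y ^ 6) G f →
      En false f K ≤ C * Z ^ (22 * η) * (B ^ 2 * K * X + B ^ 2 * Y ^ 5 * X ^ 2 + Y ^ 5 * X ^ 2 * G) := by
  have hA : 13 ≤ η * (((⌈13 / η⌉₊ + 2 : ℕ) : ℝ) - 1) := by
    have h1 := Nat.le_ceil (13 / η)
    rw [div_le_iff₀ hη] at h1
    push_cast
    nlinarith
  obtain ⟨C₁, hC₁, h₁⟩ := ampP hη (⌈13 / η⌉₊ + 2) (by omega)
  obtain ⟨C₂, hC₂, h₂⟩ := step2 ha hη hη' hm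
  obtain ⟨C₃, hC₃, h₃⟩ := step1_triv ha hη hA
  obtain ⟨C₄, hC₄, h₄⟩ := exp_twist_le m
  refine ⟨C₃ + C₁ * C₃ + C₁ * C₂ * (1 + C₄), by positivity,
    fun f X B K Y Z G hK hKZ hX hXZ hY hYZ hB hG hf hf' hc => ?_⟩
  have hZ : 1 ≤ Z := hK.trans hKZ
  have hZ0 : 0 < Z := by linarith
  have hY0 : 0 < Y := by linarith
  have hT : 1 ≤ Z ^ η := Real.one_le_rpow hZ hη.le
  have hTZ : Z ^ η ≤ Z := by
    calc Z ^ η ≤ Z ^ (1 : ℝ) := Real.rpow_le_rpow_of_exponent_le hZ (by linarith)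
      _ = Z := Real.rpow_one Z
  obtain ⟨τ, ρ, hρ, e₁⟩ := h₁ f K X (Z ^ η) Y Z hf' hK hX hXZ hT hTZ hY hYZ
  have e₂ := h₂ f ρ X B K Y Z G τ hK hKZ hX hXZ hY hYZ hB hG hf hf' hρ hc
  obtain ⟨e₃, e₃'⟩ := h₃ f X B Z hZ hX hXZ hB hf
  have e₄ : Real.exp (-|τ| / 2) * (1 + |τ|) ^ m ≤ C₄ := by
    have := h₄ τ 0 le_rfl
    rwa [add_zero, Real.one_rpow, mul_one] at this
  have e₅ : Real.exp (-|τ| / 2) ≤ 1 := Real.exp_le_one_iff.2 (by have := abs_nonneg τ; linarith)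
  have e₆ : Z ^ (22 * η) = Z ^ η * Z ^ (21 * η) := by
    rw [← Real.rpow_add hZ0]
    congr 1
    ring
  have hW : 1 ≤ Z ^ (22 * η) := Real.one_le_rpow hZ (by positivity)
  have hE := Real.exp_pos (-|τ| / 2)
  generalize Real.exp (-|τ| / 2) = E at *
  have hP : 0 ≤ (1 + |τ|) ^ m := by positivity
  generalize (1 + |τ|) ^ m = P at *
  set S : ℝ := B ^ 2 * K * X + B ^ 2 * Y ^ 5 * X ^ 2 + Y ^ 5 * X ^ 2 * G with hS
  have p1 : 0 ≤ B ^ 2 * K * X := by positivity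
  have p2 : 0 ≤ B ^ 2 * Y ^ 5 * X ^ 2 := by positivity
  have p3 : 0 ≤ Y ^ 5 * X ^ 2 * G := by positivity
  have hS0 : 0 ≤ S := by positivity
  have hSW : S ≤ Z ^ (22 * η) * S := le_mul_of_one_le_left hS0 hW
  have t1 : K * l2 f ≤ C₃ * (Z ^ (22 * η) * S) := by
    calc K * l2 f ≤ K * (C₃ * B ^ 2 * X) := by gcongr
      _ = C₃ * (B ^ 2 * K * X) := by ring
      _ ≤ _ := mul_le_mul_of_nonneg_left (by linarith) hC₃.le
  have t3 : C₁ * tail (⌈13 / η⌉₊ + 2) f X (Z ^ η) ≤ C₁ * C₃ * (Z ^ (22 * η) * S) := by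
    calc _ ≤ C₁ * (C₃ * B ^ 2 * X) := by gcongr
      _ = C₁ * C₃ * (B ^ 2 * 1 * X) := by ring
      _ ≤ C₁ * C₃ * (B ^ 2 * K * X) := by gcongr
      _ ≤ _ := mul_le_mul_of_nonneg_left (by linarith) (by positivity)
  have t2 : E / Y * (Y ^ 6 * X ^ 2 * (B ^ 2 + G * P) + B ^ 2 * K * X) ≤ (1 + C₄) * S := by
    have q1 : E / Y ≤ 1 := (div_le_one hY0).2 (e₅.trans hY)
    calc _ = E / Y * (B ^ 2 * K * X) + E * (B ^ 2 * Y ^ 5 * X ^ 2) + E * P * (Y ^ 5 * X ^ 2 * G) := by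
          field_simp
          ring
      _ ≤ 1 * (B ^ 2 * K * X) + 1 * (B ^ 2 * Y ^ 5 * X ^ 2) + C₄ * (Y ^ 5 * X ^ 2 * G) := by gcongr
      _ ≤ _ := by
          have := mul_nonneg hC₄.le p1
          have := mul_nonneg hC₄.le p2
          rw [hS]
          linarith
  refine e₁.trans ?_
  refine (add_le_add (add_le_add t1 (mul_le_mul_of_nonneg_left e₂ (by positivity))) t3).trans ?_
  have t4 : C₁ * E * (Z ^ η / Y) *
      (C₂ * Z ^ (21 * η) * (Y ^ 6 * X ^ 2 * (B ^ 2 + G * P) + B ^ 2 * K * X)) ≤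
      C₁ * C₂ * (1 + C₄) * (Z ^ (22 * η) * S) := by
    calc _ = C₁ * C₂ * Z ^ (22 * η) *
          (E / Y * (Y ^ 6 * X ^ 2 * (B ^ 2 + G * P) + B ^ 2 * K * X)) := by
          rw [e₆]
          ring
      _ ≤ C₁ * C₂ * Z ^ (22 * η) * ((1 + C₄) * S) := by gcongr
      _ = _ := by ring
  linarith

/-- `sum_le_sq`; for each `r`: `core_sq` for `sq r f` with `X / N(r)²` (`Maj.sq`, `admP_sq`, `child_sq`);
`Y⁵ X_r² B² U / (Y⁶ Z) ≤ B² U X_r` -/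
theorem core {a η m : ℝ} (ha : 0 < a) (hη : 0 < η) (hη' : η ≤ 1 / 100) (hm : 0 ≤ m) :
    ∃ C : ℝ, 0 < C ∧ ∀ (f : O → ℂ) (X B U Y Z G : ℝ) (A : Finset O), 1 ≤ U → U ≤ Z → 0 < X →
      X ≤ Z → 1 ≤ Y → Y ≤ Z → 0 ≤ B → 0 ≤ G → Maj a X B f → Od f →
      Child η 8 m Z (U / Y ^ 6) G f → (∀ k ∈ A, nm k ≤ U) →
      ∑ k ∈ A, ‖Sp false f k‖ ^ 2 ≤
        C * Z ^ (43 * η) * (B ^ 2 * U * X + B ^ 2 * Y ^ 5 * X ^ 2 + Y ^ 5 * X ^ 2 * G) := by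
  obtain ⟨C₁, hC₁, h₁⟩ := sum_le_sq ha hη
  obtain ⟨C₂, hC₂, h₂⟩ := core_sq ha hη hη' hm
  obtain ⟨C₃, hC₃, h₃⟩ := child_sq ha hη hη'
  refine ⟨C₁ * (C₂ * (1 + C₃) + 1), by positivity,
    fun f X B U Y Z G A hU hUZ hX hXZ hY hYZ hB hG hf ho hc hA => ?_⟩
  have hZ : 1 ≤ Z := hU.trans hUZ
  have hZ0 : 0 < Z := by linarith
  have hY0 : 0 < Y := by linarith
  have hU0 : 0 < U := by linarith
  set S : ℝ := B ^ 2 * U * X + B ^ 2 * Y ^ 5 * X ^ 2 + Y ^ 5 * X ^ 2 * G with hS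
  have p1 : 0 ≤ B ^ 2 * U * X := by positivity
  have p2 : 0 ≤ B ^ 2 * Y ^ 5 * X ^ 2 := by positivity
  have p3 : 0 ≤ Y ^ 5 * X ^ 2 * G := by positivity
  have hS0 : 0 ≤ S := by positivity
  have hW : 1 ≤ Z ^ (20 * η) := Real.one_le_rpow hZ (by positivity)
  have hW' : 1 ≤ Z ^ (22 * η) := Real.one_le_rpow hZ (by positivity)
  have e₆ : Z ^ (43 * η) = Z ^ η * (Z ^ (22 * η) * Z ^ (20 * η)) := by
    rw [← Real.rpow_add hZ0, ← Real.rpow_add hZ0]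
    congr 1
    ring
  have key := h₁ f X B Z U (C₂ * Z ^ (22 * η) * ((1 + C₃) * Z ^ (20 * η) * S)) A hU hUZ hX hXZ hB
    (by positivity) hf ho hA fun r hr hrZ => by
      have hN := one_le_nm_prim hr
      have hN2 : 1 ≤ nm r ^ 2 := one_le_pow₀ hN
      have hch := h₃ f X B Z (U / Y ^ 6) G m r hZ hX hXZ hB (by positivity) hm hf hr hrZ hc
      refine (h₂ (sq r f) (X / nm r ^ 2) B U Y Z _ hU hUZ (by positivity)
        ((div_le_self hX.le hN2).trans hXZ) hY hYZ hB (by positivity) (hf.sq hB hr)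
        (admP_sq (hf.dec ha hX hB) ho hr) hch).trans ?_
      rw [mul_div_assoc (C₂ * Z ^ (22 * η))]
      refine mul_le_mul_of_nonneg_left ?_ (by positivity)
      generalize nm r ^ 2 = N at hN2
      generalize Z ^ (20 * η) = W at hW
      have hN0 : 0 < N := by linarith
      rw [le_div_iff₀ hN0]
      have q1 : 1 / N ≤ 1 := (div_le_one hN0).2 hN2
      have q2 : X / Z / Y / N ≤ 1 := by
        rw [div_le_one hN0, div_le_iff₀ hY0, div_le_iff₀ hZ0]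
        calc X ≤ 1 * 1 * Z := by linarith
          _ ≤ N * Y * Z := by gcongr
      calc _ = B ^ 2 * U * X + 1 / N * (B ^ 2 * Y ^ 5 * X ^ 2) +
            C₃ * W * (Y ^ 5 * X ^ 2 * G + X / Z / Y / N * (B ^ 2 * U * X)) := by
            field_simp
        _ ≤ B ^ 2 * U * X + 1 * (B ^ 2 * Y ^ 5 * X ^ 2) +
            C₃ * W * (Y ^ 5 * X ^ 2 * G + 1 * (B ^ 2 * U * X)) := by gcongr
        _ ≤ S + C₃ * W * S := by
            refine add_le_add (by linarith) (mul_le_mul_of_nonneg_left (by linarith) (by positivity))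
        _ ≤ W * S + C₃ * W * S := by
            have := le_mul_of_one_le_left hS0 hW
            linarith
        _ = _ := by ring
  refine key.trans ?_
  have q3 : B ^ 2 * U * X ≤ Z ^ (22 * η) * Z ^ (20 * η) * S :=
    le_trans (by linarith) (le_mul_of_one_le_left hS0 (one_le_mul_of_one_le_of_one_le hW' hW))
  calc _ ≤ C₁ * Z ^ η * (C₂ * Z ^ (22 * η) * ((1 + C₃) * Z ^ (20 * η) * S) +
        Z ^ (22 * η) * Z ^ (20 * η) * S) := by gcongr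
    _ = _ := by
        rw [e₆]
        ring


end Crest.Agent.R17.M2
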