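import Crest.Agent.R17.P.Glue

/-!
Row 17, block M2 (owner helper24): definitions.  Everything lives in `Crest.Agent.R17.M2`.

Plan.  ABSTRACT PART (Sq1, Sq2, Amp, Step2*, Core): for any coefficient `f` with a log-normal
majorant, the row energy is bounded by the diagonals and by `Y⁵ X² G`, where `G` bounds the shifted
sums `Tq f R θ` on the rows `≤ U / Y⁶` (`Child`).  CONCRETE PART (Hecke*, Single, Exc, Max, Child,
Main): `f` = two plain weights times prime weights, possibly centred.  INDUCTION (Triv, Refl, Plus,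
Step, Final) on `d` with `U ≤ Y^d`, `Y = P^κ`.
-/

set_option autoImplicit false

namespace Crest.Agent.R17.M2

open scoped ComplexConjugate

/-- the shifted sum `∑_m f(R m) θ(m)` -/
noncomputable def Tq (f : O → ℂ) (R : O) (θ : O → ℂ) : ℂ := ∑' m : Pr, f (R * m) * θ m

/-- the multiplicative weight `ρ(m) N(m)^w χ_m(u)` -/
noncomputable def th (ρ : O → ℂ) (w : ℂ) (u m : O) : ℂ := ρ m * (nm m : ℂ) ^ w * sx u m

/-- the exponent of the children -/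
noncomputable def wt (η τ : ℝ) : ℂ := ((2 * η - 1 : ℝ) : ℂ) + τ * Complex.I

@[simp] theorem wt_re (η τ : ℝ) : (wt η τ).re = 2 * η - 1 := by simp [wt]

@[simp] theorem wt_im (η τ : ℝ) : (wt η τ).im = τ := by simp [wt]

/-- completely multiplicative on primary elements, of size at most `N(m)^α` -/
structure Mu (α : ℝ) (θ : O → ℂ) : Prop where
  one : θ 1 = 1
  mul : ∀ a b, Prim a → Prim b → θ (a * b) = θ a * θ b
  le : ∀ m, Prim m → ‖θ m‖ ≤ nm m ^ α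

/-- log-normal majorant of width `a`, centre `X`, height `B` -/
def Maj (a X B : ℝ) (f : O → ℂ) : Prop := ∀ n, Prim n → ‖f n‖ ≤ B * ‖LN a X 0 (nm n)‖

/-- rapid decay -/
def Dec (f : O → ℂ) : Prop := ∀ σ : ℝ, Summable fun n : Pr => ‖f n‖ * nm n ^ σ

/-- supported on odd elements -/
def Od (f : O → ℂ) : Prop := ∀ n, Prim n → f n ≠ 0 → IsCoprime n 2

open Classical in
/-- the part of `f` on `n = m r²`, `m` squarefree -/
noncomputable def sq (r : O) (f : O → ℂ) (m : O) : ℂ := if Squarefree m then f (m * r ^ 2) else 0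

/-- the hypothesis on the children: a majorant `μ` of `‖Tq f R θ_u‖² / N R` over all shifts of norm
at most `Z ^ c`, whose sum over the rows `≤ U` is at most `G (1 + |τ|) ^ m` -/
def Child (η : ℝ) (c : ℕ) (m Z U G : ℝ) (f : O → ℂ) : Prop :=
  ∀ (ρ : O → ℂ) (τ : ℝ), IsTw 4 ρ → ∃ μ : O → ℝ,
    (∀ u ∈ rows U, ∀ R : O, Prim R → nm R ≤ Z ^ c →
      ‖Tq f R (th ρ (wt η τ) u)‖ ^ 2 ≤ μ u * nm R) ∧
    ∑ u ∈ rows U, μ u ≤ G * (1 + |τ|) ^ m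

/-- Dirichlet convolution over primary elements -/
noncomputable def cv (f g : O → ℂ) (n : O) : ℂ := ∑ p ∈ anti n, f p.1 * g p.2

open Classical in
/-- iterated convolution -/
noncomputable def cvL : List (O → ℂ) → O → ℂ
  | [] => fun n => if n = 1 then 1 else 0
  | w :: ws => cv w (cvL ws)

/-- plain weight -/
noncomputable def wP (ψ : O → ℂ) (a N t : ℝ) (n : O) : ℂ := ψ n * LN a N t (nm n)

/-- a prime slot: character, centre, twist -/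
structure Slot where
  ψ : O → ℂ
  P : ℝ
  s : ℝ

open Classical in
/-- prime weight -/
noncomputable def wQ (a : ℝ) (x : Slot) (n : O) : ℂ :=
  if Prime n then x.ψ n * LN a x.P x.s (nm n) else 0

/-- the coefficients of the product of the prime sums -/
noncomputable def sl (a : ℝ) (L : List Slot) : O → ℂ := cvL (L.map (wQ a))

/-- total length of the slots -/
noncomputable def QL (L : List Slot) : ℝ := (L.map Slot.P).prod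

/-- the slot after multiplication by `ρ(m) N(m)^w` -/
noncomputable def Slot.sh (a : ℝ) (ρ : O → ℂ) (w : ℂ) (x : Slot) : Slot :=
  ⟨fun n => x.ψ n * ρ n, x.P * Real.exp (a ^ 2 * w.re), x.s + w.im⟩

/-- normalised plain sum -/
noncomputable def nS (ψ : O → ℂ) (a N t : ℝ) (u : O) : ℝ := ‖PS (rc ψ u) a N t‖ ^ 2 / N

/-- normalised prime sum -/
noncomputable def nP (a : ℝ) (u : O) (x : Slot) : ℝ := ‖PP (rc x.ψ u) a x.P x.s‖ ^ 2 / x.P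

structure Slot.OK (q : O) (κ Y S : ℝ) (x : Slot) : Prop where
  tw : IsTw q x.ψ
  pos : 0 < x.P
  le : x.P ^ κ ≤ Y
  tws : |x.s| ≤ S

/-- the data of a moment -/
structure Dat where
  ψ₁ : O → ℂ
  ψ₂ : O → ℂ
  Z : ℝ
  Y : ℝ
  U : ℝ
  N₁ : ℝ
  N₂ : ℝ
  t₁ : ℝ
  t₂ : ℝ
  S : ℝ
  L : List Slot

structure Dat.OK (q : O) (κ σ : ℝ) (j : ℕ) (D : Dat) : Prop where
  tw₁ : IsTw q D.ψ₁
  tw₂ : IsTw q D.ψ₂
  hZ : 1 ≤ D.Z
  hY : 1 ≤ D.Y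
  hZY : D.Z ^ σ ≤ D.Y
  hU : 1 ≤ D.U
  hUZ : D.U ≤ D.Z
  pos₁ : 0 < D.N₁
  pos₂ : 0 < D.N₂
  ht₁ : |D.t₁| ≤ D.S
  ht₂ : |D.t₂| ≤ D.S
  len : D.L.length ≤ j
  slot : ∀ x ∈ D.L, x.OK q κ D.Y D.S

/-- the width -/
noncomputable def Dat.W (D : Dat) : ℝ := max D.N₁ 1 * max D.N₂ 1 * D.Y ^ (6 * D.L.length)

/-- the total length -/
noncomputable def Dat.X (D : Dat) : ℝ := D.N₁ * D.N₂ * QL D.L

/-- exchange the two plain variables -/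
def Dat.swap (D : Dat) : Dat :=
  { D with ψ₁ := D.ψ₂, ψ₂ := D.ψ₁, N₁ := D.N₂, N₂ := D.N₁, t₁ := D.t₂, t₂ := D.t₁ }

/-- the normalised moment over the rows `A` -/
noncomputable def Dat.mom (D : Dat) (a₁ a₂ a₃ : ℝ) (A : Finset O) : ℝ :=
  ∑ u ∈ A, nS D.ψ₁ a₁ D.N₁ D.t₁ u * nS D.ψ₂ a₂ D.N₂ D.t₂ u * (D.L.map (nP a₃ u)).prod

/-- non-exceptional rows of norm at most `U` -/
def Rw (q : O) (U : ℝ) (A : Finset O) : Prop := ∀ u ∈ A, u ≠ 0 ∧ ¬ Exc q u ∧ nm u ≤ U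

/-- the moment bound with loss `Y ^ k` for all data satisfying `H` -/
def MomOn (q : O) (κ σ : ℝ) (j k : ℕ) (H : Dat → Prop) : Prop :=
  ∀ a₁ a₂ a₃ ε : ℝ, 0 < a₁ → 0 < a₂ → 0 < a₃ → 0 < ε → ∃ C : ℝ, 0 < C ∧
    ∀ (D : Dat) (A : Finset O), D.OK q κ σ j → H D → Rw q D.U A →
      D.mom a₁ a₂ a₃ A ≤ C * D.Z ^ ε * D.Y ^ k * (1 + D.S) ^ C * D.U

/-- level `d` of the induction -/
def H0 (d : ℕ) (D : Dat) : Prop := D.U ≤ D.Y ^ d ∧ D.W ≤ D.U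

/-- the children of level `d + 1`: the width may exceed the rows by `Y ^ 6` -/
def HP (d : ℕ) (D : Dat) : Prop :=
  D.Y ^ 6 ≤ D.U ∧ D.U * D.Y ^ 6 ≤ D.Y ^ (d + 1) ∧ D.U * D.Y ^ 6 ≤ D.Z ∧ D.W ≤ D.U * D.Y ^ 6

/-- the non-trivial range of level `d + 1` -/
def H1 (d : ℕ) (D : Dat) : Prop := D.Y ^ 12 ≤ D.U ∧ D.U ≤ D.Y ^ (d + 1) ∧ D.W ≤ D.U

/-- the maximal form (row-dependent centres, all subsets of the slots) for the children -/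
def MaxP (q : O) (κ σ : ℝ) (j d : ℕ) : Prop :=
  ∀ a₁ a₂ a₃ ε : ℝ, 0 < a₁ → 0 < a₂ → 0 < a₃ → 0 < ε → ∃ C : ℝ, 0 < C ∧
    ∀ (D : Dat) (A : Finset O) (M₁ M₂ : O → ℝ), D.OK q κ σ j → HP d D → Rw q D.U A →
      (∀ u ∈ A, D.N₁ / D.Z ^ 8 ≤ M₁ u ∧ M₁ u ≤ D.N₁ ∧ D.N₂ / D.Z ^ 8 ≤ M₂ u ∧ M₂ u ≤ D.N₂) →
      ∑ u ∈ A, nS D.ψ₁ a₁ (M₁ u) D.t₁ u * nS D.ψ₂ a₂ (M₂ u) D.t₂ u *
          (D.L.map fun x => 1 + nP a₃ u x).prod ≤
        C * D.Z ^ ε * D.Y ^ 13 * (1 + D.S) ^ C * D.U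

/-- the pointwise bound for prime sums that the zero-free half plane gives -/
def Drop (q : O) (κ : ℝ) : Prop :=
  ∀ a ε : ℝ, 0 < a → 0 < ε → ∃ C : ℝ, 0 < C ∧ ∀ (x : Slot) (u : O) (Z : ℝ), IsTw q x.ψ → u ≠ 0 →
    ¬ Exc q u → nm u ≤ Z → 0 < x.P → x.P ≤ Z ^ 3 →
    nP a u x ≤ C * Z ^ ε * (1 + |x.s|) ^ C * x.P ^ κ

/-- centring data: comparison lengths `M₁ M₂ = N₁ N₂`, switch `c`, saving `Λ` -/
structure Cen (D : Dat) (M₁ M₂ Λ : ℝ) (c : ℂ) : Prop where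
  pos₁ : 0 < M₁
  pos₂ : 0 < M₂
  prod : M₁ * M₂ = D.N₁ * D.N₂
  wid : max M₁ 1 * max M₂ 1 * D.Y ^ (6 * D.L.length) ≤ D.U
  posΛ : 0 < Λ
  alt : (c = 0 ∧ Λ = 1) ∨ (c = 1 ∧ Λ ≤ D.N₁ ∧ Λ ≤ D.N₂ ∧ Λ ≤ M₁ ∧ Λ ≤ M₂)

/-- the coefficients of the (centred) product -/
noncomputable def coef (D : Dat) (a₁ a₂ a₃ M₁ M₂ : ℝ) (c : ℂ) (n : O) : ℂ :=
  cv (wP D.ψ₁ a₁ D.N₁ D.t₁) (cv (wP D.ψ₂ a₂ D.N₂ D.t₂) (sl a₃ D.L)) n -
    c * cv (wP D.ψ₁ a₁ M₁ D.t₁) (cv (wP D.ψ₂ a₂ M₂ D.t₂) (sl a₃ D.L)) n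

/-- the (centred) difference of two products of one-variable shifted sums -/
noncomputable def Del (w₁ w₂ v₁ v₂ : O → ℂ) (c : ℂ) (θ : O → ℂ) (D₁ D₂ : O) : ℂ :=
  Tq w₁ D₁ θ * Tq w₂ D₂ θ - c * (Tq v₁ D₁ θ * Tq v₂ D₂ θ)

end Crest.Agent.R17.M2
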