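import Crest.Agent.R17.M2.Step
import Crest.Agent.R17.C.Point
import Crest.Agent.R17.C.Row

/-! Row 17, block M2 (owner helper24): the theorem `stM2`. -/

set_option autoImplicit false

namespace Crest.Agent.R17.M2

open scoped ComplexConjugate
open Complex

/-- `C.PP_le` with `b = β`, `e/2`, `ε/2`, `H = |s| + log² Z / 2`, `C.zfh_of_zf`;
`(P^(β+e/2))² / P = P^(2β-1+e)`; constant `max (C²) (2C)` -/
theorem drop_of_zf {β e : ℝ} (hβ : 7 / 8 ≤ β) (hβ' : β ≤ 1) (hZF : ZF β) (he : 0 < e) {q : O}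
    (hq : Lev q) : Drop q (2 * β - 1 + e) := by
  intro a ε ha hε
  obtain ⟨K, hK, h⟩ := C.PP_le q a (e / 2) (ε / 2) hq ha (half_pos he) (half_pos hε)
  refine ⟨max (K ^ 2) (2 * K), lt_max_of_lt_right (by positivity), fun x u Z hx hu hE hZ hP hPZ => ?_⟩
  have h1 := h x.ψ u Z x.P x.s β _ hx hu hE hZ hP hPZ (by linarith) hβ' le_rfl (C.zfh_of_zf hZF hq hu _)
  have hZ0 : 0 < Z := (nm_pos hu).trans_le hZ
  have hs : 1 ≤ 1 + |x.s| := le_add_of_nonneg_right (abs_nonneg _)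
  have e1 : (Z ^ (ε / 2)) ^ 2 = Z ^ ε := by rw [pow_two, ← Real.rpow_add hZ0, add_halves]
  have e2 : ((1 + |x.s|) ^ K) ^ 2 = (1 + |x.s|) ^ (2 * K) := by
    rw [pow_two, ← Real.rpow_add (by positivity), two_mul]
  have e3 : (x.P ^ (β + e / 2)) ^ 2 = x.P ^ (2 * β - 1 + e) * x.P := by
    rw [pow_two, ← Real.rpow_add hP, ← Real.rpow_add_one hP.ne']
    congr 1
    ring
  rw [nP, div_le_iff₀ hP]
  refine (pow_le_pow_left₀ (norm_nonneg _) h1 2).trans ?_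
  rw [mul_pow, mul_pow, mul_pow, e1, e2, e3, ← mul_assoc]
  gcongr
  exacts [le_max_left _ _, le_max_right _ _]

end Crest.Agent.R17.M2

namespace Crest.Agent.R17

open M2

/-- `C₀ = 24`; `κ = 2β - 1 + min e 1 ∈ [3/4, 2]`, `Y = P^κ ≤ P²`, `σ' = 3σ/4`, `d = ⌈1/σ'⌉₊`
(`U ≤ Z ≤ Y^d`), `L = List.ofFn fun i => ⟨ψ i, P, s i⟩`, `S = |t₁| + |t₂| + ∑ |s i|`;
`momOn_all`, `mom_mul_X` (`X = N₁ N₂ P^j`, `List.prod_ofFn`) -/
theorem stM2 : StM2 := by
  refine ⟨24, fun β hβ hβ' hZF q a σ e ε j hq ha hσ he hε => ?_⟩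
  have he' : 0 < min e 1 := lt_min he one_pos
  set κ := 2 * β - 1 + min e 1 with hκ
  have hκ1 : 3 / 4 ≤ κ := by linarith
  have hκ2 : κ ≤ 2 := by linarith [min_le_right e 1]
  have hκ3 : κ ≤ 2 * β - 1 + e := by linarith [min_le_left e 1]
  have hσ' : 0 < σ * (3 / 4) := by positivity
  obtain ⟨K, hK, h⟩ := momOn_all (j := j) hq hκ1 hσ' (drop_of_zf hβ hβ' hZF he' hq) ⌈1 / (σ * (3 / 4))⌉₊
    a a a ε ha ha ha hε
  refine ⟨K, fun ψ₁ ψ₂ ψ Z U N₁ N₂ P t₁ t₂ s A h₁ h₂ h₃ hZ hP hN₁ hN₂ hU hUZ hA => ?_⟩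
  have hP1 : 1 ≤ P := (Real.one_le_rpow hZ hσ.le).trans hP
  have hP0 : 0 < P := by linarith
  have hY1 : 1 ≤ P ^ κ := Real.one_le_rpow hP1 (by linarith)
  have hS : 0 ≤ ∑ i, |s i| := Finset.sum_nonneg fun i _ => abs_nonneg _
  set D : Dat := ⟨ψ₁, ψ₂, Z, P ^ κ, U, N₁, N₂, t₁, t₂, |t₁| + |t₂| + ∑ i, |s i|,
    List.ofFn fun i => ⟨ψ i, P, s i⟩⟩ with hD
  have hW : N₁ * N₂ * (P ^ κ) ^ (6 * j) ≤ U := by
    refine le_trans ?_ hU
    rw [← Real.rpow_natCast, ← Real.rpow_mul hP0.le]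
    refine mul_le_mul_of_nonneg_left (Real.rpow_le_rpow_of_exponent_le hP1 ?_) (by positivity)
    push_cast
    nlinarith [mul_le_mul_of_nonneg_right hκ3 (Nat.cast_nonneg (α := ℝ) j)]
  have hZY : Z ^ (σ * (3 / 4)) ≤ P ^ κ := by
    rw [Real.rpow_mul (by linarith)]
    exact (Real.rpow_le_rpow (by positivity) hP (by norm_num)).trans (Real.rpow_le_rpow_of_exponent_le hP1 hκ1)
  have hOK : D.OK q κ (σ * (3 / 4)) j := by
    refine ⟨h₁, h₂, hZ, hY1, hZY, le_trans ?_ hW, hUZ, one_pos.trans_le hN₁, one_pos.trans_le hN₂, ?_, ?_,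
      by simp [hD], fun x hx => ?_⟩
    · exact one_le_mul_of_one_le_of_one_le (one_le_mul_of_one_le_of_one_le hN₁ hN₂) (one_le_pow₀ hY1)
    · simp only [hD]
      linarith [abs_nonneg t₂]
    · simp only [hD]
      linarith [abs_nonneg t₁]
    · obtain ⟨i, rfl⟩ := List.mem_ofFn.1 hx
      refine ⟨h₃ i, hP0, le_rfl, ?_⟩
      simp only [hD]
      linarith [abs_nonneg t₁, abs_nonneg t₂,
        Finset.single_le_sum (f := fun i => |s i|) (fun i _ => abs_nonneg _) (Finset.mem_univ i)]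
  have hH : H0 ⌈1 / (σ * (3 / 4))⌉₊ D := by
    refine ⟨hUZ.trans (le_trans ?_ (pow_le_pow_left₀ (by positivity) hZY _)), ?_⟩
    · rw [← Real.rpow_natCast, ← Real.rpow_mul (by linarith)]
      refine Real.self_le_rpow_of_one_le hZ ?_
      rw [mul_comm, ← div_le_iff₀ hσ']
      exact Nat.le_ceil _
    · simpa [Dat.W, hD, max_eq_left hN₁, max_eq_left hN₂] using hW
  have h1 := mul_le_mul_of_nonneg_right (h D A hOK hH hA) hOK.X_pos.le
  rw [mom_mul_X hOK] at h1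
  have hY : (P ^ κ) ^ 12 ≤ P ^ (24 : ℝ) := by
    rw [← Real.rpow_natCast, ← Real.rpow_mul hP0.le]
    exact Real.rpow_le_rpow_of_exponent_le hP1 (by push_cast; linarith)
  simp only [hD, Dat.X, QL, List.map_ofFn, List.prod_ofFn, Function.comp, Finset.prod_const,
    Finset.card_univ, Fintype.card_fin] at h1
  refine h1.trans ?_
  have hU0 : 0 ≤ U := zero_le_one.trans hOK.hU
  calc _ = K * Z ^ ε * (P ^ κ) ^ 12 * (1 + |t₁| + |t₂| + ∑ i, |s i|) ^ K * (U * N₁ * N₂ * P ^ j) := by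
        simp only [add_assoc, mul_assoc]
    _ ≤ _ := by gcongr

end Crest.Agent.R17

namespace Crest.Agent.R17.M2


end Crest.Agent.R17.M2
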