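import Crest.Agent.R17.M2.Hecke

/-! Row 17, block M2 (owner helper24): bounds from the Hecke identity. -/

set_option autoImplicit false

namespace Crest.Agent.R17.M2

open scoped ComplexConjugate
open Complex

variable {w b θ : O → ℂ} {α : ℝ} {R : O}

theorem card_pdiv_mono {E : O} (hR : R ≠ 0) (h : E ∣ R) : (pdiv E).card ≤ (pdiv R).card := by
  have hE : E ≠ 0 := ne_zero_of_dvd_ne_zero hR h
  refine Finset.card_le_card fun d hd => ?_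
  obtain ⟨h1, h2⟩ := (mem_pdiv hE).1 hd
  exact (mem_pdiv hR).2 ⟨h1, h2.trans h⟩

theorem one_le_card_pdiv (hR : R ≠ 0) : 1 ≤ (pdiv R).card := by
  exact Finset.card_pos.2 ⟨1, (mem_pdiv hR).2 ⟨prim_one, one_dvd _⟩⟩

theorem hkb_sum {ι : Type*} {s : Finset ι} {f : ι → ℂ} {B : ℝ} {n : ℕ} (hB : 0 ≤ B)
    (hn : s.card ≤ n) (h : ∀ i ∈ s, ‖f i‖ ^ 2 ≤ B) : ‖∑ i ∈ s, f i‖ ^ 2 ≤ (n : ℝ) ^ 2 * B := by
  have h1 : ‖∑ i ∈ s, f i‖ ≤ n * √B := by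
    refine (norm_sum_le _ _).trans ?_
    refine (Finset.sum_le_card_nsmul _ _ √B fun i hi => Real.le_sqrt_of_sq_le (h i hi)).trans ?_
    rw [nsmul_eq_mul]
    exact mul_le_mul_of_nonneg_right (Nat.cast_le.2 hn) (Real.sqrt_nonneg _)
  calc ‖∑ i ∈ s, f i‖ ^ 2 ≤ (n * √B) ^ 2 := pow_le_pow_left₀ (norm_nonneg _) h1 2
    _ = (n : ℝ) ^ 2 * B := by rw [mul_pow, Real.sq_sqrt hB]

theorem hkb_sum2 {E : O} (hE : Prim E) (hR : Prim R) (hER : E ∣ R) {f : O × O → O → ℂ} {B : ℝ}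
    (hB : 0 ≤ B) (h : ∀ a c δ, Prim a → Prim c → Prim δ → a * c = E → δ ∣ c → ‖f (a, c) δ‖ ^ 2 ≤ B) :
    ‖∑ p ∈ anti E, ∑ δ ∈ pdiv p.2, f p δ‖ ^ 2 ≤ ((pdiv R).card : ℝ) ^ 4 * B := by
  have h1 := hkb_sum (s := anti E) (f := fun p => ∑ δ ∈ pdiv p.2, f p δ)
    (B := ((pdiv R).card : ℝ) ^ 2 * B) (n := (pdiv R).card) (by positivity)
    ((card_anti hE).trans_le (card_pdiv_mono hR.ne_zero hER)) fun p hp => by
      obtain ⟨h₁, h₂, h₃⟩ := mem_anti.1 hp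
      refine hkb_sum hB (card_pdiv_mono hR.ne_zero (Dvd.dvd.trans ⟨p.1, ?_⟩ hER)) fun δ hδ => ?_
      · rw [← h₃, mul_comm]
      · obtain ⟨h₄, h₅⟩ := (mem_pdiv h₂.ne_zero).1 hδ
        exact h p.1 p.2 δ h₁ h₂ h₄ h₃ h₅
  refine h1.trans (le_of_eq ?_)
  ring

theorem hkb_coef (hθ : Mu α θ) (hα : α ≤ -1 / 2) {δ : O} (hδ : Prim δ) :
    ‖mu δ * θ δ‖ ^ 2 * nm δ ≤ 1 := by
  have h0 := nm_prim_pos hδ
  have h1 : ‖mu δ * θ δ‖ ≤ nm δ ^ (-1 / 2 : ℝ) := by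
    rw [norm_mul]
    refine (mul_le_of_le_one_left (norm_nonneg _) (norm_mu_le _)).trans ((hθ.le δ hδ).trans ?_)
    exact Real.rpow_le_rpow_of_exponent_le (one_le_nm_prim hδ) hα
  calc ‖mu δ * θ δ‖ ^ 2 * nm δ ≤ (nm δ ^ (-1 / 2 : ℝ)) ^ 2 * nm δ :=
        mul_le_mul_of_nonneg_right (pow_le_pow_left₀ (norm_nonneg _) h1 2) h0.le
    _ = 1 := by
        rw [← Real.rpow_natCast, ← Real.rpow_mul h0.le]
        norm_num
        rw [Real.rpow_neg_one, inv_mul_cancel₀ h0.ne']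

/-- every term of `hecke` has square norm at most `N(δ)⁻¹ · M N(d δ) · M' N(E) = M M' N(R)`, and there
are at most `card ^ 2` terms (`card_anti`) -/
theorem hecke_le (hw : Dec w) (hb : Dec b) (hθ : Mu α θ) (hα : α ≤ -1 / 2) (hR : Prim R) {M M' : ℝ}
    (hM : 0 ≤ M) (hM' : 0 ≤ M') (h1 : ∀ D, Prim D → D ∣ R → ‖Tq w D θ‖ ^ 2 ≤ M * nm D)
    (h2 : ∀ E, Prim E → E ∣ R → ‖Tq b E θ‖ ^ 2 ≤ M' * nm E) :
    ‖Tq (cv w b) R θ‖ ^ 2 ≤ ((pdiv R).card : ℝ) ^ 4 * (M * M') * nm R := by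
  rw [hecke hw hb hθ hR, mul_assoc]
  refine hkb_sum2 hR hR dvd_rfl (f := fun p δ => mu δ * θ δ * Tq w (p.1 * δ) θ * Tq b p.2 θ)
    (mul_nonneg (mul_nonneg hM hM') (nm_nonneg _)) fun a c δ ha hc hδ hac hδc => ?_
  have e1 := h1 (a * δ) (ha.mul hδ) (hac ▸ mul_dvd_mul_left a hδc)
  have e2 := h2 c hc (hac ▸ dvd_mul_left _ _)
  have e3 := hkb_coef hθ hα hδ
  have n1 := nm_nonneg a
  have n2 := nm_nonneg c
  have n3 := nm_nonneg δ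
  simp only
  rw [norm_mul, norm_mul _ (Tq _ _ _), mul_pow, mul_pow, ← hac, nm_mul]
  rw [nm_mul] at e1
  calc ‖mu δ * θ δ‖ ^ 2 * ‖Tq w (a * δ) θ‖ ^ 2 * ‖Tq b c θ‖ ^ 2
      ≤ ‖mu δ * θ δ‖ ^ 2 * (M * (nm a * nm δ)) * (M' * nm c) := by gcongr
    _ = (‖mu δ * θ δ‖ ^ 2 * nm δ) * (M * M' * (nm a * nm c)) := by ring
    _ ≤ 1 * (M * M' * (nm a * nm c)) := by gcongr
    _ = _ := one_mul _

/-- induction on the list, `Tq_nil`, `hecke_le` at `E`, `card_pdiv_mono` -/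
theorem heckeL_le {ι : Type} (I : List ι) (v : ι → O → ℂ) (M : ι → ℝ) (hθ : Mu α θ)
    (hα : α ≤ -1 / 2) (hR : Prim R)
    (h : ∀ i ∈ I, Dec (v i) ∧ 0 ≤ M i ∧ ∀ D, Prim D → D ∣ R → ‖Tq (v i) D θ‖ ^ 2 ≤ M i * nm D) :
    ∀ E, Prim E → E ∣ R → ‖Tq (cvL (I.map v)) E θ‖ ^ 2 ≤
      ((pdiv R).card : ℝ) ^ (4 * I.length) * (I.map M).prod * nm E := by
  induction I with
  | nil =>
    intro E hE _
    have h1 := one_le_nm_prim hE
    simp only [List.map_nil, List.length_nil, mul_zero, pow_zero, List.prod_nil, one_mul]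
    rw [Tq_nil hθ hE]
    split_ifs
    · simpa using h1
    · simpa using zero_le_one.trans h1
  | cons i I ih =>
    intro E hE hER
    have h' : ∀ j ∈ I, Dec (v j) ∧ 0 ≤ M j ∧
        ∀ D, Prim D → D ∣ R → ‖Tq (v j) D θ‖ ^ 2 ≤ M j * nm D :=
      fun j hj => h j (List.mem_cons_of_mem _ hj)
    obtain ⟨d1, m1, t1⟩ := h i List.mem_cons_self
    have hp : 0 ≤ (I.map M).prod := List.prod_nonneg fun x hx => by
      obtain ⟨j, hj, rfl⟩ := List.mem_map.1 hx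
      exact (h' j hj).2.1
    have hd : Dec (cvL (I.map v)) := dec_cvL fun x hx => by
      obtain ⟨j, hj, rfl⟩ := List.mem_map.1 hx
      exact (h' j hj).1
    have h3 := hecke_le (M := M i) (M' := ((pdiv R).card : ℝ) ^ (4 * I.length) * (I.map M).prod)
      d1 hd hθ hα hE m1 (by positivity) (fun D hD hDE => t1 D hD (hDE.trans hER))
      fun D hD hDE => ih h' D hD (hDE.trans hER)
    have h4 : ((pdiv E).card : ℝ) ≤ (pdiv R).card := Nat.cast_le.2 (card_pdiv_mono hR.ne_zero hER)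
    have n1 := nm_nonneg E
    simp only [List.map_cons, List.length_cons, List.prod_cons, cvL]
    refine h3.trans ?_
    calc ((pdiv E).card : ℝ) ^ 4 * (M i * (((pdiv R).card : ℝ) ^ (4 * I.length) * (I.map M).prod)) *
          nm E ≤ ((pdiv R).card : ℝ) ^ 4 *
            (M i * (((pdiv R).card : ℝ) ^ (4 * I.length) * (I.map M).prod)) * nm E := by gcongr
      _ = _ := by ring

/-- `hecke` twice for both products; the coefficients are the same, so the difference is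
`∑ mu δ₁ θ δ₁ mu δ₂ θ δ₂ · Del (d₁ δ₁) (d₂ δ₂) · Tq b E θ`, at most `card ^ 4` terms -/
theorem hecke2_le {w₁ w₂ v₁ v₂ : O → ℂ} (hw₁ : Dec w₁) (hw₂ : Dec w₂) (hv₁ : Dec v₁) (hv₂ : Dec v₂)
    (hb : Dec b) (hθ : Mu α θ) (hα : α ≤ -1 / 2) (hR : Prim R) (c : ℂ) {M M' : ℝ}
    (hM : 0 ≤ M) (hM' : 0 ≤ M')
    (h1 : ∀ D₁ D₂, Prim D₁ → Prim D₂ → D₁ ∣ R → D₂ ∣ R →
      ‖Del w₁ w₂ v₁ v₂ c θ D₁ D₂‖ ^ 2 ≤ M * (nm D₁ * nm D₂))
    (h2 : ∀ E, Prim E → E ∣ R → ‖Tq b E θ‖ ^ 2 ≤ M' * nm E) :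
    ‖Tq (cv w₁ (cv w₂ b)) R θ - c * Tq (cv v₁ (cv v₂ b)) R θ‖ ^ 2 ≤
      ((pdiv R).card : ℝ) ^ 8 * (M * M') * nm R := by
  have key : Tq (cv w₁ (cv w₂ b)) R θ - c * Tq (cv v₁ (cv v₂ b)) R θ =
      ∑ p ∈ anti R, ∑ δ ∈ pdiv p.2, ∑ p' ∈ anti p.2, ∑ δ' ∈ pdiv p'.2,
        mu δ * θ δ * (mu δ' * θ δ') * Del w₁ w₂ v₁ v₂ c θ (p.1 * δ) (p'.1 * δ') * Tq b p'.2 θ := by
    rw [hecke hw₁ (hw₂.cv hb) hθ hR, hecke hv₁ (hv₂.cv hb) hθ hR, Finset.mul_sum,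
      ← Finset.sum_sub_distrib]
    refine Finset.sum_congr rfl fun p hp => ?_
    have h₂ := (mem_anti.1 hp).2.1
    rw [Finset.mul_sum, ← Finset.sum_sub_distrib]
    refine Finset.sum_congr rfl fun δ _ => ?_
    rw [hecke hw₂ hb hθ h₂, hecke hv₂ hb hθ h₂, Finset.mul_sum, Finset.mul_sum, Finset.mul_sum,
      ← Finset.sum_sub_distrib]
    refine Finset.sum_congr rfl fun p' _ => ?_
    rw [Finset.mul_sum, Finset.mul_sum, Finset.mul_sum, ← Finset.sum_sub_distrib]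
    refine Finset.sum_congr rfl fun δ' _ => ?_
    unfold Del
    ring
  have hB : 0 ≤ M * M' * nm R := mul_nonneg (mul_nonneg hM hM') (nm_nonneg _)
  have h3 := hkb_sum2 hR hR dvd_rfl (B := ((pdiv R).card : ℝ) ^ 4 * (M * M' * nm R))
    (f := fun p δ => ∑ p' ∈ anti p.2, ∑ δ' ∈ pdiv p'.2,
        mu δ * θ δ * (mu δ' * θ δ') * Del w₁ w₂ v₁ v₂ c θ (p.1 * δ) (p'.1 * δ') * Tq b p'.2 θ)
    (by positivity) fun a e δ ha he hδ hae hδe => by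
      have heR : e ∣ R := hae ▸ dvd_mul_left _ _
      refine hkb_sum2 he hR heR (f := fun p' δ' =>
        mu δ * θ δ * (mu δ' * θ δ') * Del w₁ w₂ v₁ v₂ c θ (a * δ) (p'.1 * δ') * Tq b p'.2 θ)
        hB fun a' e' δ' ha' he' hδ' hae' hδe' => ?_
      have e1 := h1 (a * δ) (a' * δ') (ha.mul hδ) (ha'.mul hδ') (hae ▸ mul_dvd_mul_left a hδe)
        (Dvd.dvd.trans (hae' ▸ mul_dvd_mul_left a' hδe') heR)
      have e2 := h2 e' he' (Dvd.dvd.trans (hae' ▸ dvd_mul_left _ _) heR)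
      have e3 := hkb_coef hθ hα hδ
      have e4 := hkb_coef hθ hα hδ'
      have n1 := nm_nonneg a
      have n2 := nm_nonneg a'
      have n3 := nm_nonneg δ
      have n4 := nm_nonneg δ'
      have n5 := nm_nonneg e'
      simp only
      rw [norm_mul, norm_mul _ (Del _ _ _ _ _ _ _ _), norm_mul (mu δ * θ δ), mul_pow, mul_pow,
        mul_pow, ← hae, ← hae', nm_mul, nm_mul]
      rw [nm_mul, nm_mul] at e1
      calc ‖mu δ * θ δ‖ ^ 2 * ‖mu δ' * θ δ'‖ ^ 2 * ‖Del w₁ w₂ v₁ v₂ c θ (a * δ) (a' * δ')‖ ^ 2 *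
            ‖Tq b e' θ‖ ^ 2 ≤ ‖mu δ * θ δ‖ ^ 2 * ‖mu δ' * θ δ'‖ ^ 2 *
              (M * (nm a * nm δ * (nm a' * nm δ'))) * (M' * nm e') := by gcongr
        _ = (‖mu δ * θ δ‖ ^ 2 * nm δ) * (‖mu δ' * θ δ'‖ ^ 2 * nm δ') *
              (M * M' * (nm a * (nm a' * nm e'))) := by ring
        _ ≤ 1 * 1 * (M * M' * (nm a * (nm a' * nm e'))) := by gcongr
        _ = _ := by ring
  rw [key]
  refine h3.trans (le_of_eq ?_)
  ring


end Crest.Agent.R17.M2
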