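import Crest.Agent.R17.M2.Core
import Crest.Agent.R17.M2.Child

/-! Row 17, block M2 (owner helper24): the recursion step for short and for centred products. -/

set_option autoImplicit false

namespace Crest.Agent.R17.M2

open scoped ComplexConjugate
open Complex

variable {q : O} {κ σ : ℝ} {j d : ℕ}

/-- `η = min (1/100) (ε / (4j + 60))`; `core` with `maj_coef` (`B = C Z^η`) and `child_coef`;
`X ≤ W ≤ U ≤ Z`, `Y ≤ Y^12 ≤ Z`; `Y⁵ X² · U^(1/6) / (Y Λ) ≤ Y⁵ U X` -/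
theorem main_coef (hq : Lev q) (hκ : 3 / 4 ≤ κ) (hM : MaxP q κ σ j d) {a₁ a₂ a₃ ε : ℝ}
    (h₁ : 0 < a₁) (h₂ : 0 < a₂) (h₃ : 0 < a₃) (hε : 0 < ε) : ∃ C : ℝ, 0 < C ∧
    ∀ (D : Dat) (M₁ M₂ Λ : ℝ) (c : ℂ) (A : Finset O), D.OK q κ σ j → H1 d D → Cen D M₁ M₂ Λ c →
      D.X ≤ D.U ^ (5 / 6 : ℝ) * D.Y * Λ → (∀ k ∈ A, nm k ≤ D.U) →
      ∑ k ∈ A, ‖Sp false (coef D a₁ a₂ a₃ M₁ M₂ c) k‖ ^ 2 ≤
        C * D.Z ^ ε * D.Y ^ 12 * (1 + D.S) ^ C * D.U * D.X := by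
  obtain ⟨η, hη, hη', hηε⟩ : ∃ η : ℝ, 0 < η ∧ η ≤ 1 / 100 ∧ (4 * j + 60) * η ≤ ε := by
    refine ⟨min (1 / 100) (ε / (4 * j + 60)), lt_min (by norm_num) (by positivity),
      min_le_left _ _, ?_⟩
    rw [mul_comm, ← le_div_iff₀ (by positivity)]
    exact min_le_right _ _
  obtain ⟨b, Cb, hb, hCb, Hb⟩ := maj_coef (σ := σ) hq hκ j h₁ h₂ h₃ hη
  obtain ⟨Cc, hCc, Hc⟩ := child_coef hq hκ hM h₁ h₂ h₃ hη hη'
  obtain ⟨C0, hC0, H0⟩ := core hb hη hη' hCc.le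
  refine ⟨C0 * (2 * Cb ^ 2 + 2 * Cc) + Cc, by positivity,
    fun D M₁ M₂ Λ c A hD hH hc hX hA => ?_⟩
  obtain ⟨hm, ho⟩ := Hb D M₁ M₂ Λ c hD hH.2.2 hc
  have hX0 := hD.X_pos
  have hY := hD.hY
  have hZ := hD.hZ
  have hU := hD.hU
  have hS := hD.S_nonneg
  have hΛ := hc.posΛ
  have hY0 : 0 < D.Y := by linarith
  have hZ0 : 0 < D.Z := by linarith
  have hU0 : 0 < D.U := by linarith
  have hXU : D.X ≤ D.U := (hD.X_le_W hκ).trans hH.2.2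
  have hYZ : D.Y ≤ D.Z :=
    ((le_self_pow₀ hY (by norm_num : (12 : ℕ) ≠ 0)).trans hH.1).trans hD.hUZ
  have h := H0 _ D.X _ D.U D.Y D.Z _ A hU hD.hUZ hX0 (hXU.trans hD.hUZ) hY hYZ (by positivity)
    (by positivity) hm ho (Hc D M₁ M₂ Λ c hD hH hc) hA
  refine h.trans ?_
  obtain ⟨E, hE⟩ : ∃ E, E = D.Z ^ ((4 * j + 11) * η) := ⟨_, rfl⟩
  obtain ⟨T, hT⟩ : ∃ T, T = (1 + D.S) ^ Cc := ⟨_, rfl⟩
  rw [← hE, ← hT]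
  have hT1 : 1 ≤ T := hT ▸ Real.one_le_rpow (by linarith) hCc.le
  have hE0 : 0 < E := hE ▸ by positivity
  have hj : (0 : ℝ) ≤ j := Nat.cast_nonneg j
  have hB : (D.Z ^ η) ^ 2 ≤ E := by
    rw [hE, ← Real.rpow_natCast, ← Real.rpow_mul hZ0.le]
    refine Real.rpow_le_rpow_of_exponent_le hZ ?_
    push_cast
    nlinarith
  have hEε : D.Z ^ (43 * η) * E ≤ D.Z ^ ε := by
    rw [hE, ← Real.rpow_add hZ0]
    refine Real.rpow_le_rpow_of_exponent_le hZ ?_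
    nlinarith
  have hTC : T ≤ (1 + D.S) ^ (C0 * (2 * Cb ^ 2 + 2 * Cc) + Cc) := by
    rw [hT]
    refine Real.rpow_le_rpow_of_exponent_le (by linarith) (le_add_of_nonneg_left (by positivity))
  have h12 : 1 ≤ D.Y ^ 12 := one_le_pow₀ hY
  have h5 : D.Y ^ 5 ≤ D.Y ^ 12 := pow_le_pow_right₀ hY (by norm_num)
  have hq1 : D.X * (D.U ^ (1 / 6 : ℝ) / (D.Y * Λ)) ≤ D.U := by
    rw [← mul_div_assoc, div_le_iff₀ (by positivity)]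
    have e : D.U ^ (5 / 6 : ℝ) * D.U ^ (1 / 6 : ℝ) = D.U := by
      rw [← Real.rpow_add hU0]
      norm_num
    calc D.X * D.U ^ (1 / 6 : ℝ) ≤ D.U ^ (5 / 6 : ℝ) * D.Y * Λ * D.U ^ (1 / 6 : ℝ) := by gcongr
      _ = D.U ^ (5 / 6 : ℝ) * D.U ^ (1 / 6 : ℝ) * (D.Y * Λ) := by ring
      _ = _ := by rw [e]
  obtain ⟨V, hV⟩ : ∃ V, V = E * D.Y ^ 12 * T * D.U * D.X := ⟨_, rfl⟩
  have t1 : (Cb * D.Z ^ η) ^ 2 * D.U * D.X ≤ Cb ^ 2 * V := by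
    calc _ = Cb ^ 2 * ((D.Z ^ η) ^ 2 * 1 * 1 * D.U * D.X) := by ring
      _ ≤ _ := by rw [hV]; gcongr
  have t2 : (Cb * D.Z ^ η) ^ 2 * D.Y ^ 5 * D.X ^ 2 ≤ Cb ^ 2 * V := by
    calc _ = Cb ^ 2 * ((D.Z ^ η) ^ 2 * D.Y ^ 5 * 1 * D.X * D.X) := by ring
      _ ≤ _ := by rw [hV]; gcongr
  have t3 : D.Y ^ 5 * D.X ^ 2 *
      (Cc * E * T * (D.Y ^ 7 * D.U / D.X + D.U ^ (1 / 6 : ℝ) / (D.Y * Λ))) ≤ 2 * Cc * V := by
    calc _ = Cc * (E * D.Y ^ 12 * T * D.U * D.X) +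
          Cc * (E * D.Y ^ 5 * T * (D.X * (D.U ^ (1 / 6 : ℝ) / (D.Y * Λ))) * D.X) := by
          field_simp
      _ ≤ Cc * V + Cc * V := by rw [hV]; gcongr
      _ = _ := by ring
  have hV0 : 0 ≤ V := hV ▸ by positivity
  calc _ ≤ C0 * D.Z ^ (43 * η) * ((2 * Cb ^ 2 + 2 * Cc) * V) := by
        refine mul_le_mul_of_nonneg_left ?_ (by positivity)
        linarith
    _ = C0 * (2 * Cb ^ 2 + 2 * Cc) * (D.Z ^ (43 * η) * E) * D.Y ^ 12 * T * D.U * D.X := by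
        rw [hV]; ring
    _ ≤ _ := by
        gcongr
        linarith

theorem mainm_prod (a : ℝ) (k : O) {L : List Slot} (h : ∀ x ∈ L, 0 < x.P) :
    (L.map (nP a k)).prod * QL L = ‖(L.map fun x => PP (rc x.ψ k) a x.P x.s).prod‖ ^ 2 := by
  induction L with
  | nil => simp [QL]
  | cons y L ih =>
    have h1 := ih fun x hx => h x (List.mem_cons_of_mem _ hx)
    have h2 := (h y List.mem_cons_self).ne'
    have h4 : QL (y :: L) = y.P * QL L := by simp [QL]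
    rw [h4, List.map_cons, List.prod_cons, List.map_cons, List.prod_cons, norm_mul, mul_pow, ← h1,
      nP]
    field_simp

/-- the moment in unnormalised form -/
theorem mom_mul_X {D : Dat} (hD : D.OK q κ σ j) (a₁ a₂ a₃ : ℝ) (A : Finset O) :
    D.mom a₁ a₂ a₃ A * D.X = ∑ k ∈ A, ‖PS (rc D.ψ₁ k) a₁ D.N₁ D.t₁ * PS (rc D.ψ₂ k) a₂ D.N₂ D.t₂ *
      (D.L.map fun x => PP (rc x.ψ k) a₃ x.P x.s).prod‖ ^ 2 := by
  rw [Dat.mom, Finset.sum_mul]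
  refine Finset.sum_congr rfl fun k _ => ?_
  have h1 := hD.pos₁.ne'
  have h2 := hD.pos₂.ne'
  rw [norm_mul, norm_mul, mul_pow, mul_pow, ← mainm_prod a₃ k fun x hx => (hD.slot x hx).pos,
    nS, nS, Dat.X]
  field_simp

/-- short products: `c = 0`, `Λ = 1`, `M_i = N_i`; `Sp_coef`, `mom_mul_X` -/
theorem momOn_alpha (hq : Lev q) (hκ : 3 / 4 ≤ κ) (hM : MaxP q κ σ j d) :
    MomOn q κ σ j 12 fun D => H1 d D ∧ D.X ≤ D.U ^ (5 / 6 : ℝ) * D.Y := by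
  intro a₁ a₂ a₃ ε h₁ h₂ h₃ hε
  obtain ⟨C, hC, H⟩ := main_coef hq hκ hM h₁ h₂ h₃ hε
  refine ⟨C, hC, fun D A hD hH hA => ?_⟩
  have hc : Cen D D.N₁ D.N₂ 1 0 :=
    ⟨hD.pos₁, hD.pos₂, rfl, hH.1.2.2, one_pos, Or.inl ⟨rfl, rfl⟩⟩
  have h := H D _ _ _ _ A hD hH.1 hc (by rw [mul_one]; exact hH.2) fun k hk => (hA k hk).2.2
  refine le_of_mul_le_mul_right (le_trans (le_of_eq ?_) h) hD.X_pos
  rw [mom_mul_X hD]
  refine Finset.sum_congr rfl fun k _ => ?_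
  rw [Sp_coef hq hD h₁ h₂ h₃ hD.pos₁ hD.pos₂, zero_mul, sub_zero]

/-- centred products: `c = 1`, `Λ = M₁ = U^(1/6)`, `M₂ = N₁ N₂ / U^(1/6)`; `X ≤ U = U^(5/6) Λ`;
`‖F‖² ≤ 2‖F - F'‖² + 2‖F'‖²`, and `F'` is the product for `{D with N₁ := M₁, N₂ := M₂}` (`Cen.ok`) -/
theorem momOn_gamma (hq : Lev q) (hκ : 3 / 4 ≤ κ) (hM : MaxP q κ σ j d)
    (hβ : MomOn q κ σ j 12 fun D =>
      H1 d D ∧ D.U ^ (5 / 6 : ℝ) ≤ D.X ∧ D.N₁ ≤ D.U ^ (1 / 6 : ℝ)) :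
    MomOn q κ σ j 12 fun D => H1 d D ∧ D.U ^ (5 / 6 : ℝ) ≤ D.X ∧
      D.U ^ (1 / 6 : ℝ) ≤ D.N₁ ∧ D.U ^ (1 / 6 : ℝ) ≤ D.N₂ := by
  intro a₁ a₂ a₃ ε h₁ h₂ h₃ hε
  obtain ⟨C, hC, H⟩ := main_coef hq hκ hM h₁ h₂ h₃ hε
  obtain ⟨C', hC', H'⟩ := hβ a₁ a₂ a₃ ε h₁ h₂ h₃ hε
  refine ⟨2 * C + 2 * C', by positivity, fun D A hD hH hA => ?_⟩
  obtain ⟨hH, hX, hN₁, hN₂⟩ := hH
  have hU0 : 0 < D.U := lt_of_lt_of_le one_pos hD.hU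
  have e : D.U ^ (5 / 6 : ℝ) * D.U ^ (1 / 6 : ℝ) = D.U := by
    rw [← Real.rpow_add hU0]
    norm_num
  have h56 : 0 < D.U ^ (5 / 6 : ℝ) := by positivity
  have hΛ1 : 1 ≤ D.U ^ (1 / 6 : ℝ) := Real.one_le_rpow hD.hU (by norm_num)
  obtain ⟨Λ, hΛ⟩ : ∃ Λ, Λ = D.U ^ (1 / 6 : ℝ) := ⟨_, rfl⟩
  rw [← hΛ] at hN₁ hN₂ e hΛ1
  have hΛ0 : 0 < Λ := by linarith
  have hp₁ := hD.pos₁
  have hp₂ := hD.pos₂
  have hM₂ : Λ ≤ D.N₁ * D.N₂ / Λ := by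
    rw [le_div_iff₀ hΛ0]
    gcongr
  have hpr : Λ * (D.N₁ * D.N₂ / Λ) = D.N₁ * D.N₂ := by field_simp
  have hc : Cen D Λ (D.N₁ * D.N₂ / Λ) Λ 1 := by
    refine ⟨hΛ0, by positivity, hpr, le_trans ?_ hH.2.2, hΛ0,
      Or.inr ⟨rfl, hN₁, hN₂, le_rfl, hM₂⟩⟩
    rw [max_eq_left hΛ1, max_eq_left (hΛ1.trans hM₂), hpr, Dat.W,
      max_eq_left (hΛ1.trans hN₁), max_eq_left (hΛ1.trans hN₂)]
  have hXY : D.X ≤ D.U ^ (5 / 6 : ℝ) * D.Y * Λ := by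
    have hY := hD.hY
    calc D.X ≤ D.U := (hD.X_le_W hκ).trans hH.2.2
      _ = D.U ^ (5 / 6 : ℝ) * 1 * Λ := by rw [mul_one, e]
      _ ≤ _ := by gcongr
  have h := H D _ _ _ _ A hD hH hc hXY fun k hk => (hA k hk).2.2
  obtain ⟨k1, k2, k3⟩ := hc.ok hD
  have h' := H' _ A k1 ⟨⟨hH.1, hH.2.1, k2⟩, by rw [k3]; exact hX, hΛ.le⟩ hA
  have h'' := mom_mul_X k1 a₁ a₂ a₃ A
  rw [k3] at h''
  have hX0 := hD.X_pos
  have h3 := mul_le_mul_of_nonneg_right h' hX0.le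
  rw [h''] at h3
  dsimp only at h3
  refine le_of_mul_le_mul_right ?_ hX0
  rw [mom_mul_X hD]
  have hS : 1 ≤ 1 + D.S := by linarith [hD.S_nonneg]
  have hZ0 : 0 < D.Z := lt_of_lt_of_le one_pos hD.hZ
  have hY0 : 0 < D.Y := lt_of_lt_of_le one_pos hD.hY
  have p1 : (1 + D.S) ^ C ≤ (1 + D.S) ^ (2 * C + 2 * C') :=
    Real.rpow_le_rpow_of_exponent_le hS (by linarith)
  have p2 : (1 + D.S) ^ C' ≤ (1 + D.S) ^ (2 * C + 2 * C') :=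
    Real.rpow_le_rpow_of_exponent_le hS (by linarith)
  calc _ ≤ ∑ k ∈ A, (2 * ‖Sp false (coef D a₁ a₂ a₃ Λ (D.N₁ * D.N₂ / Λ) 1) k‖ ^ 2 +
        2 * ‖PS (rc D.ψ₁ k) a₁ Λ D.t₁ * PS (rc D.ψ₂ k) a₂ (D.N₁ * D.N₂ / Λ) D.t₂ *
          (D.L.map fun x => PP (rc x.ψ k) a₃ x.P x.s).prod‖ ^ 2) := by
        refine Finset.sum_le_sum fun k _ => ?_
        rw [Sp_coef hq hD h₁ h₂ h₃ hc.pos₁ hc.pos₂, one_mul]
        have key : ∀ x y p : ℂ, ‖x * p‖ ^ 2 ≤ 2 * ‖(x - y) * p‖ ^ 2 + 2 * ‖y * p‖ ^ 2 := by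
          intro x y p
          have i1 : ‖x * p‖ ≤ ‖(x - y) * p‖ + ‖y * p‖ := by
            refine le_trans (le_of_eq ?_) (norm_add_le _ _)
            congr 1
            ring
          have i2 := pow_le_pow_left₀ (norm_nonneg _) i1 2
          nlinarith [sq_nonneg (‖(x - y) * p‖ - ‖y * p‖)]
        exact key _ _ _
    _ ≤ 2 * (C * D.Z ^ ε * D.Y ^ 12 * (1 + D.S) ^ C * D.U * D.X) +
        2 * (C' * D.Z ^ ε * D.Y ^ 12 * (1 + D.S) ^ C' * D.U * D.X) := by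
        rw [Finset.sum_add_distrib, ← Finset.mul_sum, ← Finset.mul_sum]
        gcongr
    _ ≤ 2 * (C * D.Z ^ ε * D.Y ^ 12 * (1 + D.S) ^ (2 * C + 2 * C') * D.U * D.X) +
        2 * (C' * D.Z ^ ε * D.Y ^ 12 * (1 + D.S) ^ (2 * C + 2 * C') * D.U * D.X) := by
        gcongr
    _ = _ := by ring


end Crest.Agent.R17.M2
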