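import Crest.Agent.R17.M2.Triv

/-! Row 17, block M2 (owner helper24): the maximal inequality (row-dependent centres). -/

set_option autoImplicit false

namespace Crest.Agent.R17.M2

open scoped ComplexConjugate
open Complex

variable {q : O} {κ σ : ℝ} {j d : ℕ}

/-- Classes `r u = ⌊log (N / M u)⌋₊ ≤ 8 log Z` (`Finset.sum_fiberwise_of_maps_to`); in the class `r`
use `sum_twist` with `b = 2a`, `D = 1`, `T = 0`, `Y₀ = N e^(-r)`, `c k = fun n : Pr => rc ψ k n`,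
`σ k = 2` (`adm_Pr`, `PS_eq_SS`), weight `g k / Y₀`, and `1 / M u ≤ e / Y₀`; subsums of the hypothesis
are smaller (`nS_nonneg`); `one_add_log_rpow_le`. -/
theorem max0 {a m ε : ℝ} (ha : 0 < a) (hm : 0 ≤ m) (hε : 0 < ε) : ∃ C : ℝ, 0 < C ∧
    ∀ (ψ : O → ℂ) (Z N t E : ℝ) (A : Finset O) (g M : O → ℝ), (∀ n, ‖ψ n‖ ≤ 1) → 1 ≤ Z → 0 < N →
      0 ≤ E → (∀ u ∈ A, 0 ≤ g u ∧ N / Z ^ 8 ≤ M u ∧ M u ≤ N) →
      (∀ N' τ : ℝ, 0 < N' → N' ≤ N → ∑ u ∈ A, g u * nS ψ (2 * a) N' τ u ≤ E * (1 + |τ|) ^ m) →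
      ∑ u ∈ A, g u * nS ψ a (M u) t u ≤ C * Z ^ ε * E * (1 + |t|) ^ m := by
  obtain ⟨C₁, hC₁, h₁⟩ := sum_twist (a := a) (b := 2 * a) ha (by linarith) hm 1
  obtain ⟨C₂, hC₂, h₂⟩ := one_add_log_rpow_le 1 hε
  refine ⟨8 * C₂ * (Real.exp 1 * C₁), by positivity, fun ψ Z N t E A g M hψ hZ hN hE hA hM => ?_⟩
  have hL : 0 ≤ Real.log Z := Real.log_nonneg hZ
  have hMp : ∀ u ∈ A, 0 < M u := fun u hu => lt_of_lt_of_le (by positivity) (hA u hu).2.1
  have hlog : ∀ u ∈ A, 0 ≤ Real.log (N / M u) ∧ Real.log (N / M u) ≤ 8 * Real.log Z := by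
    intro u hu
    have hp := hMp u hu
    refine ⟨Real.log_nonneg ((one_le_div hp).2 (hA u hu).2.2), ?_⟩
    have h1 : N / M u ≤ Z ^ 8 := by
      have := (hA u hu).2.1
      rw [div_le_iff₀ (by positivity)] at this
      rw [div_le_iff₀ hp]; linarith
    refine (Real.log_le_log (by positivity) h1).trans_eq ?_
    rw [Real.log_pow]; norm_num
  rw [← Finset.sum_fiberwise_of_maps_to (g := fun u => ⌊Real.log (N / M u)⌋₊)
    (t := Finset.range (⌊8 * Real.log Z⌋₊ + 1))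
    (fun u hu => Finset.mem_range.2 (Nat.lt_succ_of_le (Nat.floor_mono (hlog u hu).2)))]
  have key : ∀ r : ℕ, ∑ u ∈ A with ⌊Real.log (N / M u)⌋₊ = r, g u * nS ψ a (M u) t u ≤
      Real.exp 1 * C₁ * E * (1 + |t|) ^ m := by
    intro r
    set Y₀ := N * Real.exp (-(r : ℝ)) with hY₀
    have hY : 0 < Y₀ := by positivity
    have hYN : Y₀ ≤ N :=
      mul_le_of_le_one_right hN.le (Real.exp_le_one_iff.2 (by simp))
    have hl : ∀ u ∈ A.filter (fun u => ⌊Real.log (N / M u)⌋₊ = r),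
        |Real.log (M u / Y₀)| ≤ 1 := by
      intro u hu
      obtain ⟨hu, hr⟩ := Finset.mem_filter.1 hu
      have hp := hMp u hu
      have e : Real.log (M u / Y₀) = r - Real.log (N / M u) := by
        rw [Real.log_div hp.ne' hY.ne', Real.log_div hN.ne' hp.ne', hY₀,
          Real.log_mul hN.ne' (Real.exp_pos _).ne', Real.log_exp]
        ring
      have h1 := Nat.floor_le (hlog u hu).1
      have h2 := Nat.lt_floor_add_one (Real.log (N / M u))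
      rw [hr] at h1 h2
      rw [e, abs_le]
      constructor <;> linarith
    have h3 := h₁ (A.filter (fun u => ⌊Real.log (N / M u)⌋₊ = r)) (fun u => g u / Y₀)
      (fun k (n : Pr) => rc ψ k n) (fun _ n => nm n) (fun _ => 2) M (fun _ => t) Y₀ t 0 E hY le_rfl
      (fun k hk => ⟨div_nonneg (hA k (Finset.mem_filter.1 hk).1).1 hY.le,
        adm_Pr one_lt_two fun n => norm_rc_le' hψ k n, hMp k (Finset.mem_filter.1 hk).1, hl k hk,
        by simp⟩)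
      (fun τ => by
        refine le_trans ?_ (hM Y₀ τ hY hYN)
        refine le_trans (le_of_eq (Finset.sum_congr rfl fun k _ => ?_))
          (Finset.sum_le_sum_of_subset_of_nonneg (Finset.filter_subset _ _)
            fun k hk _ => mul_nonneg (hA k hk).1 (nS_nonneg _ _ _ _ hY))
        rw [nS, PS_eq_SS]; ring)
    simp only [add_zero, mul_one] at h3
    calc ∑ u ∈ A with ⌊Real.log (N / M u)⌋₊ = r, g u * nS ψ a (M u) t u
        ≤ ∑ u ∈ A with ⌊Real.log (N / M u)⌋₊ = r, Real.exp 1 * (g u / Y₀ *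
          ‖SS (fun n : Pr => rc ψ u n) (fun n => nm n) a (M u) t‖ ^ 2) := by
          refine Finset.sum_le_sum fun u hu => ?_
          have hp := hMp u (Finset.mem_filter.1 hu).1
          have hg := (hA u (Finset.mem_filter.1 hu).1).1
          have h4 : Y₀ ≤ Real.exp 1 * M u := by
            have h5 : Real.log (Y₀ / M u) ≤ 1 := by
              rw [← inv_div, Real.log_inv]
              exact (neg_le_abs _).trans (hl u hu)
            rw [Real.log_le_iff_le_exp (by positivity), div_le_iff₀ hp] at h5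
            exact h5
          have h6 : (M u)⁻¹ ≤ Real.exp 1 / Y₀ := by
            rw [le_div_iff₀ hY, inv_mul_le_iff₀ hp, mul_comm]; exact h4
          rw [nS, PS_eq_SS, div_eq_mul_inv]
          calc g u * (‖SS (fun n : Pr => rc ψ u n) (fun n => nm n) a (M u) t‖ ^ 2 * (M u)⁻¹)
              ≤ g u * (‖SS (fun n : Pr => rc ψ u n) (fun n => nm n) a (M u) t‖ ^ 2 *
                (Real.exp 1 / Y₀)) := by gcongr
            _ = _ := by ring
      _ ≤ Real.exp 1 * (C₁ * E * (1 + |t|) ^ m) := by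
          rw [← Finset.mul_sum]; gcongr
      _ = _ := by ring
  refine (Finset.sum_le_sum fun r _ => key r).trans ?_
  rw [Finset.sum_const, Finset.card_range, nsmul_eq_mul]
  have h7 : ((⌊8 * Real.log Z⌋₊ + 1 : ℕ) : ℝ) ≤ 8 * (C₂ * Z ^ ε) := by
    have h8 := Nat.floor_le (by positivity : 0 ≤ 8 * Real.log Z)
    have h9 := h₂ Z hZ
    rw [Real.rpow_one] at h9
    push_cast
    linarith
  calc ((⌊8 * Real.log Z⌋₊ + 1 : ℕ) : ℝ) * (Real.exp 1 * C₁ * E * (1 + |t|) ^ m)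
      ≤ 8 * (C₂ * Z ^ ε) * (Real.exp 1 * C₁ * E * (1 + |t|) ^ m) := by gcongr
    _ = _ := by ring

/-- `sum_one_add_le`; for a sublist `L'` apply `max0` in the first and then in the second variable;
the innermost sum is the moment of
`{D with N₁ := N₁', N₂ := N₂', t₁ := τ₁, t₂ := τ₂, S := S + |τ₁| + |τ₂|, L := L'}` (still `OK`, `HP d`),
and `1 + S + |τ₁| + |τ₂| ≤ (1 + S)(1 + |τ₁|)(1 + |τ₂|)`.  Exponent `3 C`. -/
theorem maxP_of (hq : Lev q) (h : MomOn q κ σ j 13 (HP d)) : MaxP q κ σ j d := by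
  intro a₁ a₂ a₃ ε h₁ h₂ h₃ hε
  have hε3 : 0 < ε / 3 := by positivity
  obtain ⟨C₀, hC₀, H₀⟩ := h (2 * a₁) (2 * a₂) a₃ (ε / 3) (by positivity) (by positivity) h₃ hε3
  obtain ⟨C₁, hC₁, H₁⟩ := max0 h₁ hC₀.le hε3
  obtain ⟨C₂, hC₂, H₂⟩ := max0 h₂ hC₀.le hε3
  refine ⟨max (2 ^ j * (C₁ * C₂ * C₀)) (3 * C₀), lt_max_of_lt_right (by positivity),
    fun D A M₁ M₂ hD hP hR hM => ?_⟩
  have hZ : 0 < D.Z := lt_of_lt_of_le one_pos hD.hZ
  have hY : 0 < D.Y := lt_of_lt_of_le one_pos hD.hY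
  have hU : 0 < D.U := lt_of_lt_of_le one_pos hD.hU
  have hS := hD.S_nonneg
  have hN₁ := hD.pos₁
  have hN₂ := hD.pos₂
  have hM₂ : ∀ u ∈ A, 0 < M₂ u := fun u hu => lt_of_lt_of_le (by positivity) (hM u hu).2.2.1
  set E₀ := C₀ * D.Z ^ (ε / 3) * D.Y ^ 13 * (1 + D.S) ^ C₀ * D.U with hE₀
  have hE : 0 ≤ E₀ := by positivity
  have key : ∀ L' : List Slot, L'.Sublist D.L →
      ∑ u ∈ A, nS D.ψ₁ a₁ (M₁ u) D.t₁ u * nS D.ψ₂ a₂ (M₂ u) D.t₂ u * (L'.map (nP a₃ u)).prod ≤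
        C₁ * D.Z ^ (ε / 3) * (C₂ * D.Z ^ (ε / 3) * E₀ * (1 + |D.t₂|) ^ C₀) * (1 + |D.t₁|) ^ C₀ := by
    intro L' hL'
    have hg : ∀ u, 0 ≤ (L'.map (nP a₃ u)).prod := fun u =>
      prod_nP_nonneg a₃ u fun x hx => (hD.slot x (hL'.subset hx)).pos
    refine le_trans (le_of_eq (Finset.sum_congr rfl fun u _ => by ring))
      (H₁ D.ψ₁ D.Z D.N₁ D.t₁ _ A (fun u => nS D.ψ₂ a₂ (M₂ u) D.t₂ u * (L'.map (nP a₃ u)).prod) M₁
        (hD.tw₁.norm_le hq.1) hD.hZ hN₁ (by positivity)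
        (fun u hu => ⟨mul_nonneg (nS_nonneg _ _ _ _ (hM₂ u hu)) (hg u), (hM u hu).1, (hM u hu).2.1⟩)
        fun N₁' τ₁ hN₁' hN₁'' => ?_)
    refine le_trans (le_of_eq (Finset.sum_congr rfl fun u _ => by ring))
      ((H₂ D.ψ₂ D.Z D.N₂ D.t₂ (E₀ * (1 + |τ₁|) ^ C₀) A
        (fun u => nS D.ψ₁ (2 * a₁) N₁' τ₁ u * (L'.map (nP a₃ u)).prod) M₂
        (hD.tw₂.norm_le hq.1) hD.hZ hN₂ (by positivity)
        (fun u hu => ⟨mul_nonneg (nS_nonneg _ _ _ _ hN₁') (hg u), (hM u hu).2.2.1, (hM u hu).2.2.2⟩)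
        fun N₂' τ₂ hN₂' hN₂'' => ?_).trans_eq (by ring))
    have a1 := abs_nonneg τ₁
    have a2 := abs_nonneg τ₂
    have h4 := H₀ { D with N₁ := N₁', N₂ := N₂', t₁ := τ₁, t₂ := τ₂, S := D.S + |τ₁| + |τ₂|, L := L' } A
      ⟨hD.tw₁, hD.tw₂, hD.hZ, hD.hY, hD.hZY, hD.hU, hD.hUZ, hN₁', hN₂',
        by change |τ₁| ≤ D.S + |τ₁| + |τ₂|; linarith, by change |τ₂| ≤ D.S + |τ₁| + |τ₂|; linarith,
        hL'.length_le.trans hD.len,
        fun x hx => (hD.slot x (hL'.subset hx)).mono (by change D.S ≤ D.S + |τ₁| + |τ₂|; linarith)⟩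
      ⟨hP.1, hP.2.1, hP.2.2.1, le_trans (by
        change max N₁' 1 * max N₂' 1 * D.Y ^ (6 * L'.length) ≤
          max D.N₁ 1 * max D.N₂ 1 * D.Y ^ (6 * D.L.length)
        have := hL'.length_le
        have := hD.hY
        gcongr) hP.2.2.2⟩ hR
    refine le_trans (le_of_eq (Finset.sum_congr rfl fun u _ => by ring)) (h4.trans ?_)
    change C₀ * D.Z ^ (ε / 3) * D.Y ^ 13 * (1 + (D.S + |τ₁| + |τ₂|)) ^ C₀ * D.U ≤ _
    have h5 : (1 + (D.S + |τ₁| + |τ₂|)) ^ C₀ ≤ (1 + D.S) ^ C₀ * (1 + |τ₁|) ^ C₀ * (1 + |τ₂|) ^ C₀ := by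
      rw [← Real.mul_rpow (by positivity) (by positivity),
        ← Real.mul_rpow (by positivity) (by positivity)]
      refine Real.rpow_le_rpow (by positivity) ?_ hC₀.le
      have b1 := mul_nonneg hS a1
      have b2 := mul_nonneg hS a2
      have b3 := mul_nonneg a1 a2
      have b4 := mul_nonneg b1 a2
      nlinarith
    calc C₀ * D.Z ^ (ε / 3) * D.Y ^ 13 * (1 + (D.S + |τ₁| + |τ₂|)) ^ C₀ * D.U
        ≤ C₀ * D.Z ^ (ε / 3) * D.Y ^ 13 *
          ((1 + D.S) ^ C₀ * (1 + |τ₁|) ^ C₀ * (1 + |τ₂|) ^ C₀) * D.U := by gcongr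
      _ = _ := by rw [hE₀]; ring
  refine (sum_one_add_le A (fun u x => nP a₃ u x) _ D.L _ key).trans ?_
  have e1 : D.Z ^ ε = D.Z ^ (ε / 3) * D.Z ^ (ε / 3) * D.Z ^ (ε / 3) := by
    rw [← Real.rpow_add hZ, ← Real.rpow_add hZ]; congr 1; ring
  have e2 : (1 + D.S) ^ (3 * C₀) = (1 + D.S) ^ C₀ * (1 + D.S) ^ C₀ * (1 + D.S) ^ C₀ := by
    rw [← Real.rpow_add (by positivity), ← Real.rpow_add (by positivity)]; congr 1; ring
  have t1 := hD.ht₁
  have t2 := hD.ht₂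
  have hl := hD.len
  calc (2 : ℝ) ^ D.L.length * (C₁ * D.Z ^ (ε / 3) * (C₂ * D.Z ^ (ε / 3) * E₀ * (1 + |D.t₂|) ^ C₀) *
        (1 + |D.t₁|) ^ C₀)
      ≤ 2 ^ j * (C₁ * D.Z ^ (ε / 3) * (C₂ * D.Z ^ (ε / 3) * E₀ * (1 + D.S) ^ C₀) *
        (1 + D.S) ^ C₀) := by gcongr; norm_num
    _ = 2 ^ j * (C₁ * C₂ * C₀) * D.Z ^ ε * D.Y ^ 13 * (1 + D.S) ^ (3 * C₀) * D.U := by
        rw [e1, e2, hE₀]; ring
    _ ≤ _ := by
        gcongr
        · exact le_max_left _ _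
        · linarith
        · exact le_max_right _ _


end Crest.Agent.R17.M2
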