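import Crest.Agent.R17.M2.Refl

/-! Row 17, block M2 (owner helper24): children of excess width `Y ^ 6`: drop a slot or reflect. -/

set_option autoImplicit false

namespace Crest.Agent.R17.M2

open scoped ComplexConjugate
open Complex

variable {q : O} {κ σ : ℝ} {j d : ℕ}

/-- `L = x :: L'`: `Drop` gives `nP ≤ C Z^ε (1+S)^C Y` on every row (`x.P ≤ Y² ≤ Z³`), and
`{D with L := L'}` satisfies `H0 d` -/
theorem momP_cons (hκ : 3 / 4 ≤ κ) (hD : Drop q κ) (h : MomOn q κ σ j 12 (H0 d)) :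
    MomOn q κ σ j 13 fun D => HP d D ∧ D.L ≠ [] := by
  intro a₁ a₂ a₃ ε h₁ h₂ h₃ hε
  obtain ⟨C₁, hC₁, e₁⟩ := h a₁ a₂ a₃ (ε / 2) h₁ h₂ h₃ (half_pos hε)
  obtain ⟨C₂, hC₂, e₂⟩ := hD a₃ (ε / 2) h₃ (half_pos hε)
  refine ⟨C₁ * C₂ + C₁ + C₂, by positivity, fun D A hO ⟨⟨p1, p2, p3, p4⟩, hL⟩ hA => ?_⟩
  obtain ⟨x, L', hx⟩ := List.exists_cons_of_ne_nil hL
  have hY := hO.hY
  have hZ := hO.hZ
  have hU := hO.hU
  have hS := hO.S_nonneg
  have hxo : x.OK q κ D.Y D.S := hO.slot x (hx ▸ List.mem_cons_self)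
  have hO' : ({ D with L := L' } : Dat).OK q κ σ j :=
    ⟨hO.tw₁, hO.tw₂, hZ, hY, hO.hZY, hU, hO.hUZ, hO.pos₁, hO.pos₂, hO.ht₁, hO.ht₂,
      le_trans (by rw [hx]; simp) hO.len, fun y hy => hO.slot y (hx ▸ List.mem_cons_of_mem _ hy)⟩
  have hY6 : D.Y ≤ D.Y ^ 6 := le_self_pow₀ hY (by norm_num)
  have hH : H0 d ({ D with L := L' } : Dat) := by
    constructor
    · show D.U ≤ D.Y ^ d
      rw [pow_succ D.Y d] at p2
      exact le_of_mul_le_mul_right (le_trans (by gcongr) p2) (by linarith)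
    · show max D.N₁ 1 * max D.N₂ 1 * D.Y ^ (6 * L'.length) ≤ D.U
      rw [Dat.W, hx, List.length_cons, mul_add, pow_add, ← mul_assoc] at p4
      exact le_of_mul_le_mul_right p4 (by positivity)
  have k1 := e₁ _ A hO' hH hA
  have hP : x.P ≤ D.Z ^ 3 := by
    calc x.P ≤ D.Y ^ 2 := hxo.le_sq hκ hY
      _ ≤ D.Y ^ 6 := pow_le_pow_right₀ hY (by norm_num)
      _ ≤ D.Z := p1.trans hO.hUZ
      _ ≤ _ := le_self_pow₀ hZ (by norm_num)
  have k2 : ∀ u ∈ A, nP a₃ u x ≤ C₂ * D.Z ^ (ε / 2) * (1 + D.S) ^ C₂ * D.Y := fun u hu => by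
    refine (e₂ x u D.Z hxo.tw (hA u hu).1 (hA u hu).2.1 ((hA u hu).2.2.trans hO.hUZ) hxo.pos
      hP).trans ?_
    have := hxo.tws
    have := hxo.le
    have := hxo.pos
    gcongr
  have k3 : D.mom a₁ a₂ a₃ A ≤ (C₂ * D.Z ^ (ε / 2) * (1 + D.S) ^ C₂ * D.Y) *
      ({ D with L := L' } : Dat).mom a₁ a₂ a₃ A := by
    rw [Dat.mom, Dat.mom, Finset.mul_sum]
    refine Finset.sum_le_sum fun u hu => ?_
    have n1 := nS_nonneg D.ψ₁ a₁ D.t₁ u hO.pos₁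
    have n2 := nS_nonneg D.ψ₂ a₂ D.t₂ u hO.pos₂
    have n3 := prod_nP_nonneg a₃ u fun y hy => (hO'.slot y hy).pos
    rw [hx, List.map_cons, List.prod_cons]
    calc _ = nP a₃ u x * (nS D.ψ₁ a₁ D.N₁ D.t₁ u * nS D.ψ₂ a₂ D.N₂ D.t₂ u *
          (L'.map (nP a₃ u)).prod) := by ring
      _ ≤ _ := mul_le_mul_of_nonneg_right (k2 u hu) (mul_nonneg (mul_nonneg n1 n2) n3)
  refine k3.trans ((mul_le_mul_of_nonneg_left k1 (by positivity)).trans ?_)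
  have k4 : D.Z ^ ε = D.Z ^ (ε / 2) * D.Z ^ (ε / 2) := by
    rw [← Real.rpow_add (by linarith), add_halves]
  have hCC := mul_pos hC₁ hC₂
  calc _ = (C₁ * C₂) * D.Z ^ ε * D.Y ^ 13 * (1 + D.S) ^ (C₁ + C₂) * D.U := by
        rw [k4, Real.rpow_add (by linarith)]; ring
    _ ≤ _ := by gcongr <;> linarith

/-- `MomOn.reflect` with `V = U Z^δ ≤ U Y` (`Z^δ ≤ Z^σ ≤ Y`).  Width of the reflected data: if
`N' ≤ 1` it is `max N₁ 1 ≤ U` (`(max N₁ 1)² ≤ W ≤ U Y⁶ ≤ U²`), otherwise `≤ max N₁ 1 · Z^δ U / N₂`. -/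
theorem momP_nil (hq : Lev q) (hκ : 3 / 4 ≤ κ) (hσ : 0 < σ) (h : MomOn q κ σ j 12 (H0 d)) :
    MomOn q κ σ j 12 fun D => HP d D ∧ D.L = [] ∧ D.N₁ ≤ D.N₂ ∧ 1 ≤ D.N₂ := by
  refine MomOn.reflect hq hκ hσ h fun D hO ⟨⟨p1, p2, p3, p4⟩, hL, h12, h2⟩ => ?_
  have hY := hO.hY
  have hZ := hO.hZ
  have hU := hO.hU
  have hY6 : D.Y ≤ D.Y ^ 6 := le_self_pow₀ hY (by norm_num)
  rw [Dat.W, hL, List.length_nil, mul_zero, pow_zero, mul_one, max_eq_left h2] at p4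
  have hm1 : 1 ≤ max D.N₁ 1 := le_max_right _ _
  have hm2 : max D.N₁ 1 ≤ D.N₂ := max_le h12 h2
  have hm : max D.N₁ 1 ≤ D.U := by
    refine (mul_self_le_mul_self_iff (by linarith) (by linarith)).2 ?_
    calc _ ≤ max D.N₁ 1 * D.N₂ := by gcongr
      _ ≤ D.U * D.Y ^ 6 := p4
      _ ≤ _ := by gcongr
  refine ⟨h2, ?_, fun δ hδ hδσ => ?_⟩
  · rw [hL, List.length_nil, mul_zero, pow_zero, mul_one]
    exact hm.trans hO.hUZ
  have hZδ : D.Z ^ δ ≤ D.Y := (Real.rpow_le_rpow_of_exponent_le hZ hδσ).trans hO.hZY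
  have hZ1 : 1 ≤ D.Z ^ δ := Real.one_le_rpow hZ hδ.le
  have hV : D.U ≤ D.U * D.Z ^ δ := le_mul_of_one_le_right (by linarith) hZ1
  refine ⟨D.U * D.Z ^ δ, hV, le_trans (by gcongr; exact hZδ.trans hY6) p3, le_rfl,
    fun χ N' hN0 hN' => ⟨?_, ?_⟩⟩
  · show D.U * D.Z ^ δ ≤ D.Y ^ d
    have e : D.U * D.Z ^ δ * D.Y ≤ D.Y ^ d * D.Y := by
      calc D.U * D.Z ^ δ * D.Y ≤ D.U * D.Y * D.Y := by gcongr
        _ = D.U * D.Y ^ 2 := by ring
        _ ≤ D.U * D.Y ^ 6 := by gcongr; norm_num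
        _ ≤ _ := by rw [← pow_succ]; exact p2
    exact le_of_mul_le_mul_right e (by linarith)
  · show max D.N₁ 1 * max N' 1 * D.Y ^ (6 * D.L.length) ≤ D.U * D.Z ^ δ
    rw [hL, List.length_nil, mul_zero, pow_zero, mul_one]
    rcases le_total N' 1 with h3 | h3
    · rw [max_eq_right h3, mul_one]
      exact hm.trans hV
    · rw [max_eq_left h3]
      rw [le_div_iff₀ hO.pos₂] at hN'
      calc max D.N₁ 1 * N' ≤ D.N₂ * N' := by gcongr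
        _ ≤ _ := by linarith

/-- cases: `L ≠ []`; `L = []` and both `N_i ≤ 1` (then `W = 1`, `H0 d` holds); otherwise `momP_nil` or its
`MomOn.swap`.  `MomOn.or`, `MomOn.pow`, `MomOn.mono`. -/
theorem momP_of (hq : Lev q) (hκ : 3 / 4 ≤ κ) (hσ : 0 < σ) (hD : Drop q κ)
    (h : MomOn q κ σ j 12 (H0 d)) : MomOn q κ σ j 13 (HP d) := by
  have hn := momP_nil hq hκ hσ h
  refine (((momP_cons hκ hD h).or (h.pow (by norm_num))).or
    ((hn.or hn.swap).pow (by norm_num))).mono fun D hO hP => ?_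
  by_cases hL : D.L = []
  swap
  · exact Or.inl (Or.inl ⟨hP, hL⟩)
  have hP' : HP d D.swap := ⟨hP.1, hP.2.1, hP.2.2.1, by rw [swap_W]; exact hP.2.2.2⟩
  have key : D.N₁ ≤ 1 → D.N₂ ≤ 1 → H0 d D := fun k1 k2 => by
    have hY := hO.hY
    have hU := hO.hU
    constructor
    · have p2 := hP.2.1
      rw [pow_succ D.Y d] at p2
      have hY6 : D.Y ≤ D.Y ^ 6 := le_self_pow₀ hY (by norm_num)
      exact le_of_mul_le_mul_right (le_trans (by gcongr) p2) (by linarith)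
    · rw [Dat.W, hL, max_eq_right k1, max_eq_right k2]
      simpa using hU
  rcases le_total D.N₁ D.N₂ with h1 | h1
  · rcases le_total 1 D.N₂ with h2 | h2
    · exact Or.inr (Or.inl ⟨hP, hL, h1, h2⟩)
    · exact Or.inl (Or.inr (key (h1.trans h2) h2))
  · rcases le_total 1 D.N₁ with h2 | h2
    · exact Or.inr (Or.inr ⟨hP', hL, h1, h2⟩)
    · exact Or.inl (Or.inr (key h2 (h1.trans h2)))


end Crest.Agent.R17.M2
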