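import Crest.Agent.R17.M2.Triv
import Crest.Agent.R17.C.Reflect

/-! Row 17, block M2 (owner helper24): reflection of one plain variable. -/

set_option autoImplicit false

namespace Crest.Agent.R17.M2

open scoped ComplexConjugate
open Complex

variable {q : O} {κ σ : ℝ} {j k : ℕ} {H H' : Dat → Prop}

/-- `C.PS_reflect` with `b = a/2` and `ε/3`; multiply by `g u`, sum, exchange the finite sum and the
integral (continuous integrands on `Icc`: `C.continuous_PS`), bound the integrand by `M`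
(`exp ξ ≤ Z^ε U / N`); the interval has length `≤ (1 + ε) log Z ≤ C Z^(ε/3)` -/
theorem sum_reflect (hq : Lev q) {a ε : ℝ} (ha : 0 < a) (hε : 0 < ε) : ∃ C : ℝ, 0 < C ∧
    ∀ (ψ : O → ℂ) (Z U N t M : ℝ) (A : Finset O) (g : O → ℝ), IsTw q ψ → 1 ≤ U → U ≤ Z → 1 ≤ N →
      0 ≤ M → Rw q U A → (∀ u ∈ A, 0 ≤ g u) →
      (∀ (χ : O → ℂ) (N' : ℝ), IsTw q χ → 0 < N' → N' ≤ Z ^ ε * U / N →
        ∑ u ∈ A, g u * nS χ (a / 2) N' t u ≤ M) →
      ∑ u ∈ A, g u * nS ψ a N t u ≤ C * (1 + |t|) ^ C * (Z ^ ε * M + Z⁻¹ * ∑ u ∈ A, g u) := by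
  obtain ⟨e, he⟩ : ∃ e, e = ε / 3 := ⟨_, rfl⟩
  have he0 : 0 < e := by rw [he]; positivity
  obtain ⟨C₀, hC₀, h₀⟩ := C.PS_reflect q a (a / 2) e 1 hq (by positivity) (by linarith) he0
  obtain ⟨K, hK⟩ : ∃ K : ℝ, K = (Tw q).card * ((1 + 2 * e) / e) := ⟨_, rfl⟩
  have hK0 : 0 ≤ K := by rw [hK]; positivity
  refine ⟨C₀ * (K + 1), by positivity, fun ψ Z U N t M A g hψ hU hUZ hN hM hA hg h => ?_⟩
  have hZ : 1 ≤ Z := hU.trans hUZ
  have hZ0 : 0 < Z := by linarith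
  have hL : 0 ≤ Real.log Z := Real.log_nonneg hZ
  have hUN : 0 < U / N := by positivity
  obtain ⟨I, hI⟩ : ∃ I, I = Set.Icc (-(e * Real.log Z)) (Real.log (U / N) + e * Real.log Z) := ⟨_, rfl⟩
  let F : (O → ℂ) → O → ℝ → ℝ := fun χ u ξ => ‖PS (rc χ u) (a / 2) (Real.exp ξ) t‖ ^ 2 * Real.exp (-ξ)
  have hF : ∀ χ ∈ Tw q, ∀ u ∈ A, MeasureTheory.IntegrableOn (fun ξ => g u * F χ u ξ) I := by
    intro χ hχ u hu
    have h1 := (C.continuous_PS (c := rc χ u) (fun n => C.norm_rc_le hq ((mem_Tw hq.1).1 hχ) (hA u hu).1 n)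
      (a := a / 2) (by positivity)).comp (Continuous.prodMk continuous_id (continuous_const (y := t)))
    have h2 : Continuous fun ξ => g u * F χ u ξ :=
      continuous_const.mul ((h1.norm.pow 2).mul (Real.continuous_exp.comp continuous_neg))
    rw [hI]
    exact h2.integrableOn_Icc
  have hvol : MeasureTheory.volume.real I ≤ (1 + 2 * e) / e * Z ^ e := by
    have h1 : Real.log (U / N) ≤ Real.log Z :=
      Real.log_le_log hUN ((div_le_self (by linarith) hN).trans hUZ)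
    have h2 : Real.log Z ≤ Z ^ e / e := Real.log_le_rpow_div hZ0.le he0
    have h3 : (1 + 2 * e) * Real.log Z ≤ (1 + 2 * e) / e * Z ^ e := by
      calc _ ≤ (1 + 2 * e) * (Z ^ e / e) := mul_le_mul_of_nonneg_left h2 (by positivity)
        _ = _ := by ring
    rw [hI, Real.volume_real_Icc]
    exact max_le (by linarith) (by positivity)
  have hint : ∀ χ ∈ Tw q, ∑ u ∈ A, g u * ∫ ξ in I, F χ u ξ ≤ (1 + 2 * e) / e * Z ^ e * M := by
    intro χ hχ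
    simp only [← MeasureTheory.integral_const_mul]
    rw [← MeasureTheory.integral_finsetSum _ (hF χ hχ)]
    have hfin : MeasureTheory.volume I ≠ ⊤ := by rw [hI]; exact measure_Icc_lt_top.ne
    calc _ ≤ ∫ _ in I, M := by
          refine MeasureTheory.setIntegral_mono_on (MeasureTheory.integrable_finsetSum _ (hF χ hχ))
            (MeasureTheory.integrableOn_const hfin) (by rw [hI]; exact measurableSet_Icc) fun ξ hξ => ?_
          rw [hI] at hξ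
          have h1 : Real.exp ξ ≤ Z ^ ε * U / N := by
            calc _ ≤ Real.exp (Real.log (U / N) + e * Real.log Z) := Real.exp_le_exp.2 hξ.2
              _ = U / N * Z ^ e := by
                rw [Real.exp_add, Real.exp_log hUN, Real.rpow_def_of_pos hZ0, mul_comm e]
              _ ≤ U / N * Z ^ ε :=
                mul_le_mul_of_nonneg_left (Real.rpow_le_rpow_of_exponent_le hZ (by linarith)) hUN.le
              _ = _ := by ring
          refine le_trans (le_of_eq ?_) (h χ _ ((mem_Tw hq.1).1 hχ) (Real.exp_pos ξ) h1)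
          refine Finset.sum_congr rfl fun u _ => ?_
          simp only [F, nS, Real.exp_neg, div_eq_mul_inv]
      _ = MeasureTheory.volume.real I * M := by rw [MeasureTheory.setIntegral_const, smul_eq_mul]
      _ ≤ _ := mul_le_mul_of_nonneg_right hvol hM
  have hG : 0 ≤ ∑ u ∈ A, g u := Finset.sum_nonneg hg
  have ht : 1 ≤ 1 + |t| := by linarith [abs_nonneg t]
  have hZe : Z ^ e * Z ^ e ≤ Z ^ ε := by
    rw [← Real.rpow_add hZ0]
    exact Real.rpow_le_rpow_of_exponent_le hZ (by linarith)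
  calc _ ≤ ∑ u ∈ A, g u * (C₀ * (1 + |t|) ^ C₀ * (Z ^ e * ∑ χ ∈ Tw q, (∫ ξ in I, F χ u ξ) + Z⁻¹)) := by
        refine Finset.sum_le_sum fun u hu => mul_le_mul_of_nonneg_left ?_ (hg u hu)
        have := h₀ ψ u Z U N t hψ (hA u hu).1 (hA u hu).2.1 (hA u hu).2.2 hUZ
          ((inv_le_one_of_one_le₀ hZ).trans hN)
        rwa [Real.rpow_neg_one, ← hI] at this
    _ = C₀ * (1 + |t|) ^ C₀ * (Z ^ e * ∑ χ ∈ Tw q, ∑ u ∈ A, g u * (∫ ξ in I, F χ u ξ) +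
          Z⁻¹ * ∑ u ∈ A, g u) := by
        rw [Finset.sum_comm, Finset.mul_sum, Finset.mul_sum, ← Finset.sum_add_distrib, Finset.mul_sum]
        refine Finset.sum_congr rfl fun u _ => ?_
        rw [← Finset.mul_sum]
        ring
    _ ≤ C₀ * (1 + |t|) ^ C₀ * ((K + 1) * (Z ^ ε * M + Z⁻¹ * ∑ u ∈ A, g u)) := by
        refine mul_le_mul_of_nonneg_left ?_ (by positivity)
        have h1 : ∑ χ ∈ Tw q, ∑ u ∈ A, g u * (∫ ξ in I, F χ u ξ) ≤ K * Z ^ e * M := by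
          refine (Finset.sum_le_card_nsmul _ _ _ hint).trans (le_of_eq ?_)
          rw [nsmul_eq_mul, hK]
          ring
        have h2 : Z ^ e * ∑ χ ∈ Tw q, ∑ u ∈ A, g u * (∫ ξ in I, F χ u ξ) ≤ K * (Z ^ ε * M) := by
          calc _ ≤ Z ^ e * (K * Z ^ e * M) := mul_le_mul_of_nonneg_left h1 (by positivity)
            _ = K * (Z ^ e * Z ^ e * M) := by ring
            _ ≤ _ := by gcongr
        have h3 : 0 ≤ Z ^ ε * M := by positivity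
        have h4 : 0 ≤ K * (Z⁻¹ * ∑ u ∈ A, g u) := by positivity
        linarith
    _ = C₀ * (K + 1) * (1 + |t|) ^ C₀ * (Z ^ ε * M + Z⁻¹ * ∑ u ∈ A, g u) := by ring
    _ ≤ _ := by
        have : (1 + |t|) ^ C₀ ≤ (1 + |t|) ^ (C₀ * (K + 1)) :=
          Real.rpow_le_rpow_of_exponent_le ht (le_mul_of_one_le_right hC₀.le (by linarith))
        gcongr

/-- `δ = min σ (ε/3)`; `sum_reflect` with `g u = nS₁ · ∏ nP`, `M` = the bound of `h'` (widths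
`a₁, a₂/2, a₃`, `ε/3`) at `U := V ≤ U Z^δ`; `∑ g ≤ 11 U · C Z` by `rest_triv` -/
theorem MomOn.reflect (hq : Lev q) (hκ : 3 / 4 ≤ κ) (hσ : 0 < σ) (h' : MomOn q κ σ j k H')
    (hH : ∀ D : Dat, D.OK q κ σ j → H D →
      1 ≤ D.N₂ ∧ max D.N₁ 1 * D.Y ^ (6 * D.L.length) ≤ D.Z ∧
      ∀ δ : ℝ, 0 < δ → δ ≤ σ → ∃ V : ℝ, D.U ≤ V ∧ V ≤ D.Z ∧ V ≤ D.U * D.Z ^ δ ∧
        ∀ (χ : O → ℂ) (N' : ℝ), 0 < N' → N' ≤ D.Z ^ δ * D.U / D.N₂ →
          H' { D with ψ₂ := χ, N₂ := N', U := V }) :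
    MomOn q κ σ j k H := by
  intro a₁ a₂ a₃ ε h₁ h₂ h₃ hε
  obtain ⟨δ, hδ0, hδσ, hδε⟩ : ∃ δ : ℝ, 0 < δ ∧ δ ≤ σ ∧ δ ≤ ε / 3 :=
    ⟨min σ (ε / 3), lt_min hσ (by positivity), min_le_left _ _, min_le_right _ _⟩
  obtain ⟨C₁, hC₁, H₁⟩ := h' a₁ (a₂ / 2) a₃ (ε / 3) h₁ (by positivity) h₃ (by positivity)
  obtain ⟨C₂, hC₂, H₂⟩ := sum_reflect hq h₂ hδ0
  obtain ⟨C₃, hC₃, H₃⟩ := rest_triv (σ := σ) hq hκ j h₁ h₃
  refine ⟨C₂ * (C₁ + 11 * C₃) + (C₂ + C₁), by positivity, fun D A hD hHD hA => ?_⟩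
  obtain ⟨hN₂, hW, hV⟩ := hH D hD hHD
  obtain ⟨V, hUV, hVZ, hV, hH'⟩ := hV δ hδ0 hδσ
  have hZ := hD.hZ
  have hY := hD.hY
  have hU := hD.hU
  have hZ0 : 0 < D.Z := by linarith
  have hU0 : 0 < D.U := by linarith
  have hV0 : 0 < V := by linarith
  have hS : 0 ≤ D.S := (abs_nonneg _).trans hD.ht₁
  let g : O → ℝ := fun u => nS D.ψ₁ a₁ D.N₁ D.t₁ u * (D.L.map (nP a₃ u)).prod
  have hg : ∀ u ∈ A, 0 ≤ g u := fun u _ =>
    mul_nonneg (nS_nonneg _ _ _ _ hD.pos₁) (prod_nP_nonneg _ _ fun x hx => (hD.slot x hx).pos)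
  have h4 := H₂ D.ψ₂ D.Z D.U D.N₂ D.t₂ (C₁ * D.Z ^ (ε / 3) * D.Y ^ k * (1 + D.S) ^ C₁ * V) A g hD.tw₂ hU
    hD.hUZ hN₂ (by positivity) hA hg fun χ N' hχ hN' hN'' => by
      refine le_trans (le_of_eq ?_) (H₁ { D with ψ₂ := χ, N₂ := N', U := V } A
        ⟨hD.tw₁, hχ, hZ, hY, hD.hZY, hU.trans hUV, hVZ, hD.pos₁, hN', hD.ht₁, hD.ht₂, hD.len, hD.slot⟩
        (hH' χ N' hN' hN'') fun u hu => ⟨(hA u hu).1, (hA u hu).2.1, (hA u hu).2.2.trans hUV⟩)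
      exact Finset.sum_congr rfl fun u _ => mul_right_comm _ _ _
  have h5 : D.mom a₁ a₂ a₃ A = ∑ u ∈ A, g u * nS D.ψ₂ a₂ D.N₂ D.t₂ u :=
    Finset.sum_congr rfl fun u _ => mul_right_comm _ _ _
  obtain ⟨E, hE⟩ : ∃ E, E = D.Z ^ ε * D.Y ^ k * (1 + D.S) ^ C₁ * D.U := ⟨_, rfl⟩
  have h6 : D.Z ^ δ * (C₁ * D.Z ^ (ε / 3) * D.Y ^ k * (1 + D.S) ^ C₁ * V) ≤ C₁ * E := by
    have : D.Z ^ δ * D.Z ^ (ε / 3) * D.Z ^ δ ≤ D.Z ^ ε := by
      rw [← Real.rpow_add hZ0, ← Real.rpow_add hZ0]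
      exact Real.rpow_le_rpow_of_exponent_le hZ (by linarith)
    calc _ ≤ D.Z ^ δ * (C₁ * D.Z ^ (ε / 3) * D.Y ^ k * (1 + D.S) ^ C₁ * (D.U * D.Z ^ δ)) := by gcongr
      _ = C₁ * ((D.Z ^ δ * D.Z ^ (ε / 3) * D.Z ^ δ) * D.Y ^ k * (1 + D.S) ^ C₁ * D.U) := by ring
      _ ≤ _ := by rw [hE]; gcongr
  have h7 : D.Z⁻¹ * ∑ u ∈ A, g u ≤ 11 * C₃ * E := by
    have e1 : ∑ u ∈ A, g u ≤ 11 * D.U * (C₃ * D.Z) := by
      refine (Finset.sum_le_card_nsmul _ _ (C₃ * D.Z) fun u _ =>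
        (H₃ D u hD).trans (mul_le_mul_of_nonneg_left hW hC₃.le)).trans ?_
      rw [nsmul_eq_mul]
      exact mul_le_mul_of_nonneg_right (card_le_of_nm_le hU0.le fun u hu => ⟨(hA u hu).1, (hA u hu).2.2⟩)
        (by positivity)
    have e2 : D.U ≤ E := by
      rw [hE]
      exact le_mul_of_one_le_left hU0.le (one_le_mul_of_one_le_of_one_le
        (one_le_mul_of_one_le_of_one_le (Real.one_le_rpow hZ hε.le) (one_le_pow₀ hY))
        (Real.one_le_rpow (by linarith) hC₁.le))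
    calc _ ≤ D.Z⁻¹ * (11 * D.U * (C₃ * D.Z)) := by gcongr
      _ = 11 * C₃ * D.U := by field_simp
      _ ≤ _ := by gcongr
  have hE0 : 0 ≤ E := by rw [hE]; positivity
  have h8 : (1 + |D.t₂|) ^ C₂ ≤ (1 + D.S) ^ C₂ :=
    Real.rpow_le_rpow (by positivity) (by linarith [hD.ht₂]) hC₂.le
  have h9 : (1 + D.S) ^ C₂ * (1 + D.S) ^ C₁ ≤ (1 + D.S) ^ (C₂ * (C₁ + 11 * C₃) + (C₂ + C₁)) := by
    rw [← Real.rpow_add (by linarith)]
    exact Real.rpow_le_rpow_of_exponent_le (by linarith) (le_add_of_nonneg_left (by positivity))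
  rw [h5]
  calc _ ≤ _ := h4
    _ ≤ C₂ * (1 + D.S) ^ C₂ * (C₁ * E + 11 * C₃ * E) := by
      have := Finset.sum_nonneg hg
      gcongr
    _ = C₂ * (C₁ + 11 * C₃) * D.Z ^ ε * D.Y ^ k * ((1 + D.S) ^ C₂ * (1 + D.S) ^ C₁) * D.U := by
      rw [hE]; ring
    _ ≤ _ := by
      gcongr
      exact le_add_of_nonneg_right (by positivity)


end Crest.Agent.R17.M2
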