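import Crest.Agent.R17.M2.Basic

/-! Row 17, block M2 (owner helper24): one-variable shifted sums. -/

set_option autoImplicit false

namespace Crest.Agent.R17.M2

open scoped ComplexConjugate
open Complex

variable {q : O} {ψ ρ : O → ℂ}

/-- the constant of `LN_mul_cpow` -/
noncomputable def kp (a t : ℝ) (w : ℂ) : ℂ :=
  cexp (((a ^ 2 * w.re ^ 2 / 2 : ℝ) : ℂ) + I * ((a ^ 2 * w.re * (t + w.im) : ℝ) : ℂ))

theorem norm_kp (a t : ℝ) (w : ℂ) : ‖kp a t w‖ = Real.exp (a ^ 2 * w.re ^ 2 / 2) := by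
  rw [kp, Complex.norm_exp]
  congr 1
  rw [add_re, ofReal_re, mul_re, I_re, I_im, ofReal_im]
  ring

/-- termwise: `nm_mul`, `LN_mul_arg`, `LN_mul_cpow`; `tsum_mul_left` -/
theorem Tq_wP (hψ : IsTw q ψ) {a N : ℝ} (ha : 0 < a) (hN : 0 < N) {D : O} (hD : Prim D)
    (ρ : O → ℂ) (t : ℝ) (w : ℂ) (u : O) :
    Tq (wP ψ a N t) D (th ρ w u) = ψ D * (((N / nm D : ℝ) : ℂ) ^ w * kp a t w) *
      PS (rc (fun n => ψ n * ρ n) u) a (N / nm D * Real.exp (a ^ 2 * w.re)) (t + w.im) := by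
  have hY : 0 < N / nm D := div_pos hN (nm_prim_pos hD)
  rw [Tq, PS, ← tsum_mul_left]
  refine tsum_congr fun m => ?_
  have h := LN_mul_cpow ha hY (nm_prim_pos m.2) t w
  rw [wP, th, rc, hψ.mul, nm_mul, LN_mul_arg, kp]
  linear_combination ψ D * ψ m * ρ m * sx u m * h

theorem Tq_wQ_one {a : ℝ} (ha : 0 < a) {x : Slot} (hx : 0 < x.P) (ρ : O → ℂ) (w : ℂ) (u : O) :
    Tq (wQ a x) 1 (th ρ w u) = ((x.P : ℂ) ^ w * kp a x.s w) *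
      PP (rc (x.sh a ρ w).ψ u) a (x.sh a ρ w).P (x.sh a ρ w).s := by
  rw [Tq, PP, ← tsum_mul_left]
  refine tsum_congr fun m => ?_
  have h := LN_mul_cpow ha hx (nm_prim_pos m.2) x.s w
  rw [one_mul, wQ]
  split_ifs
  · simp only [th, rc, kp, Slot.sh]
    linear_combination x.ψ m * ρ m * sx u m * h
  · simp

/-- `D m` prime and `D ≠ 1` primary force `m = 1` (`Prim.eq_one_of_isUnit`); `tsum_eq_single` -/
theorem Tq_wQ_ne {α : ℝ} {θ : O → ℂ} (hθ : Mu α θ) (a : ℝ) (x : Slot) {D : O} (hD : Prim D)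
    (h1 : D ≠ 1) : Tq (wQ a x) D θ = wQ a x D := by
  rw [Tq, tsum_eq_single (1 : Pr)]
  · simp [hθ.one]
  · intro m hm
    rw [wQ, if_neg, zero_mul]
    intro hp
    rcases hp.irreducible.isUnit_or_isUnit rfl with h | h
    · exact h1 (hD.eq_one_of_isUnit h)
    · exact hm (Subtype.ext (Prim.eq_one_of_isUnit m.2 h))

theorem Single_pow {Y Z η : ℝ} (hY : 0 < Y) (hZ : Y ≤ Z) (hη : 0 < η) :
    (Y ^ (2 * η - 1)) ^ 2 ≤ Z ^ (4 * η) / Y ^ 2 := by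
  have e : (Y ^ (2 * η - 1)) ^ 2 = Y ^ (4 * η) / Y ^ 2 := by
    rw [← Real.rpow_natCast, ← Real.rpow_mul hY.le, ← Real.rpow_natCast, ← Real.rpow_sub hY]
    congr 1
    push_cast
    ring
  rw [e]
  gcongr

/-- `(N/D)^(2α) · (N/D) e^(a²α) = (D/N) (N/D)^(4η) e^(a²α)`, `α = 2η - 1` -/
theorem norm_Tq_wP_le {a η : ℝ} (ha : 0 < a) (hη : 0 < η) : ∃ C : ℝ, 0 < C ∧
    ∀ (q : O) (ψ ρ : O → ℂ) (N t τ Z : ℝ) (D u : O), q ≠ 0 → IsTw q ψ → 0 < N → N ≤ Z → Prim D →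
      ‖Tq (wP ψ a N t) D (th ρ (wt η τ) u)‖ ^ 2 ≤ C * Z ^ (4 * η) * (nm D / N) *
        nS (fun n => ψ n * ρ n) a (N * Real.exp (a ^ 2 * (2 * η - 1)) / nm D) (t + τ) u := by
  refine ⟨Real.exp (a ^ 2 * (2 * η - 1) ^ 2 / 2) ^ 2 * Real.exp (a ^ 2 * (2 * η - 1)), by positivity,
    fun q ψ ρ N t τ Z D u hq hψ hN hZ hD => ?_⟩
  have hD0 := nm_prim_pos hD
  have hY : 0 < N / nm D := div_pos hN hD0
  have hYZ : N / nm D ≤ Z := (div_le_self hN.le (one_le_nm_prim hD)).trans hZ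
  rw [Tq_wP hψ ha hN hD, norm_mul, norm_mul, norm_mul, norm_kp,
    Complex.norm_cpow_eq_rpow_re_of_pos hY, wt_re, wt_im, nS, mul_div_right_comm N]
  set S := ‖PS (rc (fun n => ψ n * ρ n) u) a (N / nm D * Real.exp (a ^ 2 * (2 * η - 1))) (t + τ)‖
  have h1 : ‖ψ D‖ ^ 2 ≤ 1 := pow_le_one₀ (norm_nonneg _) (hψ.norm_le hq D)
  have h2 := Single_pow hY hYZ hη
  have e : Real.exp (a ^ 2 * (2 * η - 1) ^ 2 / 2) ^ 2 * Real.exp (a ^ 2 * (2 * η - 1)) *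
      Z ^ (4 * η) * (nm D / N) * (S ^ 2 / (N / nm D * Real.exp (a ^ 2 * (2 * η - 1)))) =
      1 * (Z ^ (4 * η) / (N / nm D) ^ 2 * Real.exp (a ^ 2 * (2 * η - 1) ^ 2 / 2) ^ 2) * S ^ 2 := by
    field_simp
  rw [e, mul_pow, mul_pow, mul_pow]
  gcongr

/-- `D = 1`: `Tq_wQ_one`; `D ≠ 1`: `Tq_wQ_ne` and `‖LN‖² ≤ ‖LN‖ ≤ C N(D)/P` (`norm_LN_le_rpow`, `σ = -1`) -/
theorem norm_Tq_wQ_le {a η : ℝ} (ha : 0 < a) (hη : 0 < η) : ∃ C : ℝ, 0 < C ∧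
    ∀ (x : Slot) (ρ : O → ℂ) (τ Z : ℝ) (D u : O), (∀ n, ‖x.ψ n‖ ≤ 1) → IsTw 4 ρ → 0 < x.P →
      x.P ≤ Z → 1 ≤ Z → Prim D →
      ‖Tq (wQ a x) D (th ρ (wt η τ) u)‖ ^ 2 ≤
        C * Z ^ (4 * η) * (1 + nP a u (x.sh a ρ (wt η τ))) / x.P * nm D := by
  refine ⟨Real.exp (a ^ 2 * (2 * η - 1) ^ 2 / 2) ^ 2 * Real.exp (a ^ 2 * (2 * η - 1)) +
    Real.exp (a ^ 2 * (-1) ^ 2 / 2), by positivity, fun x ρ τ Z D u hψ hρ hP hPZ hZ hD => ?_⟩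
  have hn : 0 ≤ nP a u (x.sh a ρ (wt η τ)) :=
    nP_nonneg a u (mul_pos hP (Real.exp_pos _))
  have hZ1 : 1 ≤ Z ^ (4 * η) := Real.one_le_rpow hZ (by positivity)
  by_cases h1 : D = 1
  · subst h1
    have h2 := Single_pow hP hPZ hη
    have e1 : ‖PP (rc (x.sh a ρ (wt η τ)).ψ u) a (x.sh a ρ (wt η τ)).P (x.sh a ρ (wt η τ)).s‖ ^ 2 =
        nP a u (x.sh a ρ (wt η τ)) * (x.P * Real.exp (a ^ 2 * (2 * η - 1))) := by
      have : (x.sh a ρ (wt η τ)).P = x.P * Real.exp (a ^ 2 * (2 * η - 1)) := by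
        rw [Slot.sh, wt_re]
      rw [nP, ← this, div_mul_cancel₀]
      rw [this]
      positivity
    rw [Tq_wQ_one ha hP, norm_mul, norm_mul, norm_kp, Complex.norm_cpow_eq_rpow_re_of_pos hP, wt_re,
      mul_pow, mul_pow, e1, nm_one, mul_one]
    calc _ ≤ Z ^ (4 * η) / x.P ^ 2 * Real.exp (a ^ 2 * (2 * η - 1) ^ 2 / 2) ^ 2 *
          ((1 + nP a u (x.sh a ρ (wt η τ))) * (x.P * Real.exp (a ^ 2 * (2 * η - 1)))) := by
          gcongr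
          linarith
      _ = Real.exp (a ^ 2 * (2 * η - 1) ^ 2 / 2) ^ 2 * Real.exp (a ^ 2 * (2 * η - 1)) *
          Z ^ (4 * η) * (1 + nP a u (x.sh a ρ (wt η τ))) / x.P := by field_simp
      _ ≤ _ := by
          gcongr
          exact le_add_of_nonneg_right (Real.exp_pos _).le
  · rw [Tq_wQ_ne (mu_th hρ _ u) a x hD h1]
    have hD0 := nm_prim_pos hD
    have e1 : ‖wQ a x D‖ ≤ ‖LN a x.P x.s (nm D)‖ := by
      have := maj_wQ hψ a D hD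
      rwa [one_mul, norm_LN_twist a x.P 0 x.s] at this
    have e2 := norm_LN_le_rpow ha hP hD0 x.s (-1)
    rw [neg_neg, Real.rpow_one, Real.rpow_neg_one] at e2
    have e3 : ‖wQ a x D‖ ^ 2 ≤ ‖wQ a x D‖ := by
      rw [pow_two]
      exact mul_le_of_le_one_left (norm_nonneg _) (e1.trans (norm_LN_le_one _ _ _ _))
    calc _ ≤ Real.exp (a ^ 2 * (-1) ^ 2 / 2) * x.P⁻¹ * nm D := e3.trans (e1.trans e2)
      _ = Real.exp (a ^ 2 * (-1) ^ 2 / 2) * 1 * 1 / x.P * nm D := by ring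
      _ ≤ _ := by
          gcongr
          · exact le_add_of_nonneg_left (by positivity)
          · linarith


end Crest.Agent.R17.M2
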