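import Crest.Agent.R17.M2.Main
import Crest.Agent.R17.M2.Plus
import Crest.Agent.R17.M2.Max

/-! Row 17, block M2 (owner helper24): the induction. -/

set_option autoImplicit false

namespace Crest.Agent.R17.M2

open scoped ComplexConjugate
open Complex

variable {q : O} {κ σ : ℝ} {j d : ℕ}

theorem stp_root {U Y : ℝ} (hY : 1 ≤ Y) (h : Y ^ 12 ≤ U) : ∃ w : ℝ, Y ≤ w ∧ U = w ^ 12 ∧
    U ^ (5 / 6 : ℝ) = w ^ 10 ∧ U ^ (1 / 6 : ℝ) = w ^ 2 := by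
  have hU : 0 ≤ U := le_trans (by positivity) h
  have e : ∀ n : ℕ, (U ^ (1 / 12 : ℝ)) ^ n = U ^ ((n : ℝ) / 12) := fun n => by
    rw [← Real.rpow_natCast, ← Real.rpow_mul hU]; congr 1; ring
  have e12 : U = (U ^ (1 / 12 : ℝ)) ^ 12 := by rw [e]; norm_num
  refine ⟨U ^ (1 / 12 : ℝ), ?_, e12, by rw [e]; norm_num, by rw [e]; norm_num⟩
  rw [e12] at h
  exact le_of_pow_le_pow_left₀ (by norm_num) (by positivity) h

theorem stp_num {w y N₁ N₂ Q : ℝ} (hw : 1 ≤ w) (hy : 1 ≤ y) (h₁ : 0 < N₁) (h₂ : 0 < N₂)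
    (hQ : Q ≤ y ^ 2) (hW : max N₁ 1 * max N₂ 1 * y ^ 6 ≤ w ^ 12)
    (hX : w ^ 10 ≤ N₁ * N₂ * Q) (hN : N₁ ≤ w ^ 2) : y ^ 6 ≤ w ^ 3 ∧ Q ≤ w ∧ w ^ 7 ≤ N₂ := by
  have k1 : N₁ * N₂ * y ^ 6 ≤ w ^ 12 := le_trans (by gcongr <;> exact le_max_left _ _) hW
  have k2 : w ^ 10 * (y ^ 2) ^ 2 ≤ w ^ 10 * w ^ 2 := by
    calc w ^ 10 * (y ^ 2) ^ 2 ≤ N₁ * N₂ * y ^ 2 * (y ^ 2) ^ 2 := by
          gcongr; exact hX.trans (by gcongr)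
      _ = N₁ * N₂ * y ^ 6 := by ring
      _ ≤ w ^ 12 := k1
      _ = _ := by ring
  have k3 : y ^ 2 ≤ w :=
    le_of_pow_le_pow_left₀ (by norm_num) (by positivity) (le_of_mul_le_mul_left k2 (by positivity))
  refine ⟨?_, hQ.trans k3, ?_⟩
  · calc y ^ 6 = (y ^ 2) ^ 3 := by ring
      _ ≤ _ := by gcongr
  · have k4 : w ^ 3 * w ^ 7 ≤ w ^ 3 * N₂ := by
      calc w ^ 3 * w ^ 7 = w ^ 10 := by ring
        _ ≤ N₁ * N₂ * Q := hX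
        _ ≤ N₁ * N₂ * w := by gcongr; exact hQ.trans k3
        _ ≤ w ^ 2 * N₂ * w := by gcongr
        _ = _ := by ring
    exact le_of_mul_le_mul_left k4 (by positivity)

/-- Put `w = U^(1/12) ≥ Y`, `y = Y^len`, so `U = w^12`, `QL ≤ y²` (`QL_le`), `N₁ N₂ y⁶ ≤ W ≤ w^12`.
From `w^10 ≤ X ≤ N₁ N₂ y²`: `y⁴ ≤ w²`, so `y⁶ ≤ w³`, `QL ≤ w`, `N₂ ≥ w^10 / (w² w) ≥ w⁶`.
`MomOn.reflect` with `V = U`: `N' ≤ Y w⁶`, width `≤ w² · w⁷ · w³`, length `≤ w² · Y w⁶ · w ≤ w^10 Y`. -/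
theorem momOn_beta (hq : Lev q) (hκ : 3 / 4 ≤ κ) (hσ : 0 < σ)
    (hα : MomOn q κ σ j 12 fun D => H1 d D ∧ D.X ≤ D.U ^ (5 / 6 : ℝ) * D.Y) :
    MomOn q κ σ j 12 fun D => H1 d D ∧ D.U ^ (5 / 6 : ℝ) ≤ D.X ∧ D.N₁ ≤ D.U ^ (1 / 6 : ℝ) := by
  refine MomOn.reflect hq hκ hσ hα fun D hD ⟨⟨h12, hd, hW⟩, hX, hN⟩ => ?_
  obtain ⟨w, hYw, hU, h56, h16⟩ := stp_root hD.hY h12
  have hY := hD.hY
  have hw : 1 ≤ w := hY.trans hYw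
  have hy : 1 ≤ D.Y ^ D.L.length := one_le_pow₀ hY
  have hQ : QL D.L ≤ (D.Y ^ D.L.length) ^ 2 := by
    rw [← pow_mul, mul_comm]; exact QL_le hD.slot hκ hY
  have hQ0 : 0 < QL D.L := QL_pos fun x hx => (hD.slot x hx).pos
  have e6 : D.Y ^ (6 * D.L.length) = (D.Y ^ D.L.length) ^ 6 := by rw [← pow_mul, mul_comm]
  rw [h56] at hX
  rw [h16] at hN
  have hW' : max D.N₁ 1 * max D.N₂ 1 * (D.Y ^ D.L.length) ^ 6 ≤ w ^ 12 := by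
    rw [← e6, ← hU]; exact hW
  obtain ⟨k1, k2, k3⟩ := stp_num hw hy hD.pos₁ hD.pos₂ hQ hW' hX hN
  have hm : max D.N₁ 1 ≤ w ^ 2 := max_le hN (one_le_pow₀ hw)
  refine ⟨(one_le_pow₀ hw).trans k3, ?_, fun δ hδ hδσ => ⟨D.U, le_rfl, hD.hUZ,
    le_mul_of_one_le_right (by linarith [hD.hU]) (Real.one_le_rpow hD.hZ hδ.le),
    fun χ N' hN0 hN' => ?_⟩⟩
  · calc max D.N₁ 1 * D.Y ^ (6 * D.L.length) ≤ w ^ 2 * w ^ 3 := by rw [e6]; gcongr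
      _ = w ^ 5 := by ring
      _ ≤ w ^ 12 := pow_le_pow_right₀ hw (by norm_num)
      _ ≤ D.Z := hU ▸ hD.hUZ
  · have hZδ : D.Z ^ δ ≤ D.Y := (Real.rpow_le_rpow_of_exponent_le hD.hZ hδσ).trans hD.hZY
    have hN5 : N' ≤ D.Y * w ^ 5 := by
      refine hN'.trans ?_
      rw [div_le_iff₀ hD.pos₂]
      calc D.Z ^ δ * D.U ≤ D.Y * w ^ 12 := by rw [← hU]; gcongr; linarith [hD.hU]
        _ = D.Y * w ^ 5 * w ^ 7 := by ring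
        _ ≤ _ := by gcongr
    have hm' : max N' 1 ≤ w ^ 6 := by
      refine max_le (hN5.trans ?_) (one_le_pow₀ hw)
      calc D.Y * w ^ 5 ≤ w * w ^ 5 := by gcongr
        _ = _ := by ring
    refine ⟨⟨h12, hd, ?_⟩, ?_⟩
    · show max D.N₁ 1 * max N' 1 * D.Y ^ (6 * D.L.length) ≤ D.U
      calc _ ≤ w ^ 2 * w ^ 6 * w ^ 3 := by rw [e6]; gcongr
        _ = w ^ 11 := by ring
        _ ≤ w ^ 12 := pow_le_pow_right₀ hw (by norm_num)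
        _ = _ := hU.symm
    · show D.N₁ * N' * QL D.L ≤ D.U ^ (5 / 6 : ℝ) * D.Y
      rw [h56]
      calc _ ≤ w ^ 2 * (D.Y * w ^ 5) * w := by gcongr
        _ = w ^ 8 * D.Y := by ring
        _ ≤ _ := by gcongr; norm_num

/-- `momP_of`, `maxP_of`; cases: `U ≤ Y^12` (`momOn_base`), alpha, beta, swapped beta, gamma -/
theorem momOn_step (hq : Lev q) (hκ : 3 / 4 ≤ κ) (hσ : 0 < σ) (hD : Drop q κ)
    (h : MomOn q κ σ j 12 (H0 d)) : MomOn q κ σ j 12 (H0 (d + 1)) := by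
  have hM := maxP_of hq (momP_of hq hκ hσ hD h)
  have hα := momOn_alpha hq hκ hM
  have hβ := momOn_beta hq hκ hσ hα
  have hγ := momOn_gamma hq hκ hM hβ
  refine (((((momOn_base hq hκ).or hα).or hβ).or hβ.swap).or hγ).mono fun D hD' ⟨hd, hW⟩ => ?_
  rcases le_total D.U (D.Y ^ 12) with h1 | h1
  · exact Or.inl (Or.inl (Or.inl (Or.inl ⟨h1, hW⟩)))
  have hH : H1 d D := ⟨h1, hd, hW⟩
  rcases le_total D.X (D.U ^ (5 / 6 : ℝ)) with h2 | h2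
  · refine Or.inl (Or.inl (Or.inl (Or.inr ⟨hH, h2.trans ?_⟩)))
    exact le_mul_of_one_le_right (Real.rpow_nonneg (by linarith [hD'.hU]) _) hD'.hY
  rcases le_total D.N₁ (D.U ^ (1 / 6 : ℝ)) with h3 | h3
  · exact Or.inl (Or.inl (Or.inr ⟨hH, h2, h3⟩))
  rcases le_total D.N₂ (D.U ^ (1 / 6 : ℝ)) with h4 | h4
  · refine Or.inl (Or.inr ⟨⟨h1, hd, ?_⟩, ?_, h4⟩)
    · rw [swap_W]; exact hW
    · rw [swap_X]; exact h2
  · exact Or.inr ⟨hH, h2, h3, h4⟩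

theorem momOn_all (hq : Lev q) (hκ : 3 / 4 ≤ κ) (hσ : 0 < σ) (hD : Drop q κ) (d : ℕ) :
    MomOn q κ σ j 12 (H0 d) := by
  induction d with
  | zero =>
    refine (momOn_base hq hκ).mono fun D hD' ⟨hd, hW⟩ => ⟨hd.trans ?_, hW⟩
    exact pow_le_pow_right₀ hD'.hY (by norm_num)
  | succ d ih => exact momOn_step hq hκ hσ hD ih


end Crest.Agent.R17.M2
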