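import Crest.Agent.R17.M2.Basic

/-! Row 17, block M2 (owner helper24): second Poisson step: diagonal and tails. -/

set_option autoImplicit false

namespace Crest.Agent.R17.M2

open scoped ComplexConjugate
open Complex

theorem s2a_lab {V : ℝ} {l : O × O × O} (hl : l ∈ Lab V) :
    1 ≤ nm l.1 ∧ 1 ≤ nm l.2.1 ∧ 1 ≤ nm l.2.2 ∧ nm l.1 * nm l.2.1 * nm l.2.2 ≤ V ∧
      Prim (l.1 * l.2.1 * l.2.2) := by
  obtain ⟨he, hf, hj, hs⟩ := mem_Lab'.1 hl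
  refine ⟨one_le_nm_prim he, one_le_nm_prim hf, one_le_nm_prim hj, ?_, hs.1⟩
  rw [← nm_mul, ← nm_mul]
  exact hs.2.2.2

theorem s2a_lab_le {V : ℝ} {l : O × O × O} (hl : l ∈ Lab V) :
    nm l.1 ≤ V ∧ nm l.2.1 ≤ V ∧ nm l.2.2 ≤ V ∧ nm l.1 * nm l.2.2 ≤ V := by
  obtain ⟨h1, h2, h3, h4, -⟩ := s2a_lab hl
  have a : 1 ≤ nm l.1 * nm l.2.1 := one_le_mul_of_one_le_of_one_le h1 h2
  have b : 1 ≤ nm l.2.1 * nm l.2.2 := one_le_mul_of_one_le_of_one_le h2 h3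
  have c : 1 ≤ nm l.1 * nm l.2.2 := one_le_mul_of_one_le_of_one_le h1 h3
  refine ⟨by nlinarith, by nlinarith, by nlinarith, by nlinarith⟩

theorem s2a_child_le {f ρ : O → ℂ} (hρ : IsTw 4 ρ) (η τ : ℝ) (l : O × O × O) {m : O}
    (hm : Prim m) :
    ‖child f ρ (η + τ * I) l m‖ ≤ ‖f (l.1 * l.2.1 * l.2.2 * m)‖ * nm m ^ (η - 1 / 2) := by
  rw [child, norm_mul, norm_mul, Complex.norm_cpow_eq_rpow_re_of_pos (nm_prim_pos hm)]
  have e : ((η : ℂ) + τ * I - 1 / 2).re = η - 1 / 2 := by simp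
  rw [e]
  refine mul_le_mul_of_nonneg_right ?_ (Real.rpow_nonneg (nm_nonneg _) _)
  exact mul_le_of_le_one_right (norm_nonneg _) (hρ.norm_le four_ne m)

theorem s2a_tail_sum {a : ℝ} (ha : 0 < a) (θ : ℝ) (A : ℕ) : ∃ C : ℝ, 0 < C ∧
    ∀ (f c : O → ℂ) (X B : ℝ) (R : O), 0 < X → 0 ≤ B → Maj a X B f → Prim R →
      (∀ m, Prim m → ‖c m‖ ≤ ‖f (R * m)‖ * nm m ^ θ) →
      ∑' n : Pr, ‖c n‖ * (nm n / (X / nm R)) ^ A ≤ C * B * (X / nm R) ^ (θ + 1) := by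
  obtain ⟨C, hC, h⟩ := maj_sum ha (θ + A)
  refine ⟨C, hC, fun f c X B R hX hB hf hR hc => ?_⟩
  obtain ⟨h1, h2⟩ := h f X B R hX hB hf hR
  have hX' : 0 < X / nm R := div_pos hX (nm_prim_pos hR)
  set X' := X / nm R with hX'def
  have hle : ∀ n : Pr, ‖c n‖ * (nm n / X') ^ A ≤
      (X' ^ A)⁻¹ * (‖f (R * n)‖ * nm n ^ (θ + A)) := fun n => by
    have hn := nm_prim_pos (Pr_prim n)
    rw [Real.rpow_add hn, Real.rpow_natCast, div_pow]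
    calc ‖c n‖ * (nm n ^ A / X' ^ A) ≤ ‖f (R * n)‖ * nm n ^ θ * (nm n ^ A / X' ^ A) :=
          mul_le_mul_of_nonneg_right (hc _ (Pr_prim n)) (by positivity)
      _ = _ := by ring
  have hs := h1.mul_left (X' ^ A)⁻¹
  have hnn : ∀ n : Pr, 0 ≤ ‖c n‖ * (nm n / X') ^ A := fun n =>
    mul_nonneg (norm_nonneg _) (pow_nonneg (div_nonneg (nm_nonneg _) hX'.le) _)
  calc _ ≤ ∑' n : Pr, (X' ^ A)⁻¹ * (‖f (R * n)‖ * nm n ^ (θ + A)) :=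
        (Summable.of_nonneg_of_le hnn hle hs).tsum_le_tsum hle hs
    _ = (X' ^ A)⁻¹ * ∑' n : Pr, ‖f (R * n)‖ * nm n ^ (θ + A) := tsum_mul_left
    _ ≤ (X' ^ A)⁻¹ * (C * B * X' ^ (θ + A + 1)) := by gcongr
    _ = _ := by
        rw [show θ + A + 1 = (θ + 1) + A by ring, Real.rpow_add hX', Real.rpow_natCast]
        field_simp

theorem s2a_T {η Z : ℝ} {A : ℕ} (hA : 13 ≤ η * (A - 1)) (hZ : 1 ≤ Z) :
    0 ≤ Z ^ η / (Z ^ η) ^ A ∧ Z ^ η / (Z ^ η) ^ A ≤ (Z ^ 13)⁻¹ := by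
  have h0 : 0 < Z := by linarith
  refine ⟨by positivity, ?_⟩
  rw [← Real.rpow_natCast (Z ^ η), ← Real.rpow_mul h0.le, ← Real.rpow_sub h0,
    ← Real.rpow_natCast Z 13, ← Real.rpow_neg h0.le]
  exact Real.rpow_le_rpow_of_exponent_le hZ (by push_cast; nlinarith)

theorem s2a_V {η X Y Z : ℝ} (hη : 0 < η) (hZ : 1 ≤ Z) (hX : 0 < X) (hXZ : X ≤ Z) (hY : 1 ≤ Y)
    (hYZ : Y ≤ Z) (h : Z ^ η ≤ Z) :
    X * Z ^ η * Y ≤ Z ^ 3 ∧ (X * Z ^ η * Y) ^ (2 * η) ≤ Z ^ (6 * η) := by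
  have h0 : 0 < Z := by linarith
  have h1 : X * Z ^ η * Y ≤ Z ^ 3 := by
    calc X * Z ^ η * Y ≤ Z * Z * Z := by gcongr
      _ = Z ^ 3 := by ring
  refine ⟨h1, ?_⟩
  calc (X * Z ^ η * Y) ^ (2 * η) ≤ (Z ^ 3) ^ (2 * η) := by gcongr
    _ = Z ^ (6 * η) := by
        rw [← Real.rpow_natCast, ← Real.rpow_mul h0.le]; congr 1; push_cast; ring

/-- `N e N j² ≤ V²` and `K ≥ 1` -/
theorem pre_le {η K V : ℝ} (hη : 0 < η) (hK : 1 ≤ K) {l : O × O × O} (hl : l ∈ Lab V) :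
    0 ≤ pre η K l ∧ pre η K l ≤ K / (nm l.1 * nm l.2.2) * V ^ (2 * η) := by
  obtain ⟨h1, h2, h3, -, -⟩ := s2a_lab hl
  obtain ⟨-, -, g3, g4⟩ := s2a_lab_le hl
  have hV : 0 ≤ V := by linarith
  unfold pre
  refine ⟨by positivity, mul_le_mul_of_nonneg_left ?_ (by positivity)⟩
  have : nm l.1 * nm l.2.2 ^ 2 / K ≤ V ^ 2 := by
    calc nm l.1 * nm l.2.2 ^ 2 / K ≤ nm l.1 * nm l.2.2 ^ 2 := div_le_self (by positivity) hK
      _ = nm l.1 * nm l.2.2 * nm l.2.2 := by ring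
      _ ≤ V * V := by gcongr
      _ = V ^ 2 := by ring
  calc _ ≤ (V ^ 2) ^ η := by gcongr
    _ = _ := by rw [← Real.rpow_natCast, ← Real.rpow_mul hV]; norm_num

/-- `‖child‖² ≤ ‖f (e g j m)‖² N(m)^(2η-1)`, `maj_sum_sq`: `l2 ≤ C B² Z^(2η)`;
`pre · Y⁶ len ≤ Z^(6η) Y⁶ T X² / (N e² N g² N j)`; three times `sum_inv_nm_le` on `ball (Z³)` -/
theorem step2_diag {a η : ℝ} (ha : 0 < a) (hη : 0 < η) : ∃ C : ℝ, 0 < C ∧
    ∀ (f ρ : O → ℂ) (X B K Y Z τ : ℝ), 1 ≤ K → 1 ≤ Z → 0 < X → X ≤ Z → 1 ≤ Y → Y ≤ Z → Z ^ η ≤ Z →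
      0 ≤ B → Maj a X B f → IsTw 4 ρ →
      ∑ l ∈ Lab (X * Z ^ η * Y), pre η K l *
          (Y ^ 6 * len K X (Z ^ η) l * l2 (child f ρ (η + τ * I) l)) ≤
        C * Z ^ (10 * η) * Y ^ 6 * X ^ 2 * B ^ 2 := by
  obtain ⟨C₁, hC₁, h₁⟩ := maj_sum_sq ha (2 * η - 1)
  set s : ℝ := 1 + min (η / 3) 1 with hs
  have hs1 : 1 < s := by
    have : 0 < min (η / 3) 1 := lt_min (by linarith) one_pos
    linarith
  have hs2 : s ≤ 2 := by have := min_le_right (η / 3) 1; linarith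
  have hs3 : s - 1 ≤ η / 3 := by have := min_le_left (η / 3) 1; linarith
  obtain ⟨C₂, hC₂, h₂⟩ := sum_Lab_le hs1
  refine ⟨C₁ * C₂, by positivity, fun f ρ X B K Y Z τ hK hZ hX hXZ hY hYZ hT hB hf hρ => ?_⟩
  have h0 : 0 < Z := by linarith
  obtain ⟨hV, hV'⟩ := s2a_V hη hZ hX hXZ hY hYZ hT
  have key : ∀ l ∈ Lab (X * Z ^ η * Y), pre η K l *
      (Y ^ 6 * len K X (Z ^ η) l * l2 (child f ρ (η + τ * I) l)) ≤
      C₁ * Z ^ (10 * η) * Y ^ 6 * X ^ 2 * B ^ 2 *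
        (nm l.1 ^ (-s) * nm l.2.1 ^ (-s) * nm l.2.2 ^ (-s)) := fun l hl => by
    obtain ⟨a1, a2, a3, -, hd⟩ := s2a_lab hl
    obtain ⟨-, -, g3, -⟩ := s2a_lab_le hl
    obtain ⟨p0, p1⟩ := pre_le hη hK hl
    obtain ⟨q1, q2⟩ := h₁ f X B _ hX hB hf hd
    have hle : ∀ n : Pr, ‖child f ρ (η + τ * I) l n‖ ^ 2 ≤
        ‖f (l.1 * l.2.1 * l.2.2 * n)‖ ^ 2 * nm n ^ (2 * η - 1) := fun n => by
      calc _ ≤ (‖f (l.1 * l.2.1 * l.2.2 * n)‖ * nm n ^ (η - 1 / 2)) ^ 2 := by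
            gcongr
            exact s2a_child_le hρ η τ l (Pr_prim n)
        _ = _ := by
            rw [mul_pow, ← Real.rpow_natCast (nm n ^ (η - 1 / 2)), ← Real.rpow_mul (nm_nonneg _)]
            congr 2; push_cast; ring
    have hl2 : l2 (child f ρ (η + τ * I) l) ≤ C₁ * B ^ 2 * Z ^ (2 * η) := by
      refine ((Summable.of_nonneg_of_le (fun n => sq_nonneg _) hle q1).tsum_le_tsum hle q1).trans
        (q2.trans ?_)
      have : X / nm (l.1 * l.2.1 * l.2.2) ≤ Z := (div_le_self hX.le (one_le_nm_prim hd)).trans hXZ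
      have hp : 0 ≤ X / nm (l.1 * l.2.1 * l.2.2) := div_nonneg hX.le (nm_nonneg _)
      rw [sub_add_cancel]
      gcongr
    have hl0 : 0 ≤ l2 (child f ρ (η + τ * I) l) := tsum_nonneg fun n => sq_nonneg _
    have e1 : (nm l.1 ^ 2)⁻¹ ≤ nm l.1 ^ (-s) := by
      rw [← Real.rpow_natCast, ← Real.rpow_neg (nm_nonneg _)]
      exact Real.rpow_le_rpow_of_exponent_le a1 (by push_cast; linarith)
    have e2 : (nm l.2.1 ^ 2)⁻¹ ≤ nm l.2.1 ^ (-s) := by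
      rw [← Real.rpow_natCast, ← Real.rpow_neg (nm_nonneg _)]
      exact Real.rpow_le_rpow_of_exponent_le a2 (by push_cast; linarith)
    have e3 : (nm l.2.2)⁻¹ ≤ nm l.2.2 ^ (-s) * Z ^ η := by
      have : (nm l.2.2)⁻¹ = nm l.2.2 ^ (-s) * nm l.2.2 ^ (s - 1) := by
        rw [← Real.rpow_add (by linarith), ← Real.rpow_neg_one]; congr 1; ring
      rw [this]
      refine mul_le_mul_of_nonneg_left ?_ (Real.rpow_nonneg (nm_nonneg _) _)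
      calc nm l.2.2 ^ (s - 1) ≤ nm l.2.2 ^ (η / 3) := Real.rpow_le_rpow_of_exponent_le a3 hs3
        _ ≤ (Z ^ 3) ^ (η / 3) := by gcongr; exact g3.trans hV
        _ = Z ^ η := by
            rw [← Real.rpow_natCast, ← Real.rpow_mul h0.le]; congr 1; push_cast; ring
    have e4 : Z ^ (10 * η) = Z ^ (6 * η) * Z ^ η * Z ^ (2 * η) * Z ^ η := by
      rw [← Real.rpow_add h0, ← Real.rpow_add h0, ← Real.rpow_add h0]; congr 1; ring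
    have hK0 : 0 < K := by linarith
    have hlen : 0 ≤ len K X (Z ^ η) l := by unfold len; positivity
    calc _ ≤ K / (nm l.1 * nm l.2.2) * Z ^ (6 * η) *
          (Y ^ 6 * len K X (Z ^ η) l * (C₁ * B ^ 2 * Z ^ (2 * η))) := by
          gcongr
          exact p1.trans (by gcongr)
      _ = C₁ * (Z ^ (6 * η) * Z ^ η * Z ^ (2 * η)) * Y ^ 6 * X ^ 2 * B ^ 2 *
          ((nm l.1 ^ 2)⁻¹ * (nm l.2.1 ^ 2)⁻¹ * (nm l.2.2)⁻¹) := by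
          unfold len; field_simp
      _ ≤ C₁ * (Z ^ (6 * η) * Z ^ η * Z ^ (2 * η)) * Y ^ 6 * X ^ 2 * B ^ 2 *
          (nm l.1 ^ (-s) * nm l.2.1 ^ (-s) * (nm l.2.2 ^ (-s) * Z ^ η)) := by gcongr
      _ = _ := by rw [e4]; ring
  refine (Finset.sum_le_sum key).trans ?_
  rw [← Finset.mul_sum]
  calc _ ≤ C₁ * Z ^ (10 * η) * Y ^ 6 * X ^ 2 * B ^ 2 * C₂ := by gcongr; exact h₂ _
    _ = _ := by ring

/-- `X_l = X / N(e g j) ≤ X`.  `∑ ‖child‖ (N m / X_l)^A ≤ C B X_l^(η+1/2)` (`maj_sum`, `σ = A + η - 1/2`);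
`pre ≤ K Z^(6η)`, `#Lab ≤ (11 Z³)³`, `(1 + X_l)³ ≤ 8 Z³`, `T / T^A ≤ Z^(-13)` -/
theorem step2_tail {a η : ℝ} (ha : 0 < a) (hη : 0 < η) (hη' : η ≤ 1 / 100) {A : ℕ}
    (hA : 13 ≤ η * (A - 1)) : ∃ C : ℝ, 0 < C ∧
    ∀ (f ρ : O → ℂ) (X B K Y Z τ : ℝ), 1 ≤ K → 1 ≤ Z → 0 < X → X ≤ Z → 1 ≤ Y → Y ≤ Z →
      0 ≤ B → Maj a X B f → IsTw 4 ρ →
      ∑ l ∈ Lab (X * Z ^ η * Y), pre η K l *
          tail A (child f ρ (η + τ * I) l) (X / nm (l.1 * l.2.1 * l.2.2)) (Z ^ η) ≤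
        C * B ^ 2 * K * X := by
  classical
  obtain ⟨C₁, hC₁, h₁⟩ := s2a_tail_sum ha (η - 1 / 2) A
  refine ⟨1331 * 8 * C₁ ^ 2, by positivity,
    fun f ρ X B K Y Z τ hK hZ hX hXZ hY hYZ hB hf hρ => ?_⟩
  have h0 : 0 < Z := by linarith
  have hT : Z ^ η ≤ Z := by
    simpa using Real.rpow_le_rpow_of_exponent_le hZ (show η ≤ 1 by linarith)
  obtain ⟨hV, hV'⟩ := s2a_V hη hZ hX hXZ hY hYZ hT
  obtain ⟨t0, t1⟩ := s2a_T hA hZ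
  have key : ∀ l ∈ Lab (X * Z ^ η * Y), pre η K l *
      tail A (child f ρ (η + τ * I) l) (X / nm (l.1 * l.2.1 * l.2.2)) (Z ^ η) ≤
      8 * C₁ ^ 2 * B ^ 2 * K * X * (Z ^ 9)⁻¹ := fun l hl => by
    obtain ⟨a1, a2, a3, -, hd⟩ := s2a_lab hl
    obtain ⟨p0, p1⟩ := pre_le hη hK hl
    have q := h₁ f (child f ρ (η + τ * I) l) X B _ hX hB hf hd fun m hm =>
      s2a_child_le hρ η τ l hm
    set X' := X / nm (l.1 * l.2.1 * l.2.2) with hX'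
    have b0 : 0 < X' := div_pos hX (nm_prim_pos hd)
    have b1 : X' ≤ X := div_le_self hX.le (one_le_nm_prim hd)
    have q0 : 0 ≤ ∑' n : Pr, ‖child f ρ (η + τ * I) l n‖ * (nm n / X') ^ A :=
      tsum_nonneg fun n => mul_nonneg (norm_nonneg _) (pow_nonneg (div_nonneg (nm_nonneg _) b0.le) _)
    have c1 : (X' ^ (η - 1 / 2 + 1)) ^ 2 ≤ X * Z ^ (2 * η) := by
      rw [← Real.rpow_natCast, ← Real.rpow_mul b0.le,
        show (η - 1 / 2 + 1) * ((2 : ℕ) : ℝ) = 1 + 2 * η by push_cast; ring, Real.rpow_add b0,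
        Real.rpow_one]
      gcongr
      exact b1.trans hXZ
    have c2 : pre η K l ≤ K * Z ^ (6 * η) := by
      refine p1.trans ?_
      have : K / (nm l.1 * nm l.2.2) ≤ K :=
        div_le_self (by linarith) (one_le_mul_of_one_le_of_one_le a1 a3)
      gcongr
    have c3 : (1 + X') ^ 3 ≤ 8 * Z ^ 3 := by
      calc (1 + X') ^ 3 ≤ (2 * Z) ^ 3 := by gcongr; linarith
        _ = _ := by ring
    have c4 : Z ^ (6 * η) * Z ^ (2 * η) ≤ Z := by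
      rw [← Real.rpow_add h0]
      simpa using Real.rpow_le_rpow_of_exponent_le hZ (show 6 * η + 2 * η ≤ 1 by linarith)
    unfold tail
    calc _ ≤ K * Z ^ (6 * η) * ((Z ^ 13)⁻¹ * (8 * Z ^ 3) *
          (C₁ * B * X' ^ (η - 1 / 2 + 1)) ^ 2) := by gcongr
      _ = K * Z ^ (6 * η) * ((Z ^ 13)⁻¹ * (8 * Z ^ 3) *
          (C₁ ^ 2 * B ^ 2 * (X' ^ (η - 1 / 2 + 1)) ^ 2)) := by ring
      _ ≤ K * Z ^ (6 * η) * ((Z ^ 13)⁻¹ * (8 * Z ^ 3) *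
          (C₁ ^ 2 * B ^ 2 * (X * Z ^ (2 * η)))) := by gcongr
      _ = 8 * C₁ ^ 2 * B ^ 2 * K * X * (Z ^ 10)⁻¹ * (Z ^ (6 * η) * Z ^ (2 * η)) := by field_simp
      _ ≤ 8 * C₁ ^ 2 * B ^ 2 * K * X * (Z ^ 10)⁻¹ * Z := by gcongr
      _ = _ := by field_simp
  have hc : ((Lab (X * Z ^ η * Y)).card : ℝ) ≤ 1331 * Z ^ 9 := by
    have hsub : Lab (X * Z ^ η * Y) ⊆ ball (Z ^ 3) ×ˢ ball (Z ^ 3) ×ˢ ball (Z ^ 3) := fun l hl => by
      obtain ⟨g1, g2, g3, -⟩ := s2a_lab_le hl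
      simp only [Finset.mem_product, mem_ball]
      exact ⟨g1.trans hV, g2.trans hV, g3.trans hV⟩
    have hb := card_ball_le (one_le_pow₀ hZ : 1 ≤ Z ^ 3)
    calc ((Lab (X * Z ^ η * Y)).card : ℝ) ≤
        ((ball (Z ^ 3) ×ˢ ball (Z ^ 3) ×ˢ ball (Z ^ 3)).card : ℝ) := by
          exact_mod_cast Finset.card_le_card hsub
      _ = (ball (Z ^ 3)).card * ((ball (Z ^ 3)).card * (ball (Z ^ 3)).card) := by
          simp [Finset.card_product]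
      _ ≤ 11 * Z ^ 3 * (11 * Z ^ 3 * (11 * Z ^ 3)) := by gcongr
      _ = _ := by ring
  refine (Finset.sum_le_card_nsmul _ _ _ key).trans ?_
  rw [nsmul_eq_mul]
  calc _ ≤ 1331 * Z ^ 9 * (8 * C₁ ^ 2 * B ^ 2 * K * X * (Z ^ 9)⁻¹) := by gcongr
    _ = _ := by field_simp

/-- the first-step diagonal and tail (`maj_sum_sq`, `maj_sum` with `R = 1`) -/
theorem step1_triv {a η : ℝ} (ha : 0 < a) (hη : 0 < η) {A : ℕ} (hA : 13 ≤ η * (A - 1)) :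
    ∃ C : ℝ, 0 < C ∧ ∀ (f : O → ℂ) (X B Z : ℝ), 1 ≤ Z → 0 < X → X ≤ Z → 0 ≤ B → Maj a X B f →
      l2 f ≤ C * B ^ 2 * X ∧ tail A f X (Z ^ η) ≤ C * B ^ 2 * X := by
  obtain ⟨C₁, hC₁, h₁⟩ := s2a_tail_sum ha 0 A
  obtain ⟨C₂, hC₂, h₂⟩ := maj_sum_sq ha 0
  refine ⟨C₂ + 8 * C₁ ^ 2, by positivity, fun f X B Z hZ hX hXZ hB hf => ⟨?_, ?_⟩⟩
  · have q := (h₂ f X B 1 hX hB hf prim_one).2
    simp only [one_mul, Real.rpow_zero, mul_one, nm_one, div_one, zero_add, Real.rpow_one] at q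
    refine le_trans q ?_
    gcongr
    exact le_add_of_nonneg_right (by positivity)
  · have h0 : 0 < Z := by linarith
    obtain ⟨t0, t1⟩ := s2a_T hA hZ
    have q := h₁ f f X B 1 hX hB hf prim_one fun m _ => by simp
    simp only [nm_one, div_one, zero_add, Real.rpow_one] at q
    have q0 : 0 ≤ ∑' n : Pr, ‖f n‖ * (nm n / X) ^ A :=
      tsum_nonneg fun n => mul_nonneg (norm_nonneg _) (pow_nonneg (div_nonneg (nm_nonneg _) hX.le) _)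
    have c3 : (1 + X) ^ 3 ≤ 8 * Z ^ 3 := by
      calc (1 + X) ^ 3 ≤ (2 * Z) ^ 3 := by gcongr; linarith
        _ = _ := by ring
    have c5 : X * (Z ^ 10)⁻¹ ≤ 1 := by
      rw [← div_eq_mul_inv, div_le_one (by positivity)]
      exact hXZ.trans (le_self_pow₀ hZ (by norm_num))
    unfold tail
    calc _ ≤ (Z ^ 13)⁻¹ * (8 * Z ^ 3) * (C₁ * B * X) ^ 2 := by gcongr
      _ = 8 * C₁ ^ 2 * B ^ 2 * X * (X * (Z ^ 10)⁻¹) := by field_simp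
      _ ≤ 8 * C₁ ^ 2 * B ^ 2 * X * 1 := by gcongr
      _ ≤ _ := by
          rw [mul_one]
          gcongr
          exact le_add_of_nonneg_left hC₂.le


end Crest.Agent.R17.M2
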