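import Crest.Agent.R17.M2.Step2a

/-! Row 17, block M2 (owner helper24): second Poisson step: the ledger. -/

set_option autoImplicit false

namespace Crest.Agent.R17.M2

open scoped ComplexConjugate
open Complex

/-- termwise; `IsTw.mul`, `nm_mul`, `Complex.mul_cpow_ofReal_nonneg`, `Complex.cpow_add` -/
theorem Sp_child_child (f : O → ℂ) {ρ : O → ℂ} (hρ : IsTw 4 ρ) (ρ' : O → ℂ) (η τ τ' : ℝ)
    (l : O × O × O) {l' : O × O × O} (h' : Prim (l'.1 * l'.2.1 * l'.2.2)) (u : O) :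
    Sp false (child (child f ρ (η + τ * I) l) ρ' (η + τ' * I) l') u =
      ρ (l'.1 * l'.2.1 * l'.2.2) * (nm (l'.1 * l'.2.1 * l'.2.2) : ℂ) ^ (η + τ * I - 1 / 2) *
        Tq f (l.1 * l.2.1 * l.2.2 * (l'.1 * l'.2.1 * l'.2.2))
          (th (fun n => ρ n * ρ' n) (wt η (τ + τ')) u) := by
  unfold Sp Tq
  rw [← tsum_mul_left]
  refine tsum_congr fun m => ?_
  have hm : (nm m : ℂ) ≠ 0 := ofReal_ne_zero.2 (nm_prim_pos (Pr_prim m)).ne'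
  have e : wt η (τ + τ') = (η + τ * I - 1 / 2) + (η + τ' * I - 1 / 2) := by
    unfold wt
    push_cast
    ring
  simp only [child, th, sj_false]
  rw [hρ.mul (l'.1 * l'.2.1 * l'.2.2) m, nm_mul (l'.1 * l'.2.1 * l'.2.2) m, ofReal_mul,
    Complex.mul_cpow_ofReal_nonneg (nm_nonneg _) (nm_nonneg _), e, Complex.cpow_add _ _ hm,
    ← mul_assoc (l.1 * l.2.1 * l.2.2)]
  ring

/-- the row of a pair of labels and a dual row -/
noncomputable def row (x : (O × O × O) × (O × O × O) × O) : O :=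
  x.2.2 * (x.1.1 * x.1.2.2 ^ 2) * x.2.1.1 * x.2.1.2.1 ^ 2

/-- Group by `(u, g, j₂)` with `u = row x`: the other five coordinates divide `u`
(`card_divisors_le` with `ε = η`, `N u ≤ Z`); `sum_inv_nm_le` twice on `ball (Z³)`. -/
theorem ledger_mult {η : ℝ} (hη : 0 < η) : ∃ C : ℝ, 0 < C ∧
    ∀ (Z V : ℝ) (μ : O → ℝ) (J : Finset ((O × O × O) × (O × O × O) × O)), 1 ≤ Z → V ≤ Z →
      (∀ u ∈ rows V, 0 ≤ μ u) →
      (∀ x ∈ J, nm x.1.2.1 ≤ Z ^ 3 ∧ nm x.2.1.2.2 ≤ Z ^ 3 ∧ row x ∈ rows V) →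
      ∑ x ∈ J, μ (row x) / (nm x.1.2.1 * nm x.2.1.2.2) ≤ C * Z ^ (6 * η) * ∑ u ∈ rows V, μ u := by
  classical
  obtain ⟨C, hC, H⟩ := card_divisors_le hη
  refine ⟨C ^ 5 * (44 * (1 + 6 / η)) ^ 2, by positivity, fun Z V μ J hZ hV hμ hJ => ?_⟩
  have hZ0 : 0 < Z := by linarith
  set φ : (O × O × O) × (O × O × O) × O → O × O × O := fun x => (row x, x.1.2.1, x.2.1.2.2) with hφ
  set G : O × O × O → ℝ := fun y => μ y.1 * ((nm y.2.1)⁻¹ * (nm y.2.2)⁻¹) with hG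
  have hmap : ∀ x ∈ J, φ x ∈ rows V ×ˢ ball (Z ^ 3) ×ˢ ball (Z ^ 3) := fun x hx => by
    simp only [hφ, Finset.mem_product, mem_ball]
    exact ⟨(hJ x hx).2.2, (hJ x hx).1, (hJ x hx).2.1⟩
  have hfib : ∀ y ∈ rows V ×ˢ ball (Z ^ 3) ×ˢ ball (Z ^ 3),
      ((J.filter fun x => φ x = y).card : ℝ) ≤ (C * Z ^ η) ^ 5 := fun y hy => by
    obtain ⟨hu0, hu⟩ := mem_rows.1 (Finset.mem_product.1 hy).1
    set D : Finset O := (ball (nm y.1)).filter (· ∣ y.1) with hD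
    have hmem : ∀ d, d ∣ y.1 → d ∈ D := fun d hd =>
      Finset.mem_filter.2 ⟨mem_ball.2 (nm_le_of_dvd hd hu0), hd⟩
    have h1 : (D.card : ℝ) ≤ C * Z ^ η :=
      (H y.1 D hu0 fun d hd => (Finset.mem_filter.1 hd).2).trans (mul_le_mul_of_nonneg_left
        (Real.rpow_le_rpow (nm_nonneg _) (hu.trans hV) hη.le) hC.le)
    have h2 : (J.filter fun x => φ x = y).card ≤ (D ×ˢ D ×ˢ D ×ˢ D ×ˢ D).card := by
      refine Finset.card_le_card_of_injOn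
        (fun x => (x.1.1, x.1.2.2, x.2.1.1, x.2.1.2.1, x.2.2)) (fun x hx => ?_) fun x hx x' hx' e => ?_
      · have e : row x = y.1 := congrArg Prod.fst (Finset.mem_filter.1 (Finset.mem_coe.1 hx)).2
        simp only [Finset.coe_product, Set.mem_prod, Finset.mem_coe]
        refine ⟨hmem _ ?_, hmem _ ?_, hmem _ ?_, hmem _ ?_, hmem _ ?_⟩ <;> rw [← e, row]
        · exact ⟨x.2.2 * x.1.2.2 ^ 2 * x.2.1.1 * x.2.1.2.1 ^ 2, by ring⟩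
        · exact ⟨x.2.2 * x.1.1 * x.1.2.2 * x.2.1.1 * x.2.1.2.1 ^ 2, by ring⟩
        · exact ⟨x.2.2 * x.1.1 * x.1.2.2 ^ 2 * x.2.1.2.1 ^ 2, by ring⟩
        · exact ⟨x.2.2 * x.1.1 * x.1.2.2 ^ 2 * x.2.1.1 * x.2.1.2.1, by ring⟩
        · exact ⟨x.1.1 * x.1.2.2 ^ 2 * x.2.1.1 * x.2.1.2.1 ^ 2, by ring⟩
      · have e' : φ x = φ x' := (Finset.mem_filter.1 (Finset.mem_coe.1 hx)).2.trans
          (Finset.mem_filter.1 (Finset.mem_coe.1 hx')).2.symm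
        obtain ⟨⟨a1, a2, a3⟩, ⟨a4, a5, a6⟩, a7⟩ := x
        obtain ⟨⟨b1, b2, b3⟩, ⟨b4, b5, b6⟩, b7⟩ := x'
        simp only [hφ, Prod.mk.injEq] at e e' ⊢
        exact ⟨⟨e.1, e'.2.1, e.2.1⟩, ⟨e.2.2.1, e.2.2.2.1, e'.2.2⟩, e.2.2.2.2⟩
    have h3 : ((D ×ˢ D ×ˢ D ×ˢ D ×ˢ D).card : ℝ) = (D.card : ℝ) ^ 5 := by
      simp only [Finset.card_product]
      push_cast
      ring
    exact (Nat.cast_le.2 h2).trans (h3.trans_le (pow_le_pow_left₀ (Nat.cast_nonneg _) h1 5))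
  have hlog : ∑ n ∈ ball (Z ^ 3), (nm n)⁻¹ ≤ 44 * (1 + 6 / η) * Z ^ (η / 2) := by
    refine (sum_inv_nm_le (one_le_pow₀ hZ) fun n hn => mem_ball.1 hn).trans ?_
    have a1 := Real.log_le_rpow_div hZ0.le (by positivity : 0 < η / 2)
    have a2 : 1 ≤ Z ^ (η / 2) := Real.one_le_rpow hZ (by positivity)
    have a3 : Z ^ (η / 2) / (η / 2) * 3 = 6 / η * Z ^ (η / 2) := by
      field_simp
      ring
    rw [Real.log_pow, mul_assoc, add_mul]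
    push_cast
    linarith
  have hS0 : 0 ≤ ∑ n ∈ ball (Z ^ 3), (nm n)⁻¹ :=
    Finset.sum_nonneg fun n _ => inv_nonneg.2 (nm_nonneg n)
  have hμ0 : 0 ≤ ∑ u ∈ rows V, μ u := Finset.sum_nonneg hμ
  calc ∑ x ∈ J, μ (row x) / (nm x.1.2.1 * nm x.2.1.2.2)
      = ∑ y ∈ rows V ×ˢ ball (Z ^ 3) ×ˢ ball (Z ^ 3), ∑ x ∈ J with φ x = y, G (φ x) := by
        rw [Finset.sum_fiberwise_of_maps_to hmap]
        exact Finset.sum_congr rfl fun x _ => by simp only [hG, hφ, div_eq_mul_inv, mul_inv]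
    _ ≤ ∑ y ∈ rows V ×ˢ ball (Z ^ 3) ×ˢ ball (Z ^ 3), (C * Z ^ η) ^ 5 * G y := by
        refine Finset.sum_le_sum fun y hy => ?_
        rw [Finset.sum_congr rfl fun x hx => congrArg G (Finset.mem_filter.1 hx).2,
          Finset.sum_const, nsmul_eq_mul]
        refine mul_le_mul_of_nonneg_right (hfib y hy) (mul_nonneg (hμ _ (Finset.mem_product.1 hy).1) ?_)
        exact mul_nonneg (inv_nonneg.2 (nm_nonneg _)) (inv_nonneg.2 (nm_nonneg _))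
    _ = (C * Z ^ η) ^ 5 * (∑ n ∈ ball (Z ^ 3), (nm n)⁻¹) ^ 2 * ∑ u ∈ rows V, μ u := by
        rw [← Finset.mul_sum, mul_assoc, mul_comm ((∑ n ∈ ball (Z ^ 3), (nm n)⁻¹) ^ 2), pow_two,
          Finset.sum_mul_sum, Finset.sum_mul]
        simp only [Finset.sum_product, hG, Finset.mul_sum]
    _ ≤ (C * Z ^ η) ^ 5 * (44 * (1 + 6 / η) * Z ^ (η / 2)) ^ 2 * ∑ u ∈ rows V, μ u := by
        gcongr
    _ = _ := by
        have e : Z ^ (6 * η) = (Z ^ η) ^ 5 * (Z ^ (η / 2)) ^ 2 := by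
          rw [← Real.rpow_natCast, ← Real.rpow_natCast, ← Real.rpow_mul hZ0.le,
            ← Real.rpow_mul hZ0.le, ← Real.rpow_add hZ0]
          congr 1
          push_cast
          ring
        rw [e]
        ring

theorem S2bb_sigma {α β : Type} (s : Finset α) (t : α → Finset β) : ∃ J : Finset (α × β),
    (∀ x ∈ J, x.1 ∈ s ∧ x.2 ∈ t x.1) ∧
      ∀ F : α × β → ℝ, ∑ a ∈ s, ∑ b ∈ t a, F (a, b) = ∑ x ∈ J, F x := by
  refine ⟨(s.sigma t).map (Equiv.sigmaEquivProd α β).toEmbedding, fun x hx => ?_, fun F => ?_⟩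
  · obtain ⟨y, hy, rfl⟩ := Finset.mem_map.1 hx
    exact Finset.mem_sigma.1 hy
  · rw [Finset.sum_map, Finset.sum_sigma']
    rfl

theorem S2bb_lab {V : ℝ} {l : O × O × O} (hl : l ∈ Lab V) :
    1 ≤ nm l.1 ∧ 1 ≤ nm l.2.1 ∧ 1 ≤ nm l.2.2 ∧ Prim (l.1 * l.2.1 * l.2.2) ∧
      nm (l.1 * l.2.1 * l.2.2) ≤ V := by
  obtain ⟨h1, h2, h3, h4⟩ := mem_Lab'.1 hl
  exact ⟨one_le_nm_prim h1, one_le_nm_prim h2, one_le_nm_prim h3, (h1.mul h2).mul h3, h4.2.2.2⟩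

theorem S2bb_row {X K Y T : ℝ} (hK : 0 < K) (hX : 0 < X) (hY : 0 < Y) (hT : 0 < T) {V V' : ℝ}
    {l l' : O × O × O} (hl : l ∈ Lab V) (hl' : l' ∈ Lab V') {h : O}
    (hh : h ∈ rows (len (Y ^ 6 * len K X T l) (X / nm (l.1 * l.2.1 * l.2.2)) T l')) :
    row (l, l', h) ∈ rows (K / Y ^ 6) := by
  obtain ⟨a1, a2, a3, -⟩ := mem_Lab'.1 hl
  obtain ⟨b1, b2, b3, -⟩ := mem_Lab'.1 hl'
  obtain ⟨c1, c2⟩ := mem_rows.1 hh
  have := nm_prim_pos a1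
  have := nm_prim_pos a2
  have := nm_prim_pos a3
  have := nm_prim_pos b1
  have := nm_prim_pos b2
  refine mem_rows.2 ⟨mul_ne_zero (mul_ne_zero (mul_ne_zero c1 (mul_ne_zero a1.ne_zero
    (pow_ne_zero _ a3.ne_zero))) b1.ne_zero) (pow_ne_zero _ b2.ne_zero), ?_⟩
  simp only [row, nm_mul, nm_pow]
  calc _ ≤ len (Y ^ 6 * len K X T l) (X / nm (l.1 * l.2.1 * l.2.2)) T l' *
        (nm l.1 * nm l.2.2 ^ 2) * nm l'.1 * nm l'.2.1 ^ 2 := by gcongr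
    _ = _ := by
        simp only [len, nm_mul]
        field_simp

theorem S2bb_pow {Z V η : ℝ} (hZ : 1 ≤ Z) (hη : 0 < η) (hV : 0 ≤ V) (k : ℕ) (h : V ≤ Z ^ k) :
    V ^ (2 * η) ≤ (Z ^ η) ^ (2 * k) := by
  refine (Real.rpow_le_rpow hV h (by positivity)).trans_eq ?_
  rw [← Real.rpow_natCast, ← Real.rpow_natCast, ← Real.rpow_mul (by linarith),
    ← Real.rpow_mul (by linarith)]
  congr 1
  push_cast
  ring

/-- `K_l = Y⁶ len K X T l ≥ 1`, `X_l = X / N(e g j)`, `T = Z^η`.  The row has norm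
`≤ T X_l² N e N j² / K_l = K / Y⁶`; the shift `e g j e₂ g₂ j₂` has norm `≤ X T ≤ Z²`.
`pre_le` twice (`V = X T Y ≤ Z³`, `V' = X_l T ≤ Z²`), `Sp_child_child`:
term `≤ Z^(6η) K/(Ne Nj) · Z^(4η) K_l/(Ne₂ Nj₂) · Z^(4η) N(e g j) μ ≤ Z^(15η) Y⁶ X² μ/(Ng Nj₂)`;
write the triple sum as a sum over a `Finset.sigma`/`biUnion` image `J`, `ledger_mult`. -/
theorem step2_ledger {η : ℝ} (hη : 0 < η) : ∃ C : ℝ, 0 < C ∧
    ∀ (f ρ ρ' : O → ℂ) (μ : O → ℝ) (X K Y Z τ τ' : ℝ) (J : Finset (O × O × O)), 1 ≤ K → K ≤ Z →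
      0 < X → X ≤ Z → 1 ≤ Y → Y ≤ Z → Z ^ η ≤ Z → IsTw 4 ρ →
      (∀ l ∈ J, l ∈ Lab (X * Z ^ η * Y) ∧ 1 ≤ Y ^ 6 * len K X (Z ^ η) l) →
      (∀ u ∈ rows (K / Y ^ 6), ∀ R : O, Prim R → nm R ≤ Z ^ 2 →
        ‖Tq f R (th (fun n => ρ n * ρ' n) (wt η (τ + τ')) u)‖ ^ 2 ≤ μ u * nm R) →
      ∑ l ∈ J, pre η K l * ∑ l' ∈ Lab (X / nm (l.1 * l.2.1 * l.2.2) * Z ^ η),
          pre η (Y ^ 6 * len K X (Z ^ η) l) l' *
            ∑ h ∈ rows (len (Y ^ 6 * len K X (Z ^ η) l) (X / nm (l.1 * l.2.1 * l.2.2)) (Z ^ η) l'),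
              ‖Sp false (child (child f ρ (η + τ * I) l) ρ' (η + τ' * I) l')
                (h * (l.1 * l.2.2 ^ 2) * l'.1 * l'.2.1 ^ 2)‖ ^ 2 ≤
        C * Z ^ (21 * η) * Y ^ 6 * X ^ 2 * ∑ u ∈ rows (K / Y ^ 6), μ u := by
  classical
  obtain ⟨C, hC, hm⟩ := ledger_mult hη
  refine ⟨C, hC, fun f ρ ρ' μ X K Y Z τ τ' J hK hKZ hX hXZ hY hYZ hT hρ hJ hμ => ?_⟩
  have hZ : 1 ≤ Z := hK.trans hKZ
  have hZ0 : 0 < Z := by linarith
  have hK0 : 0 < K := by linarith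
  have hY0 : 0 < Y := by linarith
  have hT1 : 1 ≤ Z ^ η := Real.one_le_rpow hZ hη.le
  set T := Z ^ η with hTd
  have hT0 : 0 < T := by linarith
  have hμ0 : ∀ u ∈ rows (K / Y ^ 6), 0 ≤ μ u := fun u hu => by
    have := hμ u hu 1 Pr.one_mem (by rw [nm_one]; exact one_le_pow₀ hZ)
    rw [nm_one, mul_one] at this
    exact (sq_nonneg _).trans this
  have hXT : X * T ≤ Z ^ 2 := by
    rw [pow_two]
    gcongr
  have hXTY : X * T * Y ≤ Z ^ 3 := by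
    rw [pow_succ]
    gcongr
  choose J₂ hJ₂ hJ₂' using fun l : O × O × O => S2bb_sigma (Lab (X / nm (l.1 * l.2.1 * l.2.2) * T))
    fun l' => rows (len (Y ^ 6 * len K X T l) (X / nm (l.1 * l.2.1 * l.2.2)) T l')
  obtain ⟨J₃, hJ₃, hJ₃'⟩ := S2bb_sigma J J₂
  have hXl : ∀ l ∈ J, X / nm (l.1 * l.2.1 * l.2.2) * T ≤ Z ^ 2 := fun l hl => by
    refine le_trans ?_ hXT
    gcongr
    exact div_le_self hX.le (one_le_nm_prim (S2bb_lab (hJ l hl).1).2.2.2.1)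
  have key := hm Z (K / Y ^ 6) μ J₃ hZ ((div_le_self hK0.le (one_le_pow₀ hY)).trans hKZ) hμ0
    fun x hx => by
      obtain ⟨x1, x2⟩ := hJ₃ x hx
      obtain ⟨x3, x4⟩ := hJ₂ x.1 x.2 x2
      obtain ⟨-, -, -, a4, a5⟩ := S2bb_lab (hJ _ x1).1
      obtain ⟨-, -, -, b4, b5⟩ := S2bb_lab x3
      refine ⟨?_, ?_, S2bb_row hK0 hX hY0 hT0 (hJ _ x1).1 x3 x4⟩
      · exact (nm_le_of_dvd ((dvd_mul_left _ _).mul_right _) a4.ne_zero).trans (a5.trans hXTY)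
      · exact (nm_le_of_dvd (dvd_mul_left _ _) b4.ne_zero).trans (b5.trans ((hXl _ x1).trans
          (pow_le_pow_right₀ hZ (by norm_num))))
  rw [← hJ₃'] at key
  have e21 : Z ^ (21 * η) = T ^ 15 * Z ^ (6 * η) := by
    rw [hTd, ← Real.rpow_natCast, ← Real.rpow_mul hZ0.le, ← Real.rpow_add hZ0]
    congr 1
    push_cast
    ring
  have hc : 0 ≤ T ^ 15 * Y ^ 6 * X ^ 2 := by positivity
  refine le_trans ?_ ((mul_le_mul_of_nonneg_left key hc).trans_eq (by rw [e21]; ring))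
  rw [Finset.mul_sum]
  refine Finset.sum_le_sum fun l hl => ?_
  rw [← hJ₂' l fun y => μ (row (l, y)) / (nm l.2.1 * nm y.1.2.2), Finset.mul_sum, Finset.mul_sum]
  refine Finset.sum_le_sum fun l' hl' => ?_
  rw [Finset.mul_sum, Finset.mul_sum, Finset.mul_sum]
  refine Finset.sum_le_sum fun h hh => ?_
  obtain ⟨hl1, hl2⟩ := hJ l hl
  obtain ⟨a1, a2, a3, a4, a5⟩ := S2bb_lab hl1
  obtain ⟨b1, b2, b3, b4, b5⟩ := S2bb_lab hl'
  have hr := S2bb_row hK0 hX hY0 hT0 hl1 hl' hh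
  have hd := nm_prim_pos a4
  have hd' := nm_prim_pos b4
  obtain ⟨p1, p2⟩ := pre_le hη hK hl1
  obtain ⟨q1, q2⟩ := pre_le hη hl2 hl'
  have r1 := S2bb_pow hZ hη (by positivity) 3 hXTY
  have r2 := S2bb_pow hZ hη (by positivity) 2 (hXl l hl)
  have r3 := S2bb_pow hZ hη hd'.le 2 (b5.trans (hXl l hl))
  rw [← hTd] at r1 r2 r3
  have hμr := hμ0 _ hr
  have s1 := hμ _ hr _ (a4.mul b4) (by
    rw [nm_mul]
    refine le_trans ?_ hXT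
    calc _ ≤ nm (l.1 * l.2.1 * l.2.2) * (X / nm (l.1 * l.2.1 * l.2.2) * T) := by gcongr
      _ = _ := by field_simp)
  have s2 : ‖Sp false (child (child f ρ (η + τ * I) l) ρ' (η + τ' * I) l')
      (h * (l.1 * l.2.2 ^ 2) * l'.1 * l'.2.1 ^ 2)‖ ^ 2 ≤
      T ^ 4 * nm (l.1 * l.2.1 * l.2.2) * μ (row (l, l', h)) := by
    rw [Sp_child_child f hρ ρ' η τ τ' l b4, norm_mul, norm_mul,
      Complex.norm_cpow_eq_rpow_re_of_pos hd', mul_pow, mul_pow]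
    have t1 : ‖ρ (l'.1 * l'.2.1 * l'.2.2)‖ ^ 2 ≤ 1 :=
      pow_le_one₀ (norm_nonneg _) (hρ.norm_le four_ne _)
    have t2 : (nm (l'.1 * l'.2.1 * l'.2.2) ^ ((η : ℂ) + τ * I - 1 / 2).re) ^ 2 =
        nm (l'.1 * l'.2.1 * l'.2.2) ^ (2 * η) / nm (l'.1 * l'.2.1 * l'.2.2) := by
      rw [← Real.rpow_natCast, ← Real.rpow_mul hd'.le, ← Real.rpow_sub_one hd'.ne']
      congr 1
      simp
      ring
    rw [t2]
    rw [nm_mul (l.1 * l.2.1 * l.2.2)] at s1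
    calc _ ≤ 1 * (T ^ (2 * 2) / nm (l'.1 * l'.2.1 * l'.2.2)) * (μ (row (l, l', h)) *
          (nm (l.1 * l.2.1 * l.2.2) * nm (l'.1 * l'.2.1 * l'.2.2))) := by
          gcongr
          exact s1
      _ = _ := by
          field_simp
          ring
  have hKl : 0 ≤ Y ^ 6 * len K X T l := by linarith
  have p3 : pre η K l ≤ K / (nm l.1 * nm l.2.2) * T ^ 6 := p2.trans (by gcongr)
  have q3 : pre η (Y ^ 6 * len K X T l) l' ≤
      Y ^ 6 * len K X T l / (nm l'.1 * nm l'.2.2) * T ^ 4 := q2.trans (by gcongr)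
  calc _ ≤ K / (nm l.1 * nm l.2.2) * T ^ 6 * (Y ^ 6 * len K X T l / (nm l'.1 * nm l'.2.2) * T ^ 4 *
        (T ^ 4 * nm (l.1 * l.2.1 * l.2.2) * μ (row (l, l', h)))) := by gcongr
    _ = T ^ 15 * Y ^ 6 * X ^ 2 * (μ (row (l, l', h)) / (nm l.2.1 * nm l'.2.2)) /
        (nm l.1 * nm l'.1) := by
        simp only [len, nm_mul]
        field_simp
    _ ≤ _ := div_le_self (by positivity) (one_le_mul_of_one_le_of_one_le a1 b1)


end Crest.Agent.R17.M2
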